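import Vale.Agent.P283.A647.Props

/-!
A10: the exponents of the complement.
-/

set_option linter.all false

namespace Vale.Agent.P283.A647.A10

open Vale.Agent.P283.A647
open Vale.Agent.P283.T647 (psum fval Triv Ch)

section

variable {g R k N M : ℕ}

/-- The point with the multiplicities `σ` and the spine part `a`. -/
def ptv (σ : Option (Fin R) → ℤ) (a : Fin k → ℤ) : Fin R ⊕ Fin k → ℤ :=
  Sum.elim (fun i => σ (some i) - σ none) a

theorem wt_ptv (σ : Option (Fin R) → ℤ) (a : Fin k → ℤ) (p : Option (Fin R)) :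
    wt (ptv σ a) p = σ p - σ none := by
  rcases p with _ | i
  · simp [wt]
  · simp [wt, ptv]

theorem low_le (α : Fin R ⊕ Fin k → ℤ) (p : Option (Fin R)) : low α ≤ wt α p :=
  ciInf_le (Set.finite_range _).bddBelow p

theorem low_att (α : Fin R ⊕ Fin k → ℤ) : ∃ p, low α = wt α p := by
  obtain ⟨p, hp⟩ := exists_eq_ciInf_of_finite (f := wt α)
  exact ⟨p, hp.symm⟩

theorem low_ptv (σ : Option (Fin R) → ℤ) (a : Fin k → ℤ) (h0 : ∀ p, 0 ≤ σ p)
    (h1 : ∃ p, σ p = 0) : low (ptv σ a) = -σ none := by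
  apply le_antisymm
  · obtain ⟨p, hp⟩ := h1
    have h2 := low_le (ptv σ a) p
    rw [wt_ptv, hp] at h2
    linarith
  · obtain ⟨p, hp⟩ := low_att (ptv σ a)
    rw [hp, wt_ptv]
    linarith [h0 p]

/-- A functional which vanishes on the relation between the pages. -/
theorem lin_val (e : Option (Fin R) → ℤ) (c : Fin k → ℤ) (he : ∑ p, e p = 0)
    (σ : Option (Fin R) → ℤ) (a : Fin k → ℤ) :
    ∑ x, Sum.elim (fun i => e (some i)) c x * ptv σ a x =
      ∑ p, σ p * e p + ∑ i, c i * a i := by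
  rw [Fintype.sum_sum_type]
  simp only [Sum.elim_inl, Sum.elim_inr, ptv]
  congr 1
  rw [Fintype.sum_option] at he ⊢
  have h1 : ∑ i, e (some i) * (σ (some i) - σ none) =
      ∑ i, σ (some i) * e (some i) - σ none * ∑ i, e (some i) := by
    rw [Finset.mul_sum, ← Finset.sum_sub_distrib]
    exact Finset.sum_congr rfl fun i _ => by ring
  rw [h1]
  linear_combination (-σ none) * he

/-- The log discrepancy of a point. -/
theorem logDisc_ptv (σ : Option (Fin R) → ℤ) (a : Fin k → ℤ) (h0 : ∀ p, 0 ≤ σ p)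
    (h1 : ∃ p, σ p = 0) :
    logDisc g (ptv σ a) = ∑ p, σ p - ((g : ℤ) + 1) * σ none + ∑ l, a l := by
  unfold logDisc
  rw [low_ptv σ a h0 h1, Fintype.sum_sum_type, Fintype.sum_option]
  simp only [Sum.elim_inl, Sum.elim_inr, ptv]
  rw [Finset.sum_sub_distrib, Finset.sum_const, Finset.card_univ, Fintype.card_fin]
  simp only [nsmul_eq_mul]
  ring

/-- The exponent of a functional. -/
def gam (q K : ℕ) (b : Option (Fin R) → ℤ) (c : Fin k → ℤ) : Fin R ⊕ Fin k → ℤ :=
  Sum.elim (fun i => b (some i)) (fun l => (K : ℤ) * q - c l)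

theorem gam_val (q K : ℕ) (b : Option (Fin R) → ℤ) (c : Fin k → ℤ)
    (hb : ∑ p, b p = (g + 1) * q * K) (σ : Option (Fin R) → ℤ) (a : Fin k → ℤ)
    (h0 : ∀ p, 0 ≤ σ p) (h1 : ∃ p, σ p = 0) :
    K * (q * logDisc g (ptv σ a)) - ∑ x, gam q K b c x * ptv σ a x =
      ∑ p, σ p * (q * K - b p) + ∑ i, c i * a i := by
  rw [logDisc_ptv σ a h0 h1, Fintype.sum_sum_type]
  simp only [Sum.elim_inl, Sum.elim_inr, ptv, gam]
  have h2 : ∑ l, ((K : ℤ) * q - c l) * a l = K * q * ∑ l, a l - ∑ l, c l * a l := by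
    simp only [sub_mul, Finset.sum_sub_distrib, Finset.mul_sum]
  have h3 : ∑ i, b (some i) * (σ (some i) - σ none) =
      ∑ i, σ (some i) * b (some i) - σ none * ∑ i, b (some i) := by
    rw [Finset.mul_sum, ← Finset.sum_sub_distrib]
    exact Finset.sum_congr rfl fun i _ => by ring
  have h4 : ∑ p, σ p * ((q : ℤ) * K - b p) = q * K * ∑ p, σ p - ∑ p, σ p * b p := by
    rw [Finset.mul_sum, ← Finset.sum_sub_distrib]
    exact Finset.sum_congr rfl fun i _ => by ring
  rw [h2, h3, h4, Fintype.sum_option (fun p => σ p * b p)]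
  rw [Fintype.sum_option] at hb
  linear_combination (σ none) * hb

/-- Raising a function at a page. -/
theorem raise {P : Type} [Fintype P] [DecidableEq P] (p₁ : P)
    (b : P → ℤ) (T : ℤ) (hb : ∑ p, b p ≤ T) :
    ∃ b' : P → ℤ, (∀ p, b p ≤ b' p) ∧ (∀ p, p ≠ p₁ → b' p = b p) ∧ ∑ p, b' p = T := by
  refine ⟨Function.update b p₁ (b p₁ + (T - ∑ p, b p)), fun p => ?_, fun p hp => ?_, ?_⟩
  · by_cases h : p = p₁
    · subst h
      rw [Function.update_self]
      linarith
    · rw [Function.update_of_ne h]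
  · rw [Function.update_of_ne hp]
  · rw [Finset.sum_update_of_mem (Finset.mem_univ _)]
    have h1 : ∑ p, b p = b p₁ + ∑ p ∈ Finset.univ \ {p₁}, b p := by
      rw [← Finset.sum_sdiff (Finset.subset_univ {p₁}), Finset.sum_singleton]
      ring
    rw [h1]
    ring

/-- The multiplicities of a ray. -/
def mul (pg : Fin N → Option (Option (Fin R))) (s : Fin N → ℕ) (j : Fin N)
    (p : Option (Fin R)) : ℤ :=
  if pg j = some p then (s j : ℤ) else 0

theorem ptv_link {v : Fin N → Fin R ⊕ Fin k → ℤ} {pg : Fin N → Option (Option (Fin R))}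
    {s : Fin N → ℕ} (h : Link v pg s) (j : Fin N) :
    v j = ptv (mul pg s j) (fun l => v j (Sum.inr l)) := by
  funext x
  rcases x with i | l
  · rw [h j i]
    simp only [ptv, Sum.elim_inl, mul]
    rcases pg j with _ | _ | i'
    · simp
    · simp
    · simp only [Option.elim, Option.some.injEq]
      by_cases hi : i = i'
      · subst hi
        simp
      · rw [if_neg hi, if_neg (fun h => hi h.symm)]
        simp
  · rfl

theorem mul_nonneg (pg : Fin N → Option (Option (Fin R))) (s : Fin N → ℕ) (j : Fin N)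
    (p : Option (Fin R)) : 0 ≤ mul pg s j p := by
  unfold mul
  split_ifs
  · positivity
  · exact le_rfl

theorem mul_zero (hR : 0 < R) (pg : Fin N → Option (Option (Fin R))) (s : Fin N → ℕ)
    (j : Fin N) : ∃ p, mul pg s j p = 0 := by
  rcases h : pg j with _ | p₀
  · exact ⟨none, by simp [mul, h]⟩
  · haveI : Nontrivial (Option (Fin R)) :=
      Fintype.one_lt_card_iff_nontrivial.1 (by rw [Fintype.card_option, Fintype.card_fin]; omega)
    obtain ⟨p, hp⟩ := exists_ne p₀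
    refine ⟨p, ?_⟩
    unfold mul
    rw [if_neg]
    rw [h]
    intro h'
    exact hp (Option.some.inj h').symm

theorem sum_mul (pg : Fin N → Option (Option (Fin R))) (s : Fin N → ℕ) (j : Fin N)
    (f : Option (Fin R) → ℤ) :
    ∑ p, mul pg s j p * f p = (pg j).elim 0 (fun p => (s j : ℤ) * f p) := by
  unfold mul
  rcases pg j with _ | p₀
  · simp
  · simp only [Option.elim, Option.some.injEq, ite_mul, zero_mul]
    rw [Finset.sum_ite_eq Finset.univ p₀ (fun p => (s j : ℤ) * f p), if_pos (Finset.mem_univ _)]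

/-- The points of the tropicalization. -/
theorem onTrop_ptv {α : Fin R ⊕ Fin k → ℤ} (h : OnTrop g α) :
    ∃ σ : Option (Fin R) → ℕ, Supp g σ ∧ (∃ p, σ p = 0) ∧
      α = ptv (fun p => (σ p : ℤ)) (fun l => α (Sum.inr l)) := by
  obtain ⟨I, hI, hI'⟩ := h
  have h1 : ∀ p, (((wt α p - low α).toNat : ℕ) : ℤ) = wt α p - low α := fun p =>
    Int.toNat_of_nonneg (by linarith [low_le α p])
  refine ⟨fun p => (wt α p - low α).toNat, ⟨I, hI, fun p hp => ?_⟩, ?_, ?_⟩
  · show (wt α p - low α).toNat = 0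
    rw [hI' p hp, sub_self, Int.toNat_zero]
  · obtain ⟨p, hp⟩ := low_att α
    exact ⟨p, by simp only [hp, sub_self, Int.toNat_zero]⟩
  · funext x
    rcases x with i | l
    · simp only [ptv, Sum.elim_inl, h1]
      simp [wt]
    · rfl

theorem inCone_pair {ι : Type} [Fintype ι] {v : Fin N → ι → ℤ} {α : ι → ℤ} {t : Fin N → ℚ}
    (hta : ∀ x, (α x : ℚ) = ∑ j, t j * v j x) (γ : ι → ℤ) :
    ((∑ i, γ i * α i : ℤ) : ℚ) = ∑ j, t j * ((∑ i, γ i * v j i : ℤ) : ℚ) := by
  push_cast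
  simp only [hta, Finset.mul_sum]
  rw [Finset.sum_comm]
  exact Finset.sum_congr rfl fun j _ => Finset.sum_congr rfl fun k _ => by ring

theorem sum_off {P : Type} [Fintype P] {σ : P → ℤ} {p₁ : P} (h : σ p₁ = 0)
    {b b' : P → ℤ} (hb : ∀ p, p ≠ p₁ → b' p = b p) :
    ∑ p, σ p * b' p = ∑ p, σ p * b p := by
  refine Finset.sum_congr rfl fun p _ => ?_
  by_cases hp : p = p₁
  · subst hp
    rw [h, zero_mul, zero_mul]
  · rw [hb p hp]

theorem inBook_of_inCone {v : Fin N → Fin R ⊕ Fin k → ℤ}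
    {pg : Fin N → Option (Option (Fin R))} {s : Fin N → ℕ} (hl : Link v pg s)
    {σ : Option (Fin R) → ℕ} (h0 : ∃ p, σ p = 0) {a : Fin k → ℤ}
    (h : InCone v (ptv (fun p => (σ p : ℤ)) a)) :
    InBook pg s (fun j l => v j (Sum.inr l)) σ a := by
  intro e c he hj
  obtain ⟨p₁, hp₁⟩ := h0
  obtain ⟨e', he1, he2, he3⟩ := raise p₁ e 0 he
  obtain ⟨t, ht, hta⟩ := h
  have h1 := lin_val e' c he3 (fun p => (σ p : ℤ)) a
  rw [sum_off (σ := fun p => (σ p : ℤ)) (p₁ := p₁) (by simp [hp₁]) he2] at h1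
  rw [← h1]
  have h2 := inCone_pair hta (Sum.elim (fun i => e' (some i)) c)
  have h3 : (0 : ℚ) ≤ ((∑ x, Sum.elim (fun i => e' (some i)) c x *
      ptv (fun p => (σ p : ℤ)) a x : ℤ) : ℚ) := by
    rw [h2]
    refine Finset.sum_nonneg fun j _ => _root_.mul_nonneg (ht j) ?_
    have h4 : ∑ x, Sum.elim (fun i => e' (some i)) c x * v j x =
        (pg j).elim 0 (fun p => (s j : ℤ) * e' p) + ∑ i, c i * v j (Sum.inr i) := by
      conv_lhs => rw [ptv_link hl j]
      rw [lin_val e' c he3, sum_mul]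
    rw [h4]
    have h5 := hj j
    have h6 : (pg j).elim 0 (fun p => (s j : ℤ) * e p) ≤ (pg j).elim 0 (fun p => (s j : ℤ) * e' p) := by
      rcases pg j with _ | p
      · exact le_rfl
      · exact mul_le_mul_of_nonneg_left (he1 p) (by positivity)
    have h7 : (0 : ℤ) ≤ (pg j).elim 0 (fun p => (s j : ℤ) * e' p) + ∑ i, c i * v j (Sum.inr i) :=
      le_trans h5 (by linarith)
    exact_mod_cast h7
  exact_mod_cast h3

end

theorem ordMono_att {ι : Type} [Fintype ι] {M : ℕ} (E : Fin (M + 1) → ι → ℤ) (α : ι → ℤ) :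
    ∃ i, ordMono E α = ∑ x, E i x * α x := by
  obtain ⟨i, hi⟩ := exists_eq_ciInf_of_finite (f := fun i => ∑ x, E i x * α x)
  exact ⟨i, hi.symm⟩

end Vale.Agent.P283.A647.A10

namespace Vale.Agent.P283.A647

open A10
open Vale.Agent.P283.T647 (psum fval Triv Ch)

theorem a10 (h : BookAll) (h' : ToBook) : BookExpos := by
  classical
  intro g k q ε hg hq hε
  have hqε : 0 < q * ε := by positivity
  obtain ⟨k₀, hk₀, hmain⟩ := h k g q (q * ε) hq hqε
  refine ⟨k₀, hk₀, ?_⟩
  intro R N M r v E κ hr hgR hv hκ hκq hlc hsub K hK hK0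
  have hR : 0 < R := by omega
  obtain ⟨pg, s, hlink, hbook, hreal⟩ := h' g q ε hg hq hε R k N M r v E κ hr hgR hv hκ hκq hlc
  have hgoal := hmain _ _ pg s _ κ hbook hreal K hK hK0
  by_cases hex : ∃ α, OnTrop g α ∧ InCone v α ∧ α ≠ 0
  swap
  · push Not at hex
    refine ⟨{0}, Finset.singleton_nonempty _, ?_, fun α h1 h2 h3 => absurd (hex α h1 h2) h3⟩
    intro γ hγ α h1 h2
    rw [Finset.mem_singleton] at hγ
    subst hγ
    have h0 : α = 0 := hex α h1 h2
    subst h0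
    have h1 : ordMono E (0 : Fin R ⊕ Fin k → ℤ) = 0 := by
      obtain ⟨i, hi⟩ := ordMono_att E (0 : Fin R ⊕ Fin k → ℤ)
      rw [hi]; simp
    rw [h1]; simp
  let T : Fin N → ℤ := fun j => q * logDisc g (v j) - κ j
  have hT : ∀ j, (T j : ℚ) = q * ((ordMono E (v j) : ℚ) / r) := by
    intro j
    have h1 := hκ j
    simp only [T]
    push_cast
    rw [h1]
    unfold toricDisc
    ring
  have hpoint : ∀ α, OnTrop g α → InCone v α → α ≠ 0 → ∃ x : Fin R ⊕ Fin k → ℤ,
      (∀ j, K * T j ≤ ∑ i, x i * v j i) ∧ ∑ i, x i * α i < K * (q * logDisc g α) := by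
    intro α hα hc hα0
    obtain ⟨σ, hsupp, hz, hσ⟩ := onTrop_ptv hα
    obtain ⟨a, ha⟩ : ∃ a : Fin k → ℤ, a = fun l => α (Sum.inr l) := ⟨_, rfl⟩
    rw [← ha] at hσ
    have hne : σ ≠ 0 ∨ a ≠ 0 := by
      by_contra hno
      push Not at hno
      refine hα0 ?_
      rw [hσ, hno.1, hno.2]
      funext x
      rcases x with i | l
      · simp [ptv]
      · simp [ptv]
    rw [hσ] at hc
    obtain ⟨b, c, ⟨hb1, hb2⟩, hb3⟩ := hgoal σ a hsupp hne (inBook_of_inCone hlink hz hc)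
    obtain ⟨p₁, hp₁⟩ := hz
    obtain ⟨b', h1, h2, h3⟩ := raise p₁ b ((g + 1) * q * K) hb1
    refine ⟨gam q K b' c, fun j => ?_, ?_⟩
    · have h4 := gam_val (g := g) q K b' c h3 (A10.mul pg s j) (fun l => v j (Sum.inr l))
        (A10.mul_nonneg pg s j) (A10.mul_zero hR pg s j)
      rw [← ptv_link hlink j, sum_mul] at h4
      have h5 := hb2 j
      have h6 : (pg j).elim 0 (fun p => (s j : ℤ) * (q * K - b' p)) ≤
          (pg j).elim 0 (fun p => (s j : ℤ) * (q * K - b p)) := by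
        rcases pg j with _ | p
        · exact le_rfl
        · exact mul_le_mul_of_nonneg_left (by linarith [h1 p]) (by positivity)
      simp only [fval] at h5
      simp only [T]
      have h7 : (K : ℤ) * (q * logDisc g (v j) - κ j) = K * (q * logDisc g (v j)) - K * κ j := by
        ring
      rw [h7]
      linarith
    · have h4 := gam_val (g := g) q K b' c h3 (fun p => (σ p : ℤ)) a (fun p => by positivity)
        ⟨p₁, by simp [hp₁]⟩
      rw [← hσ] at h4
      have h5 : ∑ p, (σ p : ℤ) * (q * K - b' p) = ∑ p, (σ p : ℤ) * (q * K - b p) :=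
        sum_off (σ := fun p => (σ p : ℤ)) (p₁ := p₁) (by simp [hp₁])
          (fun p hp => by rw [h2 p hp])
      rw [h5] at h4
      unfold tval at hb3
      linarith
  -- finitely many exponents
  let P : Set (Fin R ⊕ Fin k → ℤ) := {x | ∀ j, K * T j ≤ ∑ i, x i * v j i}
  let F : (Fin R ⊕ Fin k → ℤ) → (Fin N → ℕ) := fun x j =>
    (∑ i, x i * v j i - K * T j).toNat
  have hF : ∀ x ∈ P, ∀ j, ((F x j : ℕ) : ℤ) = ∑ i, x i * v j i - K * T j := fun x hx j =>
    Int.toNat_of_nonneg (by have := hx j; linarith)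
  obtain ⟨Ff, hFf1, hFf2⟩ := Z647.dickson (F '' P)
  choose! G hG1 hG2 using hFf1
  have hle : ∀ x ∈ P, ∃ γ ∈ Ff.image G, ∀ j, ∑ i, γ i * v j i ≤ ∑ i, x i * v j i := by
    intro x hx
    obtain ⟨z, hz, hzx⟩ := hFf2 (F x) ⟨x, hx, rfl⟩
    refine ⟨G z, Finset.mem_image_of_mem G hz, fun j => ?_⟩
    have h1 := hF x hx j
    have h2 := hF (G z) (hG1 z hz) j
    have h3 : F (G z) j ≤ F x j := by rw [hG2 z hz]; exact hzx j
    have h4 : ((F (G z) j : ℕ) : ℤ) ≤ F x j := by exact_mod_cast h3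
    linarith
  refine ⟨Ff.image G, ?_, ?_, ?_⟩
  · obtain ⟨α, h1, h2, h3⟩ := hex
    obtain ⟨x, hx, -⟩ := hpoint α h1 h2 h3
    obtain ⟨γ, hγ, -⟩ := hle x hx
    exact ⟨γ, hγ⟩
  · intro γ hγ α hα hc
    obtain ⟨z, hz, rfl⟩ := Finset.mem_image.1 hγ
    obtain ⟨t, ht, hta, htE⟩ := hsub α hα hc
    have h2 : (K : ℚ) * q * ((ordMono E α : ℚ) / r) = ∑ j, t j * (K * T j) := by
      rw [htE]
      simp only [hT, Finset.mul_sum, Finset.sum_div]
      exact Finset.sum_congr rfl fun j _ => by ring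
    rw [inCone_pair hta, h2]
    refine Finset.sum_le_sum fun j _ => mul_le_mul_of_nonneg_left ?_ (ht j)
    exact_mod_cast hG1 z hz j
  · intro α hα hc hα0
    obtain ⟨x, hx, hlt⟩ := hpoint α hα hc hα0
    obtain ⟨γ, hγ, hγx⟩ := hle x hx
    refine ⟨γ, hγ, lt_of_le_of_lt ?_ hlt⟩
    obtain ⟨t, ht, hta⟩ := hc
    have h1 : ((∑ i, γ i * α i : ℤ) : ℚ) ≤ ((∑ i, x i * α i : ℤ) : ℚ) := by
      rw [inCone_pair hta, inCone_pair hta]
      refine Finset.sum_le_sum fun j _ => mul_le_mul_of_nonneg_left ?_ (ht j)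
      exact_mod_cast hγx j
    exact_mod_cast h1

end Vale.Agent.P283.A647
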