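import Vale.Agent.P283.A647.Props
import Vale.Agent.P283.T647.R4

/-!
A2. The number of non-trivial pages.
-/

set_option linter.all false

namespace Vale.Agent.P283.A647

open Vale.Agent.P283.T647 (psum fval Triv Ch)

namespace A2

variable {P ι : Type} [Fintype P] [DecidableEq P] [Fintype ι] {k g q : ℕ} {δ : ℝ}
  {pg : ι → Option P} {s : ι → ℕ} {w : ι → Fin k → ℤ} {κ : ι → ℕ}

open Classical in
lemma psum_put (hpos : ∀ j p, pg j = some p → 0 < s j) (T : Finset P) (l : P → ι)
    (hl : ∀ p ∈ T, pg (l p) = some p) (a : P → ℝ) (p : P) :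
    psum pg s (fun j => ∑ p' ∈ T, if l p' = j then a p' / s (l p') else 0) p =
      if p ∈ T then a p else 0 := by
  rw [T647.R4.psum_eq, T647.R4.sum_put T l (fun p' => a p' / s (l p'))]
  have key : ∀ p' ∈ T, a p' / (s (l p') : ℝ) * (if pg (l p') = some p then (s (l p') : ℝ) else 0)
      = if p = p' then a p else 0 := by
    intro p' hp'
    rw [hl p' hp']
    by_cases h : p = p'
    · subst h
      have h1 : (s (l p) : ℝ) ≠ 0 := by
        have := hpos (l p) p (hl p hp')
        exact_mod_cast this.ne'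
      simp only [if_true]
      field_simp
    · rw [if_neg (fun e => h (Option.some.inj e).symm), if_neg h, mul_zero]
  rw [Finset.sum_congr rfl key, Finset.sum_ite_eq]

lemma supp_zero {β : Type} [Zero β] : Supp (P := P) g (0 : P → β) :=
  ⟨∅, by simp, fun _ _ => rfl⟩

end A2

open A2 in
/-- The number of non-trivial pages. -/
theorem a2 : CountRow := by
  classical
  intro P ι _ _ _ k g q δ pg s w κ hB hp 𝒩 hN
  have hch : ∀ p : P, ∃ j, pg j = some p ∧ (p ∈ 𝒩 → ¬ (s j = 1 ∧ κ j = q)) := by
    intro p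
    by_cases h : p ∈ 𝒩
    · have h1 := hN p h
      unfold Triv at h1
      push Not at h1
      obtain ⟨j, hj, hj'⟩ := h1
      exact ⟨j, hj, fun _ e => hj' e.1 e.2⟩
    · obtain ⟨j, hj⟩ := hp p
      exact ⟨j, hj, fun h' => absurd h' h⟩
  choose l hl hl' using hch
  have h0 := hB.nn (fun j => ∑ p' ∈ (Finset.univ : Finset P), if l p' = j then
    (fun _ => (1 : ℝ)) p' / s (l p') else 0)
    (fun j => Finset.sum_nonneg fun p _ => by
      split_ifs
      · positivity
      · exact le_refl _) 1 0 zero_le_one (fun _ => le_rfl) supp_zero (fun p => by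
        rw [psum_put hB.pos Finset.univ l (fun p _ => hl p) (fun _ => (1 : ℝ)) p]
        simp)
  rw [T647.R4.sum_put Finset.univ l (fun p' => (fun _ => (1 : ℝ)) p' / s (l p'))] at h0
  have h1 : ∑ p : P, (1 : ℝ) / s (l p) * κ (l p) ≤ ∑ p : P, ((q : ℝ) - if p ∈ 𝒩 then 1 / 2 else 0) := by
    refine Finset.sum_le_sum fun p _ => ?_
    have hs := hB.pos (l p) p (hl p)
    have hκ := hB.κq (l p)
    have e : (1 : ℝ) / s (l p) * κ (l p) = (κ (l p) : ℝ) / s (l p) := by ring
    rw [e]
    split_ifs with h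
    · exact T647.R4.ratio_le hs hκ hB.q0 (hl' p h)
    · have hs' : (1 : ℝ) ≤ s (l p) := by exact_mod_cast hs
      have hκ' : (κ (l p) : ℝ) ≤ q := by exact_mod_cast hκ
      rw [sub_zero, div_le_iff₀ (by linarith)]
      have hq0 : (0 : ℝ) ≤ q := by positivity
      nlinarith
  rw [Finset.sum_sub_distrib, Finset.sum_ite_mem] at h1
  simp only [Finset.sum_const, Finset.univ_inter, nsmul_eq_mul, Finset.card_univ] at h1
  simp only [] at h0
  have h2 : (𝒩.card : ℝ) ≤ 2 * q * (g + 1) := by nlinarith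
  exact_mod_cast h2

end Vale.Agent.P283.A647
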