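import Vale.Agent.P283.A647.A2
import Vale.Agent.P283.T647.R6

/-!
A4. The lower bound for the merged book.
-/

set_option linter.all false

namespace Vale.Agent.P283.A647

open Vale.Agent.P283.T647 (psum fval Triv Ch)

namespace A4

variable {P ι : Type} [Fintype P] [DecidableEq P] [Fintype ι] {k g q : ℕ} {δ : ℝ}
  {pg : ι → Option P} {s : ι → ℕ} {w : ι → Fin k → ℤ} {κ : ι → ℕ} {𝒩 : Finset P}

open Classical in
/-- Raising the totals on the pages of `T` by `Δ`. -/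
noncomputable def up (T : Finset P) (s : ι → ℕ) (l : P → ι) (Δ : P → ℝ) (c : ι → ℝ) : ι → ℝ :=
  fun j => c j + ∑ p ∈ T, if l p = j then Δ p / s (l p) else 0

lemma up_nonneg (T : Finset P) (l : P → ι) (Δ : P → ℝ) (c : ι → ℝ) (hΔ : ∀ p ∈ T, 0 ≤ Δ p)
    (hc : ∀ j, 0 ≤ c j) (j : ι) : 0 ≤ up T s l Δ c j := by
  unfold up
  refine add_nonneg (hc j) (Finset.sum_nonneg fun p hp => ?_)
  split_ifs
  · exact div_nonneg (hΔ p hp) (Nat.cast_nonneg _)
  · exact le_refl _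

lemma up_supp (T : Finset P) (l : P → ι) (Δ : P → ℝ) (c : ι → ℝ) (hT : T ⊆ 𝒩)
    (hl : ∀ p ∈ T, pg (l p) = some p) (hs : ∀ j p, pg j = some p → p ∉ 𝒩 → c j = 0) :
    ∀ j p, pg j = some p → p ∉ 𝒩 → up T s l Δ c j = 0 := by
  classical
  intro j p hj hp
  have h1 : ∑ p ∈ T, (if l p = j then Δ p / (s (l p) : ℝ) else 0) = 0 := by
    refine Finset.sum_eq_zero fun p' hp' => ?_
    rw [if_neg]
    intro e
    have := hl p' hp'
    rw [e, hj] at this
    exact hp ((Option.some.inj this) ▸ hT hp')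
  unfold up
  rw [hs j p hj hp, zero_add]
  convert h1

lemma up_psum (hpos : ∀ j p, pg j = some p → 0 < s j) (T : Finset P) (l : P → ι) (Δ : P → ℝ)
    (c : ι → ℝ) (hl : ∀ p ∈ T, pg (l p) = some p) (p : P) :
    psum pg s (up T s l Δ c) p = psum pg s c p + if p ∈ T then Δ p else 0 := by
  classical
  have h1 := A2.psum_put hpos T l hl Δ p
  rw [← h1]
  simp only [T647.R4.psum_eq]
  rw [← Finset.sum_add_distrib]
  refine Finset.sum_congr rfl fun j _ => ?_
  unfold up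
  rw [add_mul]

lemma up_sum (T : Finset P) (l : P → ι) (Δ : P → ℝ) (c : ι → ℝ) (F : ι → ℝ) :
    ∑ j, up T s l Δ c j * F j = ∑ j, c j * F j + ∑ p ∈ T, Δ p / s (l p) * F (l p) := by
  classical
  rw [← T647.R4.sum_put T l (fun p => Δ p / s (l p)) F, ← Finset.sum_add_distrib]
  refine Finset.sum_congr rfl fun j _ => ?_
  unfold up
  rw [add_mul]

lemma a_nn (hL : T647.MergeLift) (hB : IsBook g q δ pg s w κ)
    (hT : ∀ p, p ∉ 𝒩 → Triv q pg s κ p)
    (c : ι → ℝ) (cf : (P → ι) → ℝ) (hc : ∀ j, 0 ≤ c j) (hcf : ∀ f, 0 ≤ cf f)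
    (hs : ∀ j p, pg j = some p → p ∉ 𝒩 → c j = 0) (hf : ∀ f, ¬ Ch 𝒩 pg f → cf f = 0)
    (σ : P → ℕ) (hσg : Supp g σ) (hσN : ∀ p, p ∉ 𝒩 → σ p = 0)
    (h : ∀ p ∈ 𝒩, psum pg s c p = ∑ f, cf f + σ p) :
    0 ≤ ∑ j, c j * (κ j : ℝ) + q * ∑ f, cf f - q * ((𝒩.card : ℝ) - g) * ∑ f, cf f := by
  obtain ⟨c', h1, h2, h3, h4, h5⟩ := hL P ι k q pg s w κ 𝒩 hT c cf hc hcf hs hf
  obtain ⟨I, hI, hI'⟩ := hσg
  have h6 := hB.nn c' h1 (∑ f, cf f) (fun p => (σ p : ℝ)) (Finset.sum_nonneg fun f _ => hcf f)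
    (fun p => Nat.cast_nonneg _) ⟨I, hI, fun p hp => by simp [hI' p hp]⟩ (fun p => by
      by_cases hp : p ∈ 𝒩
      · rw [h2 p hp, h p hp]
      · rw [h3 p hp, hσN p hp]
        simp)
  rw [h5] at h6
  linarith

lemma a_lc (hL : T647.MergeLift) (hB : IsBook g q δ pg s w κ)
    (hT : ∀ p, p ∉ 𝒩 → Triv q pg s κ p)
    (c : ι → ℝ) (cf : (P → ι) → ℝ) (hc : ∀ j, 0 ≤ c j) (hcf : ∀ f, 0 ≤ cf f)
    (hs : ∀ j p, pg j = some p → p ∉ 𝒩 → c j = 0) (hf : ∀ f, ¬ Ch 𝒩 pg f → cf f = 0)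
    (σ : P → ℕ) (hσg : Supp g σ) (hσN : ∀ p, p ∉ 𝒩 → σ p = 0)
    (h : ∀ p ∈ 𝒩, psum pg s c p = ∑ f, cf f + σ p) (b : Fin k → ℤ)
    (hb : ∀ i, (b i : ℝ) = ∑ j, c j * (w j i : ℝ) + ∑ f, cf f * ∑ p ∈ 𝒩ᶜ, (w (f p) i : ℝ))
    (hne : σ ≠ 0 ∨ b ≠ 0) :
    δ ≤ ∑ j, c j * (κ j : ℝ) + q * ∑ f, cf f - q * ((𝒩.card : ℝ) - g) * ∑ f, cf f := by
  obtain ⟨c', h1, h2, h3, h4, h5⟩ := hL P ι k q pg s w κ 𝒩 hT c cf hc hcf hs hf
  have h6 := hB.lc c' h1 (∑ f, cf f) σ b (Finset.sum_nonneg fun f _ => hcf f)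
    hσg (fun p => by
      by_cases hp : p ∈ 𝒩
      · rw [h2 p hp, h p hp]
      · rw [h3 p hp, hσN p hp]
        simp) (fun i => by rw [hb i, h4 i]) hne
  rw [h5] at h6
  linarith

/-- The `g + 1`-st largest entry. -/
lemma exists_rho (𝒩 : Finset P) (η : P → ℤ) (g : ℕ) (h : g ≤ 𝒩.card) : ∃ ρ : ℤ,
    (𝒩.filter (fun p => ρ < η p)).card + (if ρ < 0 then 1 else 0) ≤ g ∧
    (𝒩.filter (fun p => η p < ρ)).card + (if 0 < ρ then 1 else 0) + g ≤ 𝒩.card := by
  classical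
  obtain ⟨m, hm⟩ : ∃ m : ℤ, 0 ≤ m ∧ ∀ p ∈ 𝒩, |η p| ≤ m :=
    ⟨∑ p ∈ 𝒩, |η p|, Finset.sum_nonneg fun p _ => abs_nonneg _, fun p hp =>
      Finset.single_le_sum (f := fun p => |η p|) (fun p _ => abs_nonneg _) hp⟩
  obtain ⟨ρ, h1, h2⟩ := Int.exists_least_of_bdd
    (P := fun z : ℤ => (𝒩.filter (fun p => z < η p)).card + (if z < 0 then 1 else 0) ≤ g)
    ⟨-m - 1, fun z hz => by
      by_contra h3
      have h4 : 𝒩.filter (fun p => z < η p) = 𝒩 := Finset.filter_true_of_mem fun p hp => by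
        have h5 := neg_abs_le (η p)
        have h6 := hm.2 p hp
        omega
      have h7 : z < 0 := by omega
      simp only [h4, if_pos h7] at hz
      omega⟩
    ⟨m, by
      have h4 : 𝒩.filter (fun p => m < η p) = ∅ := Finset.filter_false_of_mem fun p hp => by
        have h5 := le_abs_self (η p)
        have h6 := hm.2 p hp
        omega
      have h7 : ¬ m < 0 := by omega
      simp only [h4, if_neg h7]
      simp⟩
  refine ⟨ρ, h1, ?_⟩
  have h3 : ¬ ((𝒩.filter (fun p => ρ - 1 < η p)).card + (if ρ - 1 < 0 then 1 else 0) ≤ g) := by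
    intro h4
    have := h2 (ρ - 1) h4
    omega
  have h4 : (𝒩.filter (fun p => η p < ρ)).card + (𝒩.filter (fun p => ρ - 1 < η p)).card =
      𝒩.card := by
    rw [← Finset.card_filter_add_card_filter_not (s := 𝒩) (fun p => η p < ρ)]
    congr 2
    refine Finset.filter_congr fun p _ => ?_
    omega
  split_ifs at h3 ⊢ <;> omega

end A4

open A4 in
/-- The lower bound for the merged book. -/
theorem a4 (hL : T647.MergeLift) : MergeIneq := by
  classical
  intro P ι _ _ _ k g q δ pg s w κ hB hpp 𝒩 hM c cf hc hcf hs hf η b hη hb hne μ hμC hμS hμ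
  obtain ⟨hT, 𝒬, hQN, hQc, hQ⟩ := hM
  have hn : g + 2 ≤ 𝒩.card := hQc ▸ Finset.card_le_card hQN
  have hq1 : (1 : ℝ) ≤ q := by exact_mod_cast hB.q0
  have hC0 : 0 ≤ ∑ f, cf f := Finset.sum_nonneg fun f _ => hcf f
  have hS : ∀ p ∈ 𝒩, psum pg s c p = ∑ f, cf f + η p := fun p hp => by
    have := hη p hp
    linarith
  obtain ⟨ν, hν, hν0, hνη⟩ : ∃ ν : ℤ, μ = ∑ f, cf f + ν ∧ ν ≤ 0 ∧ (∀ p ∈ 𝒩, ν ≤ η p) := by
    rcases hμ with h | ⟨p, hp, h⟩
    · refine ⟨0, by simpa using h, le_rfl, fun p hp => ?_⟩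
      have h1 := hμS p hp
      rw [hS p hp, h] at h1
      have h2 : (0 : ℝ) ≤ η p := by linarith
      exact_mod_cast h2
    · refine ⟨η p, by rw [h, hS p hp], ?_, fun p' hp' => ?_⟩
      · rw [h, hS p hp] at hμC
        have h2 : (η p : ℝ) ≤ 0 := by linarith
        exact_mod_cast h2
      · have h1 := hμS p' hp'
        rw [h, hS p hp, hS p' hp'] at h1
        have h2 : (η p : ℝ) ≤ η p' := by linarith
        exact_mod_cast h2
  have hμ0 : 0 ≤ μ := by
    rcases hμ with h | ⟨p, hp, h⟩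
    · rw [h]; exact hC0
    · rw [h]; exact T647.R6.psum_nonneg c hc p
  obtain ⟨ρ, hρ1, hρ2⟩ := exists_rho 𝒩 η g (by omega)
  have hνρ : ν ≤ ρ := by
    by_contra h
    push Not at h
    have h1 : 𝒩.filter (fun p => ρ < η p) = 𝒩 :=
      Finset.filter_true_of_mem fun p hp => lt_of_lt_of_le h (hνη p hp)
    rw [h1] at hρ1
    omega
  have hνρR : (ν : ℝ) ≤ ρ := by exact_mod_cast hνρ
  have hM0 : 0 ≤ ∑ f, cf f + (ρ : ℝ) := by linarith
  set L := 𝒩.filter (fun p => η p < ρ) with hLdef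
  have hLN : L ⊆ 𝒩 := Finset.filter_subset _ _
  have hLt : ∀ p ∈ L, η p < ρ := fun p hp => (Finset.mem_filter.mp hp).2
  -- the additional entries
  set σ : P → ℕ := fun p => if p ∈ 𝒩 then (η p - ρ).toNat else 0 with hσdef
  have hσN : ∀ p, p ∉ 𝒩 → σ p = 0 := fun p hp => if_neg hp
  have hσg : Supp g σ := by
    refine ⟨𝒩.filter (fun p => ρ < η p), by omega, fun p hp => ?_⟩
    by_cases h : p ∈ 𝒩
    · have h1 : ¬ ρ < η p := fun h1 => hp (Finset.mem_filter.mpr ⟨h, h1⟩)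
      show (if p ∈ 𝒩 then (η p - ρ).toNat else 0) = 0
      rw [if_pos h]
      omega
    · exact hσN p h
  have htot : ∀ p ∈ 𝒩, psum pg s c p + (if p ∈ L then ((ρ : ℝ) - η p) else 0) =
      (∑ f, cf f + (ρ : ℝ)) + σ p := by
    intro p hp
    rw [hS p hp]
    have e : σ p = (η p - ρ).toNat := if_pos hp
    rw [e]
    by_cases h : η p < ρ
    · rw [if_pos (Finset.mem_filter.mpr ⟨hp, h⟩)]
      have h1 : (η p - ρ).toNat = 0 := by omega
      rw [h1]
      push_cast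
      ring
    · rw [if_neg (fun h' => h (hLt p h'))]
      have h2 : (((η p - ρ).toNat : ℤ) : ℝ) = ((η p - ρ : ℤ) : ℝ) := by
        rw [Int.toNat_of_nonneg (by omega)]
      rw [Int.cast_natCast] at h2
      rw [h2]
      push_cast
      ring
  have hΔ : ∀ p ∈ L, (0 : ℝ) ≤ (ρ : ℝ) - η p := fun p hp => by
    have : (η p : ℝ) < ρ := by exact_mod_cast hLt p hp
    linarith
  -- the number of the small entries
  set T : ℤ := ((𝒩.card : ℤ) - g) * (ρ - ν) - ρ - ∑ p ∈ L, (ρ - η p) with hTdef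
  have hsum : ∑ p ∈ L, (ρ - η p) ≤ L.card * (ρ - ν) := by
    have := Finset.sum_le_card_nsmul L (fun p => ρ - η p) (ρ - ν) (fun p hp => by
      have := hνη p (hLN hp)
      omega)
    rwa [nsmul_eq_mul] at this
  have hT0 : 0 ≤ T := by
    have h1 : (0 : ℤ) ≤ ρ - ν := by omega
    by_cases h : 0 < ρ
    · rw [if_pos h] at hρ2
      have h2 : (L.card : ℤ) + 1 + g ≤ 𝒩.card := by exact_mod_cast hρ2
      nlinarith
    · rw [if_neg h] at hρ2
      have h2 : (L.card : ℤ) + g ≤ 𝒩.card := by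
        have := hρ2
        omega
      nlinarith
  have hT1 : ρ < 0 → 1 ≤ T := by
    intro h
    have h1 : (0 : ℤ) ≤ ρ - ν := by omega
    have h2 : (L.card : ℤ) + g ≤ 𝒩.card := by
      have := hρ2
      rw [if_neg (by omega)] at this
      omega
    nlinarith
  -- choices of rays
  have hch : ∀ p : P, ∃ j, pg j = some p ∧ (¬ Triv q pg s κ p → ¬ (s j = 1 ∧ κ j = q)) := by
    intro p
    by_cases h : Triv q pg s κ p
    · obtain ⟨j, hj⟩ := hpp p
      exact ⟨j, hj, fun h' => absurd h h'⟩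
    · have h1 := h
      unfold Triv at h1
      push Not at h1
      obtain ⟨j, hj, hj'⟩ := h1
      exact ⟨j, hj, fun _ e => hj' e.1 e.2⟩
  choose l₀ hl₀ hl₀' using hch
  have hf₀ : Ch 𝒩 pg l₀ := fun p _ => hl₀ p
  -- the value for a choice of rays
  have key : ∑ j, c j * (κ j : ℝ) + q * ∑ f, cf f - q * ((𝒩.card : ℝ) - g) * μ =
      (∑ j, up L s l₀ (fun p => (ρ : ℝ) - η p) c j * (κ j : ℝ) + q * (∑ f, cf f + (ρ : ℝ)) -
        q * ((𝒩.card : ℝ) - g) * (∑ f, cf f + (ρ : ℝ))) + q * T +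
      ∑ p ∈ L, ((ρ : ℝ) - η p) * (q - (κ (l₀ p) : ℝ) / s (l₀ p)) := by
    rw [up_sum]
    have e1 : ∑ p ∈ L, ((ρ : ℝ) - η p) * (q - (κ (l₀ p) : ℝ) / s (l₀ p)) =
        q * ∑ p ∈ L, ((ρ : ℝ) - η p) - ∑ p ∈ L, ((ρ : ℝ) - η p) / s (l₀ p) * κ (l₀ p) := by
      rw [Finset.mul_sum, ← Finset.sum_sub_distrib]
      exact Finset.sum_congr rfl fun p _ => by ring
    have e2 : (T : ℝ) = ((𝒩.card : ℝ) - g) * (ρ - ν) - ρ - ∑ p ∈ L, ((ρ : ℝ) - η p) := by
      rw [hTdef]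
      push_cast
      ring
    rw [e1, e2, hν]
    ring
  have hterm : ∀ p ∈ L, 0 ≤ ((ρ : ℝ) - η p) * (q - (κ (l₀ p) : ℝ) / s (l₀ p)) := by
    intro p hp
    refine mul_nonneg (hΔ p hp) ?_
    have hs := hB.pos (l₀ p) p (hl₀ p)
    have hs' : (1 : ℝ) ≤ s (l₀ p) := by exact_mod_cast hs
    have hκ' : (κ (l₀ p) : ℝ) ≤ q := by exact_mod_cast hB.κq (l₀ p)
    rw [sub_nonneg, div_le_iff₀ (by linarith)]
    nlinarith
  have hnn : 0 ≤ ∑ j, up L s l₀ (fun p => (ρ : ℝ) - η p) c j * (κ j : ℝ) +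
      q * (∑ f, cf f + (ρ : ℝ)) - q * ((𝒩.card : ℝ) - g) * (∑ f, cf f + (ρ : ℝ)) := by
    have e : ∑ f : P → ι, (if f = l₀ then (∑ f, cf f + (ρ : ℝ)) else 0) =
        ∑ f, cf f + (ρ : ℝ) := by
      rw [Finset.sum_ite_eq']
      simp
    have h1 := a_nn hL hB hT (up L s l₀ (fun p => (ρ : ℝ) - η p) c)
      (fun f => if f = l₀ then (∑ f, cf f + (ρ : ℝ)) else 0)
      (up_nonneg L l₀ _ c hΔ hc) (fun f => by split_ifs <;> simp [hM0])
      (up_supp L l₀ _ c hLN (fun p _ => hl₀ p) hs)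
      (fun f hf' => if_neg (fun e : f = l₀ => hf' (by rw [e]; exact hf₀))) σ hσg hσN (fun p hp => by
        rw [up_psum hB.pos L l₀ _ c (fun p _ => hl₀ p), e]
        exact htot p hp)
    rw [e] at h1
    exact h1
  rw [key]
  by_cases hT' : 1 ≤ T
  · have h1 : (1 : ℝ) ≤ T := by exact_mod_cast hT'
    have h2 := Finset.sum_nonneg hterm
    refine (min_le_right _ _).trans ?_
    nlinarith
  have hTz : T = 0 := by omega
  have hρ0 : 0 ≤ ρ := by
    by_contra h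
    exact hT' (hT1 (by omega))
  by_cases htr : ∃ p ∈ L, ¬ Triv q pg s κ p
  · obtain ⟨p, hp, hpt⟩ := htr
    have h1 := Finset.single_le_sum hterm hp
    have h2 := T647.R4.ratio_le (hB.pos _ _ (hl₀ p)) (hB.κq (l₀ p)) hB.q0 (hl₀' p hpt)
    have h3 : (1 : ℝ) ≤ (ρ : ℝ) - η p := by
      have : (1 : ℤ) ≤ ρ - η p := by
        have := hLt p hp
        omega
      exact_mod_cast this
    refine (min_le_right _ _).trans ?_
    rw [hTz]
    push_cast
    nlinarith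
  push Not at htr
  -- all small pages are trivial
  refine (min_le_left _ _).trans ?_
  rw [← key]
  have last : ∀ l : P → ι, (∀ p ∈ L, pg (l p) = some p) →
      (σ ≠ 0 ∨ (fun i => b i + ∑ p ∈ L, (ρ - η p) * w (l p) i +
        ρ * ∑ p ∈ 𝒩ᶜ, w (l₀ p) i) ≠ 0) →
      δ ≤ ∑ j, c j * (κ j : ℝ) + q * ∑ f, cf f - q * ((𝒩.card : ℝ) - g) * μ := by
    intro l hl hne'
    have h1 := a_lc hL hB hT (up L s l (fun p => (ρ : ℝ) - η p) c)
      (fun f => cf f + if f = l₀ then (ρ : ℝ) else 0)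
      (up_nonneg L l _ c hΔ hc) (fun f => add_nonneg (hcf f) (by
        split_ifs
        · exact_mod_cast hρ0
        · exact le_refl _))
      (up_supp L l _ c hLN hl hs)
      (fun f hf' => by
        rw [hf f hf', if_neg (fun e : f = l₀ => hf' (by rw [e]; exact hf₀)), add_zero]) σ hσg hσN
      (fun p hp => by
        rw [up_psum hB.pos L l _ c hl, T647.R6.cf_add]
        exact htot p hp)
      (fun i => b i + ∑ p ∈ L, (ρ - η p) * w (l p) i + ρ * ∑ p ∈ 𝒩ᶜ, w (l₀ p) i) (fun i => by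
        rw [up_sum L l (fun p => (ρ : ℝ) - η p) c (fun j => (w j i : ℝ)), T647.R6.cf_addW]
        push_cast
        rw [hb i]
        have e : ∑ p ∈ L, ((ρ : ℝ) - η p) / s (l p) * (w (l p) i : ℝ) =
            ∑ p ∈ L, ((ρ : ℝ) - η p) * (w (l p) i : ℝ) := by
          refine Finset.sum_congr rfl fun p hp => ?_
          rw [(htr p hp (l p) (hl p hp)).1]
          simp
        rw [e]
        ring) hne'
    rw [T647.R6.cf_add, up_sum] at h1
    have e : ∑ p ∈ L, ((ρ : ℝ) - η p) / s (l p) * (κ (l p) : ℝ) =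
        q * ∑ p ∈ L, ((ρ : ℝ) - η p) := by
      rw [Finset.mul_sum]
      refine Finset.sum_congr rfl fun p hp => ?_
      rw [(htr p hp (l p) (hl p hp)).1, (htr p hp (l p) (hl p hp)).2]
      push_cast
      ring
    rw [e] at h1
    have e2 : ∑ p ∈ L, ((ρ : ℝ) - η p) = ((𝒩.card : ℝ) - g) * (ρ - ν) - ρ := by
      have : ((T : ℤ) : ℝ) = 0 := by rw [hTz]; simp
      rw [hTdef] at this
      push_cast at this
      linarith
    rw [e2] at h1
    rw [hν]
    linarith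
  by_cases hρν : ρ = ν
  · have hρz : ρ = 0 := by omega
    have hLe : L = ∅ := by
      refine Finset.filter_false_of_mem fun p hp => ?_
      have := hνη p hp
      omega
    refine last l₀ (fun p _ => hl₀ p) ?_
    rcases hne with h | ⟨p, hp, h⟩
    · right
      intro h'
      refine h (funext fun i => ?_)
      have := congrFun h' i
      simp only [hLe, hρz] at this
      simpa using this
    · left
      intro h'
      have h1 := congrFun h' p
      have e : σ p = (η p - ρ).toNat := if_pos hp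
      rw [e] at h1
      have h2 := hνη p hp
      simp only [Pi.zero_apply] at h1
      omega
  · have hlt : 0 < ρ - ν := by omega
    have hcard : 𝒩.card ≤ L.card + g + 1 := by
      have h1 : ((𝒩.card : ℤ) - g) * (ρ - ν) ≤ (L.card + 1) * (ρ - ν) := by
        rw [hTdef] at hTz
        nlinarith
      have h2 := le_of_mul_le_mul_right h1 hlt
      omega
    obtain ⟨p₁, hp₁Q, hp₁L⟩ : ∃ p ∈ 𝒬, p ∈ L := by
      by_contra h
      push Not at h
      have h1 : Disjoint 𝒬 L := Finset.disjoint_left.mpr h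
      have h2 := Finset.card_le_card (Finset.union_subset hQN hLN)
      rw [Finset.card_union_of_disjoint h1, hQc] at h2
      omega
    have h1 := hQ p₁ hp₁Q
    unfold Mt at h1
    push Not at h1
    obtain ⟨j, j', hj, hj', hjj⟩ := h1 (htr p₁ hp₁L)
    obtain ⟨i, hi⟩ := Function.ne_iff.mp hjj
    have hu : ∀ x : ι, pg x = some p₁ → ∀ p ∈ L, pg (Function.update l₀ p₁ x p) = some p := by
      intro x hx p _
      by_cases e : p = p₁
      · subst e
        rw [Function.update_self]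
        exact hx
      · rw [Function.update_of_ne e]
        exact hl₀ p
    have hsplit : ∀ x : ι, ∑ p ∈ L, (ρ - η p) * w (Function.update l₀ p₁ x p) i =
        (ρ - η p₁) * w x i + ∑ p ∈ L.erase p₁, (ρ - η p) * w (l₀ p) i := by
      intro x
      rw [← Finset.add_sum_erase L _ hp₁L, Function.update_self]
      congr 1
      refine Finset.sum_congr rfl fun p hp => ?_
      rw [Function.update_of_ne (Finset.ne_of_mem_erase hp)]
    by_cases h2 : b i + ∑ p ∈ L, (ρ - η p) * w (Function.update l₀ p₁ j p) i +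
        ρ * ∑ p ∈ 𝒩ᶜ, w (l₀ p) i = 0
    · refine last (Function.update l₀ p₁ j') (hu j' hj') (Or.inr fun h3 => hi ?_)
      have h4 := congrFun h3 i
      simp only [Pi.zero_apply] at h4
      rw [hsplit] at h2 h4
      have h5 : (ρ - η p₁) * (w j i - w j' i) = 0 := by linarith
      rcases mul_eq_zero.mp h5 with h | h
      · have := hLt p₁ hp₁L
        omega
      · linarith
    · exact last (Function.update l₀ p₁ j) (hu j hj) (Or.inr fun h3 => h2 (congrFun h3 i))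

end Vale.Agent.P283.A647
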