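import Vale.Agent.P283.A647.Props
import Vale.Agent.P283.T647.R7

/-!
Row A5: merging the pages outside `𝒩`.
-/

set_option linter.all false

namespace Vale.Agent.P283.A647

open Vale.Agent.P283.T647 (psum fval Triv Ch)

namespace A5

open Vale.Agent.P283.T647.R7 (RJ RF mv mκ fn fn_surj pair_inl pair_inr exists_max sum_ext_sub'
  pair_fn neg_dot)

variable {P ι : Type} [Fintype P] [DecidableEq P] [Fintype ι] {k : ℕ}

/-- The bounds of the merged book. -/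
def mT (g q : ℕ) (𝒩 : Finset P) (pg : ι → Option P) (s κ : ι → ℕ) : (RJ 𝒩 pg ⊕ RF 𝒩 pg) → ℤ
  | .inl j => (pg j.1).elim 0 (fun _ => (q : ℤ) * s j.1) - κ j.1
  | .inr _ => -((g : ℤ) + 1) * q

variable {g q : ℕ} {δ : ℝ} {pg : ι → Option P} {s : ι → ℕ} {w : ι → Fin k → ℤ} {κ : ι → ℕ}
  {𝒩 : Finset P}

/-- From a solution of the merged problem to an admissible functional. -/
theorem back (hne : ∀ p, ∃ j, pg j = some p) (htriv : ∀ p, p ∉ 𝒩 → Triv q pg s κ p) (K : ℕ)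
    (e : P → ℤ) (u : Fin k → ℤ)
    (h : ∀ j, (K : ℤ) * mT g q 𝒩 pg s κ j ≤ ∑ x, fn 𝒩 e u x * mv 𝒩 pg s w j x) :
    ∃ b : P → ℤ, (∀ p ∈ 𝒩, b p = e p) ∧ Sol g q K pg s w κ b (fun i => -u i) := by
  classical
  obtain ⟨f, hf, hmax⟩ := exists_max hne (fun j => ∑ i, (-u i) * w j i)
  refine ⟨fun p => if p ∈ 𝒩 then e p else ∑ i, (-u i) * w (f p) i, fun p hp => if_pos hp, ⟨?_, ?_⟩⟩
  · have h1 := h (Sum.inr ⟨f, fun p _ => hf p⟩)
    rw [pair_inr] at h1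
    rw [← Finset.sum_add_sum_compl 𝒩]
    have h2 : ∑ p ∈ 𝒩, (if p ∈ 𝒩 then e p else ∑ i, (-u i) * w (f p) i) = ∑ p ∈ 𝒩, e p :=
      Finset.sum_congr rfl fun p hp => if_pos hp
    have h3 : ∑ p ∈ 𝒩ᶜ, (if p ∈ 𝒩 then e p else ∑ i, (-u i) * w (f p) i) =
        - ∑ p ∈ 𝒩ᶜ, ∑ i, u i * w (f p) i := by
      rw [← Finset.sum_neg_distrib]
      refine Finset.sum_congr rfl fun p hp => ?_
      rw [if_neg (Finset.mem_compl.1 hp), ← Finset.sum_neg_distrib]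
      exact Finset.sum_congr rfl fun i _ => by ring
    rw [h2, h3]
    simp only [mT] at h1
    have h4 : (K : ℤ) * (-((g : ℤ) + 1) * q) = -(((g : ℤ) + 1) * q * K) := by ring
    rw [h4] at h1
    linarith
  · intro j
    rcases hp : pg j with _ | p
    · have hj : ∀ p, pg j = some p → p ∈ 𝒩 := fun p h' => by rw [hp] at h'; cases h'
      have h1 := h (Sum.inl ⟨j, hj⟩)
      rw [pair_inl] at h1
      simp only [mT, hp, Option.elim] at h1
      unfold fval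
      simp only [hp, Option.elim]
      have h3 : ∑ i, (-u i) * w j i = - ∑ i, u i * w j i := by
        rw [← Finset.sum_neg_distrib]
        exact Finset.sum_congr rfl fun i _ => by ring
      rw [h3]
      linarith
    · by_cases hp' : p ∈ 𝒩
      · have hj : ∀ p, pg j = some p → p ∈ 𝒩 := fun p' h' => by
          rw [hp] at h'
          cases h'
          exact hp'
        have h1 := h (Sum.inl ⟨j, hj⟩)
        rw [pair_inl] at h1
        simp only [mT, hp, Option.elim] at h1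
        unfold fval
        simp only [hp, Option.elim]
        rw [if_pos hp']
        have h3 : ∑ i, (-u i) * w j i = - ∑ i, u i * w j i := by
          rw [← Finset.sum_neg_distrib]
          exact Finset.sum_congr rfl fun i _ => by ring
        rw [h3]
        linarith
      · obtain ⟨h1, h2⟩ := htriv p hp' j hp
        unfold fval
        simp only [hp, Option.elim]
        rw [if_neg hp', h1, h2]
        have h3 := hmax p j hp
        push_cast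
        linarith

/-- Extension of a functional which is nonnegative on the merged rays. -/
theorem dual_ext (hne : ∀ p, ∃ j, pg j = some p) (htriv : ∀ p, p ∉ 𝒩 → Triv q pg s κ p)
    (e : P → ℤ) (c : Fin k → ℤ)
    (h : ∀ j, 0 ≤ ∑ x, fn 𝒩 e c x * mv 𝒩 pg s w j x) :
    ∃ (e' : P → ℤ), (∀ p ∈ 𝒩, e' p = e p) ∧ ∑ p, e' p ≤ 0 ∧
      ∀ j, 0 ≤ (pg j).elim 0 (fun p => (s j : ℤ) * e' p) + ∑ i, c i * w j i := by
  obtain ⟨e', -, -, h1, -, h2, h3⟩ := T647.R7.dual_ext (κ := κ) (q := q) hne htriv e c h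
  exact ⟨e', h1, h2, h3⟩

/-- On a trivial page, `c.w ≤ b`. -/
theorem triv_le (htriv : ∀ p, p ∉ 𝒩 → Triv q pg s κ p) {r : ℕ} {b : P → ℤ} {c : Fin k → ℤ}
    (hS : Sol g q r pg s w κ b c) {p : P} (hp : p ∉ 𝒩) {j : ι} (hj : pg j = some p) :
    ∑ i, c i * w j i ≤ b p := by
  obtain ⟨h1, h2⟩ := htriv p hp j hj
  have h := hS.2 j
  unfold fval at h
  simp only [hj, Option.elim] at h
  rw [h1, h2] at h
  push_cast at h
  linarith

/-- Admissible functionals give solutions of the merged problem. -/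
theorem fwd (htriv : ∀ p, p ∉ 𝒩 → Triv q pg s κ p) (r : ℕ) (b : P → ℤ) (c : Fin k → ℤ)
    (hS : Sol g q r pg s w κ b c) (j) :
    (r : ℤ) * mT g q 𝒩 pg s κ j ≤ ∑ x, fn 𝒩 b (fun i => - c i) x * mv 𝒩 pg s w j x := by
  rcases j with ⟨j, hj⟩ | ⟨f, hf⟩
  · rw [pair_inl, neg_dot]
    have h1 := hS.2 j
    unfold fval at h1
    rcases hp : pg j with _ | p
    · simp only [mT, hp, Option.elim] at h1 ⊢
      linarith
    · simp only [mT, hp, Option.elim] at h1 ⊢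
      linarith
  · rw [pair_inr]
    have h1 := hS.1
    rw [← Finset.sum_add_sum_compl 𝒩] at h1
    have h2 : ∑ p ∈ 𝒩ᶜ, ∑ i, c i * w (f p) i ≤ ∑ p ∈ 𝒩ᶜ, b p :=
      Finset.sum_le_sum fun p hp => triv_le htriv hS (Finset.mem_compl.1 hp)
        (hf p (Finset.mem_compl.1 hp))
    have h3 : ∑ p ∈ 𝒩ᶜ, ∑ i, -c i * w (f p) i = - ∑ p ∈ 𝒩ᶜ, ∑ i, c i * w (f p) i := by
      rw [← Finset.sum_neg_distrib]
      exact Finset.sum_congr rfl fun p _ => neg_dot _ _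
    simp only [mT]
    rw [h3]
    have h4 : (r : ℤ) * (-((g : ℤ) + 1) * q) = -(((g : ℤ) + 1) * q * r) := by ring
    rw [h4]
    linarith

/-- The functionals of the merged problem. -/
def IsLs (g q : ℕ) (𝒩 : Finset P) (γ : P → ℤ) : Prop :=
  (∀ p, γ p ≤ q) ∧ (g * q : ℤ) ≤ ∑ p ∈ 𝒩, γ p

/-- The two kinds of functionals. -/
def gs (q : ℕ) : P → ℤ := fun _ => q

def gp (g q : ℕ) (𝒩 : Finset P) (p₁ : P) : P → ℤ :=
  fun p => if p = p₁ then (q : ℤ) - q * ((𝒩.card : ℤ) - g) else q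

theorem isLs_gs (hn : g ≤ 𝒩.card) : IsLs g q 𝒩 (gs q) := by
  refine ⟨fun p => le_rfl, ?_⟩
  unfold gs
  rw [Finset.sum_const, nsmul_eq_mul]
  have h1 : (g : ℤ) ≤ 𝒩.card := by exact_mod_cast hn
  have h2 : (0 : ℤ) ≤ q := Int.natCast_nonneg _
  exact mul_le_mul_of_nonneg_right h1 h2

theorem sum_gp {p₁ : P} (hp : p₁ ∈ 𝒩) : ∑ p ∈ 𝒩, gp g q 𝒩 p₁ p = g * q := by
  unfold gp
  rw [← Finset.add_sum_erase _ _ hp, if_pos rfl]
  have h : ∑ x ∈ 𝒩.erase p₁, (if x = p₁ then (q : ℤ) - q * ((𝒩.card : ℤ) - g) else (q : ℤ)) =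
      ∑ x ∈ 𝒩.erase p₁, (q : ℤ) :=
    Finset.sum_congr rfl fun x hx => if_neg (Finset.ne_of_mem_erase hx)
  rw [h, Finset.sum_const, Finset.card_erase_of_mem hp, nsmul_eq_mul]
  have h1 : 1 ≤ 𝒩.card := Finset.card_pos.2 ⟨_, hp⟩
  push_cast [Nat.cast_sub h1]
  ring

theorem isLs_gp (hn : g ≤ 𝒩.card) {p₁ : P} (hp : p₁ ∈ 𝒩) : IsLs g q 𝒩 (gp g q 𝒩 p₁) := by
  refine ⟨fun p => ?_, (sum_gp hp).ge⟩
  unfold gp
  split_ifs
  · have h1 : (g : ℤ) ≤ 𝒩.card := by exact_mod_cast hn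
    have h2 : (0 : ℤ) ≤ q := Int.natCast_nonneg _
    nlinarith
  · exact le_rfl

theorem ls_le {γ : P → ℤ} (hg : IsLs g q 𝒩 γ) (j) :
    ∑ x, fn 𝒩 γ (0 : Fin k → ℤ) x * mv 𝒩 pg s w j x ≤
      mT g q 𝒩 pg s κ j + (mκ q 𝒩 pg κ j : ℕ) := by
  rcases j with ⟨j, hj⟩ | ⟨f, hf⟩
  · rw [pair_inl]
    rcases hp : pg j with _ | p
    · simp [mT, mκ, hp]
    · simp only [mT, mκ, hp, Option.elim]
      have h2 := hg.1 p
      have h3 : (0 : ℤ) ≤ s j := Int.natCast_nonneg _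
      have := mul_le_mul_of_nonneg_left h2 h3
      simp only [Pi.zero_apply, zero_mul, Finset.sum_const_zero, add_zero]
      linarith
  · rw [pair_inr]
    have h2 := hg.2
    simp only [mT, mκ, Pi.zero_apply, zero_mul, Finset.sum_const_zero, add_zero]
    have h4 : -((g : ℤ) + 1) * q = -(g * q) - q := by ring
    rw [h4]
    linarith

/-- The value of a functional on a positive combination of the rays. -/
theorem val_eq [Fintype (RJ 𝒩 pg)] [Fintype (RF 𝒩 pg)] (c : RJ 𝒩 pg ⊕ RF 𝒩 pg → ℝ)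
    (c₁ : ι → ℝ) (cf : (P → ι) → ℝ)
    (h1 : ∀ G : ι → ℝ, ∑ j : RJ 𝒩 pg, c (Sum.inl j) * G j.1 = ∑ j, c₁ j * G j)
    (h2 : ∀ G : (P → ι) → ℝ, ∑ f : RF 𝒩 pg, c (Sum.inr f) * G f.1 = ∑ f, cf f * G f)
    (γ : P → ℤ) :
    ∑ j, c j * (((∑ x, fn 𝒩 γ (0 : Fin k → ℤ) x * mv 𝒩 pg s w j x : ℤ) : ℝ) -
      mT g q 𝒩 pg s κ j) =
    ∑ j, c₁ j * (κ j : ℝ) -
      ∑ p, ((q : ℝ) - γ p) * psum pg s c₁ p +
        (((g : ℝ) + 1) * q - ∑ p ∈ 𝒩, (γ p : ℝ)) * ∑ f, cf f := by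
  rw [Fintype.sum_sum_type]
  have e1 : ∑ j : RJ 𝒩 pg, c (Sum.inl j) *
      (((∑ x, fn 𝒩 γ (0 : Fin k → ℤ) x * mv 𝒩 pg s w (Sum.inl j) x : ℤ) : ℝ) -
      mT g q 𝒩 pg s κ (Sum.inl j)) = ∑ j, c₁ j *
        ((κ j : ℝ) - (pg j).elim 0 (fun p => (s j : ℝ) * (q - γ p))) := by
    rw [← h1 (fun j => (κ j : ℝ) - (pg j).elim 0 (fun p => (s j : ℝ) * (q - γ p)))]
    refine Finset.sum_congr rfl fun j _ => ?_
    congr 1
    rw [pair_inl]
    simp only [mT, Pi.zero_apply, zero_mul, Finset.sum_const_zero, add_zero]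
    rcases hp : pg j.1 with _ | p
    · simp
    · simp
      ring
  have e2 : ∑ f : RF 𝒩 pg, c (Sum.inr f) *
      (((∑ x, fn 𝒩 γ (0 : Fin k → ℤ) x * mv 𝒩 pg s w (Sum.inr f) x : ℤ) : ℝ) -
      mT g q 𝒩 pg s κ (Sum.inr f)) =
        (((g : ℝ) + 1) * q - ∑ p ∈ 𝒩, (γ p : ℝ)) * ∑ f, cf f := by
    have := h2 (fun _ => (((g : ℝ) + 1) * q - ∑ p ∈ 𝒩, (γ p : ℝ)))
    rw [Finset.mul_sum]
    rw [show ∑ f, (((g : ℝ) + 1) * q - ∑ p ∈ 𝒩, (γ p : ℝ)) * cf f = ∑ f, cf f *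
      (((g : ℝ) + 1) * q - ∑ p ∈ 𝒩, (γ p : ℝ)) from
        Finset.sum_congr rfl fun _ _ => mul_comm _ _, ← this]
    refine Finset.sum_congr rfl fun f _ => ?_
    congr 1
    rw [pair_inr]
    simp only [mT, Pi.zero_apply, zero_mul, Finset.sum_const_zero, add_zero]
    push_cast
    ring
  rw [e1, e2]
  congr 1
  have e3 : ∑ p, ((q : ℝ) - γ p) * psum pg s c₁ p =
      ∑ j, c₁ j * (pg j).elim 0 (fun p => (s j : ℝ) * (q - γ p)) := by
    unfold psum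
    simp only [Finset.mul_sum]
    rw [Finset.sum_comm]
    refine Finset.sum_congr rfl fun j _ => ?_
    rcases hp : pg j with _ | p0
    · simp
    · rw [Finset.sum_eq_single p0]
      · simp
        ring
      · intro p _ hne
        have : ¬ (some p0 = some p) := fun h => hne (Option.some.inj h).symm
        rw [if_neg this, mul_zero]
      · intro h
        exact absurd (Finset.mem_univ _) h
  rw [e3, ← Finset.sum_sub_distrib]
  exact Finset.sum_congr rfl fun j _ => by ring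

/-- The lower bound for the merged problem. -/
theorem hyp (hM : MergeIneq) (hB : IsBook g q δ pg s w κ) (hne : ∀ p, ∃ j, pg j = some p)
    (hMC : MergeCond g q pg s w κ 𝒩) (hn : 𝒩.Nonempty)
    [Fintype (RJ 𝒩 pg)] [Fintype (RF 𝒩 pg)] (c : RJ 𝒩 pg ⊕ RF 𝒩 pg → ℝ) (hc : ∀ j, 0 ≤ c j)
    (b : ({p // p ∈ 𝒩} ⊕ Fin k) → ℤ) (hb : b ≠ 0)
    (hbe : ∀ x, (b x : ℝ) = ∑ j, c j * mv 𝒩 pg s w j x) :
    ∃ γ : P → ℤ, (γ = gs q ∨ ∃ p₁ ∈ 𝒩, γ = gp g q 𝒩 p₁) ∧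
      min δ (1 / 2) ≤ ∑ j, c j *
        (((∑ x, fn 𝒩 γ (0 : Fin k → ℤ) x * mv 𝒩 pg s w j x : ℤ) : ℝ) - mT g q 𝒩 pg s κ j) := by
  classical
  obtain ⟨c₁, hc1, hc1', h1⟩ := sum_ext_sub' (fun j : ι => ∀ p, pg j = some p → p ∈ 𝒩)
    (fun j => c (Sum.inl j))
  obtain ⟨cf, hcf, hcf', h2⟩ := sum_ext_sub' (fun f : P → ι => Ch 𝒩 pg f)
    (fun j => c (Sum.inr j))
  obtain ⟨η, b', rfl⟩ := fn_surj 𝒩 b
  have hc1n : ∀ j, 0 ≤ c₁ j := fun j => by
    by_cases h : ∀ p, pg j = some p → p ∈ 𝒩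
    · rw [hc1 j h]; exact hc _
    · rw [hc1' j h]
  have hcfn : ∀ j, 0 ≤ cf j := fun j => by
    by_cases h : Ch 𝒩 pg j
    · rw [hcf j h]; exact hc _
    · rw [hcf' j h]
  have hη : ∀ p ∈ 𝒩, (η p : ℝ) = psum pg s c₁ p - ∑ f, cf f := by
    intro p hp
    have h := hbe (Sum.inl ⟨p, hp⟩)
    rw [Fintype.sum_sum_type] at h
    simp only [fn, Sum.elim_inl, mv] at h
    rw [h]
    have h3 := h1 (fun j => ((if pg j = some p then (s j : ℤ) else 0 : ℤ) : ℝ))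
    have h4 := h2 (fun _ => -1)
    have h5 : ∑ j, c₁ j * ((if pg j = some p then (s j : ℤ) else 0 : ℤ) : ℝ) =
        psum pg s c₁ p := by
      unfold psum
      refine Finset.sum_congr rfl fun j _ => ?_
      split_ifs
      · simp
      · simp
    rw [h5] at h3
    rw [h3]
    have h6 : ∑ f, cf f * (-1 : ℝ) = - ∑ f, cf f := by
      rw [← Finset.sum_neg_distrib]
      exact Finset.sum_congr rfl fun _ _ => by ring
    rw [h6] at h4
    push_cast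
    rw [h4]
    ring
  have hb' : ∀ i, (b' i : ℝ) = ∑ j, c₁ j * (w j i : ℝ) +
      ∑ f, cf f * ∑ p ∈ 𝒩ᶜ, (w (f p) i : ℝ) := by
    intro i
    have h := hbe (Sum.inr i)
    rw [Fintype.sum_sum_type] at h
    simp only [fn, Sum.elim_inr, mv] at h
    rw [h, h1 (fun j => (w j i : ℝ))]
    congr 1
    rw [← h2 (fun f => ∑ p ∈ 𝒩ᶜ, (w (f p) i : ℝ))]
    refine Finset.sum_congr rfl fun f _ => ?_
    push_cast
    rfl
  have hne' : b' ≠ 0 ∨ ∃ p ∈ 𝒩, η p ≠ 0 := by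
    by_contra hcon
    push Not at hcon
    apply hb
    funext x
    rcases x with ⟨p, hp⟩ | i
    · exact hcon.2 p hp
    · exact congrFun hcon.1 i
  have key := hM P ι k g q δ pg s w κ hB hne 𝒩 hMC c₁ cf hc1n hcfn
    (fun j p hj hp => hc1' j fun h => hp (h p hj)) (fun f hf => hcf' f hf) η b' hη hb' hne'
  obtain ⟨p₁, hp₁, hmin⟩ := Finset.exists_min_image 𝒩 (psum pg s c₁) hn
  rcases le_total (∑ f, cf f) (psum pg s c₁ p₁) with hle | hle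
  · refine ⟨gs q, Or.inl rfl, ?_⟩
    rw [val_eq c c₁ cf h1 h2]
    have := key (∑ f, cf f) le_rfl (fun p hp => hle.trans (hmin p hp)) (Or.inl rfl)
    have h3 : ∑ p, ((q : ℝ) - (gs q p : ℤ)) * psum pg s c₁ p = 0 :=
      Finset.sum_eq_zero fun p _ => by simp [gs]
    have h4 : ∑ p ∈ 𝒩, ((gs q p : ℤ) : ℝ) = 𝒩.card * q := by simp [gs]
    rw [h3, h4]
    linarith
  · refine ⟨gp g q 𝒩 p₁, Or.inr ⟨p₁, hp₁, rfl⟩, ?_⟩
    rw [val_eq c c₁ cf h1 h2]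
    have := key (psum pg s c₁ p₁) hle hmin (Or.inr ⟨p₁, hp₁, rfl⟩)
    have h3 : ∑ p, ((q : ℝ) - (gp g q 𝒩 p₁ p : ℤ)) * psum pg s c₁ p =
        q * ((𝒩.card : ℝ) - g) * psum pg s c₁ p₁ := by
      rw [Finset.sum_eq_single p₁]
      · simp [gp]
      · intro p _ hne
        simp [gp, hne]
      · intro h
        exact absurd (Finset.mem_univ _) h
    have h4 : ∑ p ∈ 𝒩, ((gp g q 𝒩 p₁ p : ℤ) : ℝ) = g * q := by
      rw [← Int.cast_sum, sum_gp hp₁]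
      push_cast
      ring
    rw [h3, h4]
    linarith

theorem sum_in {σ : P → ℕ} (h : ∀ p, p ∉ 𝒩 → σ p = 0) (F : P → ℤ) :
    ∑ p, (σ p : ℤ) * F p = ∑ p ∈ 𝒩, (σ p : ℤ) * F p := by
  symm
  refine Finset.sum_subset (Finset.subset_univ _) fun p _ hp => ?_
  rw [h p hp]
  simp

end A5

open A5 in
open Vale.Agent.P283.T647.R7 (RJ RF mv mκ fn fn_surj pair_inl pair_inr exists_max sum_ext_sub'
  pair_fn neg_dot) in
theorem a5 (h : T647.PointDoi) (h' : MergeIneq) : CaseM := by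
  classical
  intro n k g q δ hδ
  obtain ⟨k₀, hk0, H⟩ := h (n + k) q (min δ (1 / 2)) (lt_min hδ (by norm_num))
  refine ⟨k₀, hk0, ?_⟩
  intro P ι _ _ _ pg s w κ hB hR hne 𝒩 hMC hcard K hK hK0 σ a hσ0 hsupp hσ hin
  have htriv := hMC.1
  have hcard' : g + 2 ≤ 𝒩.card := by
    obtain ⟨𝒬, hQ, hQc, -⟩ := hMC.2
    rw [← hQc]
    exact Finset.card_le_card hQ
  have hn : 𝒩.Nonempty := by
    rw [← Finset.card_pos]
    omega
  set Ls : Finset (({p // p ∈ 𝒩} ⊕ Fin k) → ℤ) :=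
    insert (fn 𝒩 (gs q) 0) (𝒩.image fun p₁ => fn 𝒩 (gp g q 𝒩 p₁) 0) with hLsdef
  have hLs : ∀ ℓ ∈ Ls, ∃ γ, ℓ = fn 𝒩 γ (0 : Fin k → ℤ) ∧ IsLs g q 𝒩 γ := by
    intro ℓ hℓ
    rcases Finset.mem_insert.1 hℓ with rfl | hℓ
    · exact ⟨_, rfl, isLs_gs (by omega)⟩
    · obtain ⟨p₁, hp₁, rfl⟩ := Finset.mem_image.1 hℓ
      exact ⟨_, rfl, isLs_gp (by omega) hp₁⟩
  have H' := H ({p // p ∈ 𝒩} ⊕ Fin k) (RJ 𝒩 pg ⊕ RF 𝒩 pg) (by simp [hcard])
    (mv 𝒩 pg s w) Ls (mT g q 𝒩 pg s κ) (mκ q 𝒩 pg κ)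
    (by
      rintro (j | f)
      · exact hB.κq _
      · exact le_rfl)
    (by
      intro ℓ hℓ j
      obtain ⟨γ, rfl, hg⟩ := hLs ℓ hℓ
      exact ls_le hg j)
    (by
      intro c hc b hb hbe
      obtain ⟨γ, hg, hle⟩ := hyp h' hB hne hMC hn c hc b hb hbe
      refine ⟨fn 𝒩 γ 0, ?_, hle⟩
      rcases hg with rfl | ⟨p₁, hp₁, rfl⟩
      · exact Finset.mem_insert_self _ _
      · exact Finset.mem_insert_of_mem (Finset.mem_image_of_mem _ hp₁))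
    K hK hK0
  obtain ⟨r, hr, b, c, hS, ht⟩ := hR σ a hsupp hσ hin
  unfold tval at ht
  have ha' : fn 𝒩 (fun p => (σ p : ℤ)) a ≠ 0 := by
    intro h0
    rcases hσ with h2 | h2
    · apply h2
      funext p
      by_cases hp : p ∈ 𝒩
      · have := congrFun h0 (Sum.inl ⟨p, hp⟩)
        simp [fn] at this
        simpa using this
      · exact hσ0 p hp
    · apply h2
      funext i
      exact congrFun h0 (Sum.inr i)
  obtain ⟨Y, hY, ℓ, hℓ, hlt⟩ := H' (fn 𝒩 (fun p => (σ p : ℤ)) a) ha'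
    (by
      intro v hv
      obtain ⟨e, c', rfl⟩ := fn_surj 𝒩 v
      obtain ⟨e', he1, hsum, hnon⟩ := dual_ext hne htriv e c'
        (fun j => (hv j).trans_eq (Finset.sum_congr rfl fun _ _ => mul_comm _ _))
      have h3 := hin e' c' hsum hnon
      rw [pair_fn]
      rw [sum_in hσ0] at h3
      have h4 : ∑ p ∈ 𝒩, (σ p : ℤ) * e' p = ∑ p ∈ 𝒩, (σ p : ℤ) * e p :=
        Finset.sum_congr rfl fun p hp => by rw [he1 p hp]
      rw [h4] at h3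
      have h5 : ∑ i, a i * c' i = ∑ i, c' i * a i :=
        Finset.sum_congr rfl fun _ _ => mul_comm _ _
      rw [h5]
      exact h3)
    ⟨r, fn 𝒩 b (fun i => -c i), fwd htriv r b c hS, fn 𝒩 (gs q) 0,
      Finset.mem_insert_self _ _, by
        rw [pair_fn, pair_fn, neg_dot]
        rw [sum_in hσ0] at ht
        simp only [gs, Pi.zero_apply, zero_mul, Finset.sum_const_zero, add_zero]
        have h4 : ∑ p ∈ 𝒩, (σ p : ℤ) * ((q : ℤ) * r - b p) =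
            (r : ℤ) * ∑ p ∈ 𝒩, (q : ℤ) * σ p - ∑ p ∈ 𝒩, b p * σ p := by
          rw [Finset.mul_sum, ← Finset.sum_sub_distrib]
          exact Finset.sum_congr rfl fun _ _ => by ring
        rw [h4] at ht
        linarith⟩
  obtain ⟨e, u, rfl⟩ := fn_surj 𝒩 Y
  obtain ⟨γ, rfl, hg⟩ := hLs ℓ hℓ
  obtain ⟨b', hb', hS'⟩ := back hne htriv K e u hY
  refine ⟨b', fun i => -u i, hS', ?_⟩
  unfold tval
  rw [pair_fn, pair_fn] at hlt
  simp only [Pi.zero_apply, zero_mul, Finset.sum_const_zero, add_zero] at hlt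
  rw [neg_dot, sum_in hσ0]
  have h4 : ∑ p ∈ 𝒩, (σ p : ℤ) * ((q : ℤ) * K - b' p) =
      (K : ℤ) * ∑ p ∈ 𝒩, (q : ℤ) * σ p - ∑ p ∈ 𝒩, e p * σ p := by
    rw [Finset.mul_sum, ← Finset.sum_sub_distrib]
    exact Finset.sum_congr rfl fun p hp => by rw [hb' p hp]; ring
  rw [h4]
  have h6 : (K : ℤ) * ∑ p ∈ 𝒩, γ p * σ p ≤ K * ∑ p ∈ 𝒩, (q : ℤ) * σ p :=
    mul_le_mul_of_nonneg_left (Finset.sum_le_sum fun p _ =>
      mul_le_mul_of_nonneg_right (hg.1 p) (Int.natCast_nonneg _)) (Int.natCast_nonneg _)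
  linarith

end Vale.Agent.P283.A647
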