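import Vale.Agent.P283.A647.Props

/-!
Row A6: at most `g + 1` pages are not empty.
-/

set_option linter.all false

namespace Vale.Agent.P283.A647

open Vale.Agent.P283.T647 (psum fval Triv Ch)

theorem A6.sum_choice {P ι : Type} [Fintype ι] [DecidableEq ι] (O : Finset P) (g : P → ι) (μ : ℝ)
    (f : ι → ℝ) :
    ∑ j, (∑ p ∈ O, if g p = j then μ else 0) * f j = μ * ∑ p ∈ O, f (g p) := by
  simp only [Finset.sum_mul]
  rw [Finset.sum_comm, Finset.mul_sum]
  refine Finset.sum_congr rfl fun p _ => ?_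
  simp

theorem a6 (h : T647.PointDoi) : CaseE := by
  classical
  intro k g q δ hδ
  obtain ⟨k₀, hk₀, H⟩ := h (g + k) q δ hδ
  refine ⟨k₀, hk₀, ?_⟩
  intro P ι _ instP _ pg s w κ B hreal hray 𝒬 hQc hMt K hK hK0
  choose gg hg using hray
  have hne : 𝒬.Nonempty := Finset.card_pos.1 (by omega)
  obtain ⟨p₀, hp₀⟩ := id hne
  let R : Finset P := 𝒬.erase p₀
  have hRc : R.card = g := by
    show (𝒬.erase p₀).card = g
    rw [Finset.card_erase_of_mem hp₀, hQc]; rfl
  have hRi : ∀ p, p ∈ R ↔ p ≠ p₀ ∧ p ∈ 𝒬 := fun p => Finset.mem_erase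
  have hp0R : p₀ ∉ R := fun h => ((hRi p₀).1 h).1 rfl
  have hsQ : ∀ f : P → ℤ, ∑ p ∈ 𝒬, f p = f p₀ + ∑ p ∈ R, f p :=
    fun f => (Finset.add_sum_erase _ f hp₀).symm
  have hsplit : ∀ f : P → ℤ, ∑ p, f p = f p₀ + ∑ p ∈ R, f p + ∑ p ∈ 𝒬ᶜ, f p := by
    intro f
    rw [← hsQ, Finset.sum_add_sum_compl]
  have hOc : ((𝒬ᶜ).card : ℝ) = (Fintype.card P : ℝ) - g - 1 := by
    rw [Finset.card_compl, hQc, Nat.cast_sub B.many]; push_cast; ring
  have hwo : ∀ j p, pg j = some p → p ∉ 𝒬 → s j = 1 ∧ κ j = q ∧ w j = w (gg p) := by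
    intro j p hj hp
    exact ⟨((hMt p hp).1 j hj).1, ((hMt p hp).1 j hj).2, (hMt p hp).2 j (gg p) hj (hg p)⟩
  let W : Fin k → ℤ := fun i => ∑ p ∈ 𝒬ᶜ, w (gg p) i
  have hdW : ∀ y : Fin k → ℤ, ∑ p ∈ 𝒬ᶜ, ∑ i, y i * w (gg p) i = ∑ i, y i * W i := by
    intro y
    rw [Finset.sum_comm]
    exact Finset.sum_congr rfl fun i _ => (Finset.mul_sum _ _ _).symm
  have hRsum : ∀ F : P → ℤ, ∑ x : {p // p ∈ R}, F x.1 = ∑ p ∈ R, F p :=
    fun F => Finset.sum_coe_sort R F
  have hXc : Fintype.card {p // p ∈ R} = g := by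
    rw [Fintype.card_coe, hRc]
  -- the functional
  let comb : ({p // p ∈ R} ⊕ Fin k → ℤ) → ℤ → P → ℤ := fun Y D p =>
    if h : p ∈ R then Y (Sum.inl ⟨p, h⟩) else
      if p = p₀ then D - ∑ x : {p // p ∈ R}, Y (Sum.inl x) + ∑ i, Y (Sum.inr i) * W i
      else -∑ i, Y (Sum.inr i) * w (gg p) i
  have hc1 : ∀ Y D (x : {p // p ∈ R}), comb Y D x.1 = Y (Sum.inl x) := by
    intro Y D x
    simp only [comb, dif_pos x.2]
  have hc2 : ∀ Y D, comb Y D p₀ =
      D - ∑ x : {p // p ∈ R}, Y (Sum.inl x) + ∑ i, Y (Sum.inr i) * W i := by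
    intro Y D
    simp only [comb, dif_neg hp0R, if_true]
  have hc3 : ∀ Y D p, p ∉ 𝒬 → comb Y D p = -∑ i, Y (Sum.inr i) * w (gg p) i := by
    intro Y D p hp
    have h1 : p ∉ R := fun h => hp ((hRi p).1 h).2
    have h2 : p ≠ p₀ := fun h => hp (h ▸ hp₀)
    simp only [comb, dif_neg h1, if_neg h2]
  have hcs : ∀ Y D, ∑ p, comb Y D p = D := by
    intro Y D
    rw [hsplit, hc2, ← hRsum]
    have h1 : ∑ p ∈ 𝒬ᶜ, comb Y D p = -∑ i, Y (Sum.inr i) * W i := by
      rw [← hdW, ← Finset.sum_neg_distrib]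
      exact Finset.sum_congr rfl fun p hp => hc3 Y D p (Finset.mem_compl.1 hp)
    rw [h1]
    simp only [hc1]
    ring
  -- the rays
  obtain ⟨on, hon⟩ : ∃ on : ι → Prop, ∀ j, on j ↔ ∀ p, pg j = some p → p ∈ 𝒬 :=
    ⟨_, fun j => Iff.rfl⟩
  have hon0 : ∀ j, pg j = none → on j := by
    intro j hj
    rw [hon]
    intro p hp
    rw [hj] at hp
    cases hp
  have hon1 : ∀ j p, pg j = some p → p ∈ 𝒬 → on j := by
    intro j p hj hp
    rw [hon]
    intro p' hp'
    rw [hj] at hp'
    cases hp'
    exact hp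
  have hon2 : ∀ j p, pg j = some p → p ∉ 𝒬 → ¬ on j :=
    fun j p hj hp ho => hp ((hon j).1 ho p hj)
  let v : ι → {p // p ∈ R} ⊕ Fin k → ℤ := fun j => Sum.elim
    (fun x => (if pg j = some x.1 then (s j : ℤ) else 0) -
      (if pg j = some p₀ then (s j : ℤ) else 0))
    (fun i => (if on j then w j i else 0) + (if pg j = some p₀ then (s j : ℤ) * W i else 0))
  let T : ι → ℤ := fun j => (pg j).elim 0 (fun _ => (s j : ℤ) * q) - κ j -
    (if pg j = some p₀ then (s j : ℤ) * ((g + 1) * q) else 0)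
  have hlin : ∀ (Y : {p // p ∈ R} ⊕ Fin k → ℤ) (D : ℤ) (j : ι),
      (pg j).elim 0 (fun p => (s j : ℤ) * comb Y D p) + ∑ i, Y (Sum.inr i) * w j i =
        ∑ x, Y x * v j x + (if pg j = some p₀ then (s j : ℤ) * D else 0) := by
    intro Y D j
    rw [Fintype.sum_sum_type]
    simp only [v, Sum.elim_inl, Sum.elim_inr]
    rcases hj : pg j with _ | p
    · have ho := hon0 j hj
      simp [ho]
    · by_cases hp : p = p₀
      · have ho := hon1 j p hj (hp ▸ hp₀)
        have e1 : ∑ x : {p // p ∈ R}, Y (Sum.inl x) * ((if some p = some x.1 then (s j : ℤ) else 0) -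
            (if some p = some p₀ then (s j : ℤ) else 0)) =
            -(s j * ∑ x : {p // p ∈ R}, Y (Sum.inl x)) := by
          rw [Finset.mul_sum, ← Finset.sum_neg_distrib]
          refine Finset.sum_congr rfl fun x _ => ?_
          have h1 : ¬ (some p = some x.1) := fun h =>
            hp0R (by rw [← hp, Option.some.inj h]; exact x.2)
          rw [if_neg h1, if_pos (by rw [hp])]; ring
        have e2 : ∑ i, Y (Sum.inr i) * ((if on j then w j i else 0) +
            (if some p = some p₀ then (s j : ℤ) * W i else 0)) =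
            ∑ i, Y (Sum.inr i) * w j i + s j * ∑ i, Y (Sum.inr i) * W i := by
          rw [Finset.mul_sum, ← Finset.sum_add_distrib]
          refine Finset.sum_congr rfl fun i _ => ?_
          rw [if_pos ho, if_pos (by rw [hp])]; ring
        rw [e1, e2, if_pos (by rw [hp])]
        simp only [Option.elim_some]
        rw [hp, hc2]
        ring
      · have hsp : ¬ (some p = some p₀) := fun h => hp (Option.some.inj h)
        by_cases hpQ : p ∈ 𝒬
        · have ho := hon1 j p hj hpQ
          have hpR : p ∈ R := (hRi p).2 ⟨hp, hpQ⟩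
          have e1 : ∑ x : {p // p ∈ R}, Y (Sum.inl x) *
              ((if some p = some x.1 then (s j : ℤ) else 0) -
              (if some p = some p₀ then (s j : ℤ) else 0)) = Y (Sum.inl ⟨p, hpR⟩) * s j := by
            rw [Finset.sum_eq_single ⟨p, hpR⟩]
            · rw [if_pos rfl, if_neg hsp]; ring
            · intro x _ hx
              have h1 : ¬ (some p = some x.1) := fun h =>
                hx (Subtype.ext (Option.some.inj h).symm)
              rw [if_neg h1, if_neg hsp]; ring
            · intro h1; exact absurd (Finset.mem_univ _) h1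
          have e2 : ∑ i, Y (Sum.inr i) * ((if on j then w j i else 0) +
              (if some p = some p₀ then (s j : ℤ) * W i else 0)) =
              ∑ i, Y (Sum.inr i) * w j i := by
            refine Finset.sum_congr rfl fun i _ => ?_
            rw [if_pos ho, if_neg hsp]; ring
          rw [e1, e2, if_neg hsp]
          simp only [Option.elim_some]
          rw [hc1 Y D ⟨p, hpR⟩]
          ring
        · have ho := hon2 j p hj hpQ
          obtain ⟨w1, w2, w3⟩ := hwo j p hj hpQ
          have e1 : ∑ x : {p // p ∈ R}, Y (Sum.inl x) *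
              ((if some p = some x.1 then (s j : ℤ) else 0) -
              (if some p = some p₀ then (s j : ℤ) else 0)) = 0 := by
            refine Finset.sum_eq_zero fun x _ => ?_
            have h1 : ¬ (some p = some x.1) := fun h =>
              hpQ (by rw [Option.some.inj h]; exact ((hRi _).1 x.2).2)
            rw [if_neg h1, if_neg hsp]; ring
          have e2 : ∑ i, Y (Sum.inr i) * ((if on j then w j i else 0) +
              (if some p = some p₀ then (s j : ℤ) * W i else 0)) = 0 := by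
            refine Finset.sum_eq_zero fun i _ => ?_
            rw [if_neg ho, if_neg hsp]; ring
          rw [e1, e2, if_neg hsp]
          simp only [Option.elim_some]
          rw [hc3 Y D p hpQ, w1, w3]
          push_cast
          ring
  have hfv : ∀ (r : ℕ) (Y : {p // p ∈ R} ⊕ Fin k → ℤ) (j : ι),
      fval q r pg s w (comb Y ((g + 1) * q * r)) (fun i => -Y (Sum.inr i)) j - r * κ j =
        r * T j - ∑ x, Y x * v j x := by
    intro r Y j
    have h1 := hlin Y ((g + 1) * q * r) j
    unfold fval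
    have h2 : ∑ i, (-Y (Sum.inr i)) * w j i = -∑ i, Y (Sum.inr i) * w j i := by
      rw [← Finset.sum_neg_distrib]
      exact Finset.sum_congr rfl fun i _ => neg_mul _ _
    rw [h2]
    simp only [T]
    rcases hj : pg j with _ | p
    · rw [hj] at h1
      simp only [Option.elim_none, reduceCtorEq, if_false] at h1 ⊢
      linear_combination -h1
    · rw [hj] at h1
      simp only [Option.elim_some] at h1 ⊢
      by_cases hsp : some p = some p₀
      · rw [if_pos hsp] at h1 ⊢
        linear_combination -h1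
      · rw [if_neg hsp] at h1 ⊢
        linear_combination -h1
  let ℓ : {p // p ∈ R} ⊕ Fin k → ℤ := Sum.elim (fun _ => (q : ℤ)) (fun _ => 0)
  have hκv : ∀ j, ∑ x, ℓ x * v j x - T j = if on j then (κ j : ℤ) else 0 := by
    intro j
    have h1 := hlin ℓ ((g + 1) * q) j
    have hl2 : ∑ i, ℓ (Sum.inr i) * w j i = 0 :=
      Finset.sum_eq_zero fun i _ => by simp [ℓ]
    have hl3 : comb ℓ ((g + 1) * q) p₀ = q := by
      rw [hc2]
      simp only [ℓ, Sum.elim_inl, Sum.elim_inr, zero_mul, Finset.sum_const_zero, add_zero,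
        Finset.sum_const, Finset.card_univ, hXc, nsmul_eq_mul]
      ring
    have hl4 : ∀ p, p ∈ 𝒬 → comb ℓ ((g + 1) * q) p = q := by
      intro p hp
      by_cases h0 : p = p₀
      · rw [h0]; exact hl3
      · exact hc1 ℓ _ ⟨p, (hRi p).2 ⟨h0, hp⟩⟩
    have hl5 : ∀ p, p ∉ 𝒬 → comb ℓ ((g + 1) * q) p = 0 := by
      intro p hp
      rw [hc3 _ _ _ hp]
      simp [ℓ]
    rw [hl2, add_zero] at h1
    simp only [T]
    rcases hj : pg j with _ | p
    · rw [hj] at h1
      rw [if_pos (hon0 j hj)]
      simp only [Option.elim_none, reduceCtorEq, if_false] at h1 ⊢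
      linear_combination -h1
    · rw [hj] at h1
      simp only [Option.elim_some] at h1 ⊢
      by_cases hp : p ∈ 𝒬
      · rw [if_pos (hon1 j p hj hp)]
        rw [hl4 p hp] at h1
        linear_combination -h1
      · rw [if_neg (hon2 j p hj hp)]
        obtain ⟨w1, w2, w3⟩ := hwo j p hj hp
        rw [hl5 p hp] at h1
        rw [w1, w2]
        rw [w1] at h1
        push_cast at h1 ⊢
        linear_combination -h1
  -- the targets
  let tgt : (P → ℕ) → (Fin k → ℤ) → {p // p ∈ R} ⊕ Fin k → ℤ := fun σ a => Sum.elim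
    (fun x => (σ x.1 : ℤ) - σ p₀)
    (fun i => a i - ∑ p ∈ 𝒬ᶜ, (σ p : ℤ) * w (gg p) i + σ p₀ * W i)
  have htgt : ∀ (Y : {p // p ∈ R} ⊕ Fin k → ℤ) (D : ℤ) (σ : P → ℕ) (a : Fin k → ℤ),
      ∑ p, (σ p : ℤ) * comb Y D p + ∑ i, Y (Sum.inr i) * a i =
        ∑ x, Y x * tgt σ a x + σ p₀ * D := by
    intro Y D σ a
    rw [hsplit (fun p => (σ p : ℤ) * comb Y D p), hc2,
      ← hRsum (fun p => (σ p : ℤ) * comb Y D p), Fintype.sum_sum_type]
    simp only [hc1, tgt, Sum.elim_inl, Sum.elim_inr]
    have e1 : ∑ p ∈ 𝒬ᶜ, (σ p : ℤ) * comb Y D p =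
        -∑ i, Y (Sum.inr i) * ∑ p ∈ 𝒬ᶜ, (σ p : ℤ) * w (gg p) i := by
      have h1 : ∀ p ∈ 𝒬ᶜ, (σ p : ℤ) * comb Y D p =
          -∑ i, Y (Sum.inr i) * ((σ p : ℤ) * w (gg p) i) := by
        intro p hp
        rw [hc3 Y D p (Finset.mem_compl.1 hp), mul_neg, Finset.mul_sum]
        congr 1
        exact Finset.sum_congr rfl fun i _ => by ring
      rw [Finset.sum_congr rfl h1, Finset.sum_neg_distrib, Finset.sum_comm]
      simp only [Finset.mul_sum]
    have e2 : ∑ x : {p // p ∈ R}, Y (Sum.inl x) * ((σ x.1 : ℤ) - σ p₀) =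
        ∑ x : {p // p ∈ R}, (σ x.1 : ℤ) * Y (Sum.inl x) -
          σ p₀ * ∑ x : {p // p ∈ R}, Y (Sum.inl x) := by
      rw [Finset.mul_sum, ← Finset.sum_sub_distrib]
      exact Finset.sum_congr rfl fun x _ => by ring
    have e3 : ∑ i, Y (Sum.inr i) * (a i - ∑ p ∈ 𝒬ᶜ, (σ p : ℤ) * w (gg p) i + σ p₀ * W i) =
        ∑ i, Y (Sum.inr i) * a i - ∑ i, Y (Sum.inr i) * ∑ p ∈ 𝒬ᶜ, (σ p : ℤ) * w (gg p) i +
          σ p₀ * ∑ i, Y (Sum.inr i) * W i := by
      rw [Finset.mul_sum, ← Finset.sum_sub_distrib, ← Finset.sum_add_distrib]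
      exact Finset.sum_congr rfl fun i _ => by ring
    rw [e1, e2, e3]
    ring
  have hℓt : ∀ (σ : P → ℕ) (a : Fin k → ℤ), ∑ x, ℓ x * tgt σ a x =
      q * (∑ p ∈ R, (σ p : ℤ) - g * σ p₀) := by
    intro σ a
    rw [Fintype.sum_sum_type]
    simp only [ℓ, tgt, Sum.elim_inl, Sum.elim_inr, zero_mul, Finset.sum_const_zero, add_zero]
    rw [← Finset.mul_sum, Finset.sum_sub_distrib, hRsum (fun p => (σ p : ℤ))]
    simp only [Finset.sum_const, Finset.card_univ, hXc, nsmul_eq_mul]
  have htv : ∀ (r : ℕ) (Y : {p // p ∈ R} ⊕ Fin k → ℤ) (σ : P → ℕ) (a : Fin k → ℤ),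
      tval q r (comb Y ((g + 1) * q * r)) (fun i => -Y (Sum.inr i)) σ a =
        (r * ∑ x, ℓ x * tgt σ a x - ∑ x, Y x * tgt σ a x) + q * r * ∑ p ∈ 𝒬ᶜ, (σ p : ℤ) := by
    intro r Y σ a
    have h1 := htgt Y ((g + 1) * q * r) σ a
    have h3 := hsplit (fun p => (σ p : ℤ))
    unfold tval
    have h2 : ∑ i, (-Y (Sum.inr i)) * a i = -∑ i, Y (Sum.inr i) * a i := by
      rw [← Finset.sum_neg_distrib]
      exact Finset.sum_congr rfl fun i _ => neg_mul _ _
    have h4 : ∑ p, (σ p : ℤ) * (q * r - comb Y ((g + 1) * q * r) p) =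
        q * r * ∑ p, (σ p : ℤ) - ∑ p, (σ p : ℤ) * comb Y ((g + 1) * q * r) p := by
      rw [Finset.mul_sum, ← Finset.sum_sub_distrib]
      exact Finset.sum_congr rfl fun p _ => by ring
    rw [h2, h4, hℓt]
    linear_combination -h1 + (q : ℤ) * r * h3
  -- the lower bound
  have Hlc : ∀ c : ι → ℝ, (∀ j, 0 ≤ c j) → ∀ b : {p // p ∈ R} ⊕ Fin k → ℤ, b ≠ 0 →
      (∀ x, (b x : ℝ) = ∑ j, c j * v j x) →
      δ ≤ ∑ j, (if on j then c j else 0) * (κ j : ℝ) := by
    intro c hc b hb hbc
    let S : P → ℝ := fun p => psum pg s c p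
    let A : Fin k → ℝ := fun i => ∑ j, (if on j then c j else 0) * (w j i : ℝ)
    have hS0 : ∀ p, 0 ≤ S p := by
      intro p
      refine Finset.sum_nonneg fun j _ => ?_
      split_ifs
      · exact mul_nonneg (hc j) (Nat.cast_nonneg _)
      · exact le_refl _
    have hb0 : ∀ x : {p // p ∈ R}, (b (Sum.inl x) : ℝ) = S x.1 - S p₀ := by
      intro x
      rw [hbc]
      show _ = (∑ j, if pg j = some x.1 then c j * (s j : ℝ) else 0) -
        ∑ j, if pg j = some p₀ then c j * (s j : ℝ) else 0
      rw [← Finset.sum_sub_distrib]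
      refine Finset.sum_congr rfl fun j _ => ?_
      simp only [v, Sum.elim_inl]
      split_ifs <;> push_cast <;> ring
    have hb1 : ∀ i, (b (Sum.inr i) : ℝ) = A i + S p₀ * W i := by
      intro i
      rw [hbc]
      show _ = (∑ j, (if on j then c j else 0) * (w j i : ℝ)) +
        (∑ j, if pg j = some p₀ then c j * (s j : ℝ) else 0) * W i
      rw [Finset.sum_mul, ← Finset.sum_add_distrib]
      refine Finset.sum_congr rfl fun j _ => ?_
      simp only [v, Sum.elim_inr]
      split_ifs <;> push_cast <;> ring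
    have key : ∀ μ : ℝ, 0 ≤ μ → ∃ c' : ι → ℝ, (∀ j, 0 ≤ c' j) ∧
        (∀ p, p ∈ 𝒬 → psum pg s c' p = S p) ∧ (∀ p, p ∉ 𝒬 → psum pg s c' p = μ) ∧
        (∀ i, ∑ j, c' j * (w j i : ℝ) = A i + μ * W i) ∧
        ∑ j, c' j * (κ j : ℝ) = ∑ j, (if on j then c j else 0) * (κ j : ℝ) +
          μ * (q * ((Fintype.card P : ℝ) - g - 1)) := by
      intro μ hμ
      let d : ι → ℝ := fun j => if on j then c j else 0
      let c' : ι → ℝ := fun j => d j + ∑ p ∈ 𝒬ᶜ, if gg p = j then μ else 0
      have hd : ∀ j, 0 ≤ d j := by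
        intro j
        simp only [d]
        split_ifs
        · exact hc j
        · exact le_refl _
      have hsum : ∀ f : ι → ℝ, ∑ j, c' j * f j =
          ∑ j, d j * f j + μ * ∑ p ∈ 𝒬ᶜ, f (gg p) := by
        intro f
        rw [← A6.sum_choice 𝒬ᶜ gg μ f, ← Finset.sum_add_distrib]
        exact Finset.sum_congr rfl fun j _ => add_mul _ _ _
      have hps : ∀ p, psum pg s c' p =
          ∑ j, d j * (if pg j = some p then (s j : ℝ) else 0) +
            μ * ∑ p' ∈ 𝒬ᶜ, if p' = p then (s (gg p') : ℝ) else 0 := by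
        intro p
        unfold psum
        have h1 : ∀ j, (if pg j = some p then c' j * (s j : ℝ) else 0) =
            c' j * (if pg j = some p then (s j : ℝ) else 0) := by
          intro j; rw [mul_ite, mul_zero]
        simp only [h1]
        rw [hsum]
        congr 2
        refine Finset.sum_congr rfl fun p' _ => ?_
        rw [hg p']
        by_cases h2 : p' = p
        · simp [h2]
        · have : ¬ (some p' = some p) := fun h => h2 (Option.some.inj h)
          simp [h2, this]
      refine ⟨c', fun j => add_nonneg (hd j) (Finset.sum_nonneg fun p _ => ?_), ?_, ?_, ?_, ?_⟩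
      · split_ifs
        · exact hμ
        · exact le_refl _
      · intro p hp
        rw [hps p]
        have h1 : ∑ p' ∈ 𝒬ᶜ, (if p' = p then (s (gg p') : ℝ) else 0) = 0 :=
          Finset.sum_eq_zero fun p' hp' => by
            rw [if_neg (fun h : p' = p => Finset.mem_compl.1 hp' (by rw [h]; exact hp))]
        rw [h1, mul_zero, add_zero]
        show _ = ∑ j, if pg j = some p then c j * (s j : ℝ) else 0
        refine Finset.sum_congr rfl fun j _ => ?_
        by_cases hj : pg j = some p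
        · simp only [d, if_pos (hon1 j p hj hp), if_pos hj]
        · simp only [if_neg hj, mul_zero]
      · intro p hp
        rw [hps p]
        have h3 : ∑ j, d j * (if pg j = some p then (s j : ℝ) else 0) = 0 := by
          refine Finset.sum_eq_zero fun j _ => ?_
          by_cases hj : pg j = some p
          · simp only [d, if_neg (hon2 j p hj hp), zero_mul]
          · simp only [if_neg hj, mul_zero]
        rw [h3, zero_add, Finset.sum_ite_eq' 𝒬ᶜ p]
        rw [if_pos (Finset.mem_compl.2 hp), (hwo (gg p) p (hg p) hp).1]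
        norm_num
      · intro i
        rw [hsum (fun j => (w j i : ℝ))]
        congr 1
        simp only [W]
        push_cast
        rfl
      · rw [hsum (fun j => (κ j : ℝ))]
        congr 1
        congr 1
        have h1 : ∑ p ∈ 𝒬ᶜ, (κ (gg p) : ℝ) = ∑ p ∈ 𝒬ᶜ, (q : ℝ) :=
          Finset.sum_congr rfl fun p hp => by
            rw [(hwo (gg p) p (hg p) (Finset.mem_compl.1 hp)).2.1]
        rw [h1, Finset.sum_const, nsmul_eq_mul, hOc]
        ring
    obtain ⟨p₁, hp₁, hmin⟩ := Finset.exists_min_image 𝒬 S hne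
    let η : P → ℤ := fun p => if h : p ∈ R then b (Sum.inl ⟨p, h⟩) else 0
    have hη0 : η p₀ = 0 := by simp only [η, dif_neg hp0R]
    have hηR : ∀ x : {p // p ∈ R}, η x.1 = b (Sum.inl x) := by
      intro x; simp only [η, dif_pos x.2]
    have hη : ∀ p ∈ 𝒬, (η p : ℝ) = S p - S p₀ := by
      intro p hp
      by_cases h0 : p = p₀
      · rw [h0, hη0]; simp
      · rw [hηR ⟨p, (hRi p).2 ⟨h0, hp⟩⟩, hb0]
    have hηge : ∀ p ∈ 𝒬, 0 ≤ η p - η p₁ := by
      intro p hp
      have h1 : (0 : ℝ) ≤ (η p : ℝ) - η p₁ := by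
        rw [hη p hp, hη p₁ hp₁]
        have := hmin p hp
        linarith
      exact_mod_cast h1
    let σ : P → ℕ := fun p => if p ∈ 𝒬 then (η p - η p₁).toNat else 0
    have hσQ : ∀ p ∈ 𝒬, ((σ p : ℕ) : ℤ) = η p - η p₁ := by
      intro p hp
      simp only [σ, if_pos hp]
      exact Int.toNat_of_nonneg (hηge p hp)
    have hσO : ∀ p, p ∉ 𝒬 → σ p = 0 := by
      intro p hp
      simp only [σ, if_neg hp]
    obtain ⟨c', hc', e1, e2, e3, e4⟩ := key (S p₁) (hS0 p₁)
    have h1 := B.lc c' hc' (S p₁) σ (fun i => b (Sum.inr i) + η p₁ * W i) (hS0 p₁)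
      ⟨𝒬.erase p₁, by rw [Finset.card_erase_of_mem hp₁, hQc]; rfl, fun p hp => by
        by_cases hpQ : p ∈ 𝒬
        · have hpp : p = p₁ := by
            by_contra hcon
            exact hp (Finset.mem_erase.2 ⟨hcon, hpQ⟩)
          have := hσQ p hpQ
          rw [hpp, sub_self] at this
          rw [hpp]
          exact_mod_cast this
        · exact hσO p hpQ⟩
      (fun p => by
        by_cases hpQ : p ∈ 𝒬
        · rw [e1 p hpQ]
          have h2 : ((σ p : ℕ) : ℝ) = (η p : ℝ) - η p₁ := by exact_mod_cast hσQ p hpQ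
          rw [h2, hη p hpQ, hη p₁ hp₁]
          ring
        · rw [e2 p hpQ, hσO p hpQ]
          simp)
      (fun i => by
        push_cast
        rw [e3, hb1, hη p₁ hp₁]
        ring)
      (by
        by_contra hcon
        rw [not_or, not_not, not_not] at hcon
        obtain ⟨hσ, hbb⟩ := hcon
        have h2 : ∀ p ∈ 𝒬, η p = η p₁ := by
          intro p hp
          have h3 := hσQ p hp
          rw [hσ] at h3
          simp only [Pi.zero_apply, Nat.cast_zero] at h3
          linarith
        have h3 : η p₁ = 0 := by rw [← h2 p₀ hp₀, hη0]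
        apply hb
        funext x
        rcases x with x | i
        · rw [← hηR x, h2 x.1 ((hRi _).1 x.2).2, h3]; rfl
        · have := congrFun hbb i
          simp only [h3, zero_mul, add_zero, Pi.zero_apply] at this
          exact this)
    rw [e4] at h1
    linarith
  -- solving
  have solve : ∀ a : {p // p ∈ R} ⊕ Fin k → ℤ, a ≠ 0 →
      (∀ u : {p // p ∈ R} ⊕ Fin k → ℤ, (∀ j, 0 ≤ ∑ x, v j x * u x) → 0 ≤ ∑ x, a x * u x) →
      (∃ (r : ℕ) (Y : {p // p ∈ R} ⊕ Fin k → ℤ), (∀ j, r * T j ≤ ∑ x, Y x * v j x) ∧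
        ∑ x, Y x * a x < r * ∑ x, ℓ x * a x) →
      ∃ Y : {p // p ∈ R} ⊕ Fin k → ℤ, (∀ j, K * T j ≤ ∑ x, Y x * v j x) ∧
        ∑ x, Y x * a x < K * ∑ x, ℓ x * a x := by
    intro a ha hu hex
    have hcard : Fintype.card ({p // p ∈ R} ⊕ Fin k) = g + k := by
      rw [Fintype.card_sum, hXc, Fintype.card_fin]
    obtain ⟨Y, hYf, ℓ', hℓ', hYt⟩ := H ({p // p ∈ R} ⊕ Fin k) ι hcard v {ℓ} T κ B.κq
      (fun ℓ' hℓ' j => by
        rw [Finset.mem_singleton] at hℓ'
        subst hℓ'
        have h1 := hκv j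
        have h2 : (if on j then (κ j : ℤ) else 0) ≤ κ j := by
          split_ifs
          · exact le_refl _
          · exact Int.natCast_nonneg _
        linarith)
      (fun c hc b hb hbc => by
        refine ⟨ℓ, Finset.mem_singleton_self _, ?_⟩
        refine (Hlc c hc b hb hbc).trans (le_of_eq (Finset.sum_congr rfl fun j _ => ?_))
        have h1 := congrArg (Int.cast : ℤ → ℝ) (hκv j)
        rw [Int.cast_sub] at h1
        rw [h1]
        split_ifs <;> simp)
      K hK hK0 a ha hu
      (by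
        obtain ⟨r, Y, h1, h2⟩ := hex
        exact ⟨r, Y, h1, ℓ, Finset.mem_singleton_self _, h2⟩)
    rw [Finset.mem_singleton] at hℓ'
    subst hℓ'
    exact ⟨Y, hYf, hYt⟩
  -- from solutions of the point problem to the book
  have build : ∀ Y : {p // p ∈ R} ⊕ Fin k → ℤ, (∀ j, K * T j ≤ ∑ x, Y x * v j x) →
      Sol g q K pg s w κ (comb Y ((g + 1) * q * K)) (fun i => -Y (Sum.inr i)) := by
    intro Y hY
    refine ⟨(hcs _ _).le, fun j => ?_⟩
    have h1 := hY j
    have h2 := hfv K Y j
    linarith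
  -- a page of `𝒬` without the target
  have free : ∀ σ : P → ℕ, Supp g σ → ∃ p ∈ 𝒬, σ p = 0 := by
    intro σ hσ
    obtain ⟨I, hI, hI'⟩ := hσ
    by_contra hcon
    push Not at hcon
    have h1 : 𝒬 ⊆ I := by
      intro p hp
      by_contra hpI
      exact hcon p hp (hI' p hpI)
    have h2 := Finset.card_le_card h1
    omega
  -- targets with `tgt ≠ 0`
  have case1 : ∀ (σ : P → ℕ) (a : Fin k → ℤ), Supp g σ → InBook pg s w σ a → tgt σ a ≠ 0 →
      ∃ Y : {p // p ∈ R} ⊕ Fin k → ℤ, (∀ j, K * T j ≤ ∑ x, Y x * v j x) ∧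
        ∑ x, Y x * tgt σ a x < K * ∑ x, ℓ x * tgt σ a x := by
    intro σ a hσ hin ht
    refine solve _ ht (fun u hu => ?_) ?_
    · have h1 := hin (comb u 0) (fun i => u (Sum.inr i)) (hcs _ _).le (fun j => by
        have h2 := hlin u 0 j
        have h3 := hu j
        have h4 : ∑ x, v j x * u x = ∑ x, u x * v j x :=
          Finset.sum_congr rfl fun x _ => mul_comm _ _
        rw [h4] at h3
        rw [h2]
        simpa using h3)
      have h2 := htgt u 0 σ a
      have h4 : ∑ x, tgt σ a x * u x = ∑ x, u x * tgt σ a x :=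
        Finset.sum_congr rfl fun x _ => mul_comm _ _
      rw [h4]
      rw [mul_zero, add_zero] at h2
      rw [← h2]
      exact h1
    · -- the real solution
      let σQ : P → ℕ := fun p => if p ∈ 𝒬 then σ p else 0
      let a' : Fin k → ℤ := fun i => a i - ∑ p ∈ 𝒬ᶜ, (σ p : ℤ) * w (gg p) i
      have hσ1 : ∀ p ∈ 𝒬, σQ p = σ p := fun p hp => by simp only [σQ, if_pos hp]
      have hσ2 : ∀ p, p ∉ 𝒬 → σQ p = 0 := fun p hp => by simp only [σQ, if_neg hp]
      have hσQ : Supp g σQ := by
        obtain ⟨I, hI, hI'⟩ := hσ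
        refine ⟨I, hI, fun p hp => ?_⟩
        by_cases hpQ : p ∈ 𝒬
        · rw [hσ1 p hpQ, hI' p hp]
        · exact hσ2 p hpQ
      have htt : tgt σQ a' = tgt σ a := by
        funext x
        rcases x with x | i
        · simp only [tgt, Sum.elim_inl]
          rw [hσ1 _ ((hRi _).1 x.2).2, hσ1 _ hp₀]
        · simp only [tgt, Sum.elim_inr]
          rw [hσ1 _ hp₀]
          have h1 : ∑ p ∈ 𝒬ᶜ, (σQ p : ℤ) * w (gg p) i = 0 :=
            Finset.sum_eq_zero fun p hp => by
              rw [hσ2 p (Finset.mem_compl.1 hp)]; simp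
          rw [h1]
          simp only [a']
          ring
      have hin' : InBook pg s w σQ a' := by
        intro e c he hc
        let e' : P → ℤ := fun p => if p ∈ 𝒬 then e p else -∑ i, c i * w (gg p) i
        have he1 : ∀ p ∈ 𝒬, e' p = e p := fun p hp => by simp only [e', if_pos hp]
        have he2 : ∀ p, p ∉ 𝒬 → e' p = -∑ i, c i * w (gg p) i :=
          fun p hp => by simp only [e', if_neg hp]
        have h2 := hin e' c
          (by
            refine (Finset.sum_le_sum fun p _ => ?_).trans he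
            by_cases hp : p ∈ 𝒬
            · rw [he1 p hp]
            · rw [he2 p hp]
              have h1 := hc (gg p)
              rw [hg p] at h1
              simp only [Option.elim_some] at h1
              rw [(hwo (gg p) p (hg p) hp).1] at h1
              push_cast at h1
              linarith)
          (fun j => by
            have h1 := hc j
            rcases hj : pg j with _ | p
            · rw [hj] at h1
              exact h1
            · rw [hj] at h1
              simp only [Option.elim_some] at h1 ⊢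
              by_cases hp : p ∈ 𝒬
              · rw [he1 p hp]; exact h1
              · obtain ⟨w1, w2, w3⟩ := hwo j p hj hp
                rw [he2 p hp, w1, w3]
                push_cast
                linarith)
        have e1 : ∑ p, (σ p : ℤ) * e' p =
            ∑ p, (σQ p : ℤ) * e p - ∑ i, c i * ∑ p ∈ 𝒬ᶜ, (σ p : ℤ) * w (gg p) i := by
          rw [← Finset.sum_add_sum_compl 𝒬, ← Finset.sum_add_sum_compl 𝒬 (fun p => (σQ p : ℤ) * e p)]
          have e2 : ∑ p ∈ 𝒬, (σ p : ℤ) * e' p = ∑ p ∈ 𝒬, (σQ p : ℤ) * e p :=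
            Finset.sum_congr rfl fun p hp => by rw [he1 p hp, hσ1 p hp]
          have e3 : ∑ p ∈ 𝒬ᶜ, (σQ p : ℤ) * e p = 0 :=
            Finset.sum_eq_zero fun p hp => by
              rw [hσ2 p (Finset.mem_compl.1 hp)]; simp
          have e4 : ∑ p ∈ 𝒬ᶜ, (σ p : ℤ) * e' p =
              -∑ i, c i * ∑ p ∈ 𝒬ᶜ, (σ p : ℤ) * w (gg p) i := by
            have h1 : ∀ p ∈ 𝒬ᶜ, (σ p : ℤ) * e' p = -∑ i, c i * ((σ p : ℤ) * w (gg p) i) := by
              intro p hp
              rw [he2 p (Finset.mem_compl.1 hp), mul_neg, Finset.mul_sum]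
              congr 1
              exact Finset.sum_congr rfl fun i _ => by ring
            rw [Finset.sum_congr rfl h1, Finset.sum_neg_distrib, Finset.sum_comm]
            simp only [Finset.mul_sum]
          rw [e2, e3, e4]
          ring
        have e5 : ∑ i, c i * a' i = ∑ i, c i * a i -
            ∑ i, c i * ∑ p ∈ 𝒬ᶜ, (σ p : ℤ) * w (gg p) i := by
          rw [← Finset.sum_sub_distrib]
          exact Finset.sum_congr rfl fun i _ => by simp only [a']; ring
        rw [e1] at h2
        rw [e5]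
        linarith
      have hne' : σQ ≠ 0 ∨ a' ≠ 0 := by
        by_contra hcon
        rw [not_or, not_not, not_not] at hcon
        apply ht
        rw [← htt, hcon.1, hcon.2]
        funext x
        rcases x with x | i <;> simp [tgt]
      obtain ⟨r, hr, b, c, hsol, hpos⟩ := hreal σQ a' hσQ hne' hin'
      obtain ⟨p', hp', hp'0⟩ := free σ hσ
      have hO' : ∑ i, c i * W i ≤ ∑ p ∈ 𝒬ᶜ, b p := by
        rw [← hdW]
        refine Finset.sum_le_sum fun p hp => ?_
        have h3 := hsol.2 (gg p)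
        unfold fval at h3
        rw [hg p] at h3
        simp only [Option.elim_some] at h3
        obtain ⟨w1, w2, w3⟩ := hwo (gg p) p (hg p) (Finset.mem_compl.1 hp)
        rw [w1, w2] at h3
        push_cast at h3
        linarith
      have hsl : 0 ≤ (g + 1) * q * r - ∑ i, c i * W i - ∑ p ∈ 𝒬, b p := by
        have h1 := hsol.1
        rw [← Finset.sum_add_sum_compl 𝒬] at h1
        linarith
      let sl : ℤ := (g + 1) * q * r - ∑ i, c i * W i - ∑ p ∈ 𝒬, b p
      let b' : P → ℤ := fun p => b p + if p = p' then sl else 0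
      have hb' : ∀ p, b p ≤ b' p := by
        intro p
        simp only [b']
        split_ifs
        · have : 0 ≤ sl := hsl
          linarith
        · simp
      have hbQ : ∑ p ∈ 𝒬, b' p = (g + 1) * q * r - ∑ i, c i * W i := by
        simp only [b']
        rw [Finset.sum_add_distrib, Finset.sum_ite_eq' 𝒬 p', if_pos hp']
        simp only [sl]
        ring
      let Y : {p // p ∈ R} ⊕ Fin k → ℤ := Sum.elim (fun x => b' x.1) (fun i => -c i)
      have hYc : (fun i => -Y (Sum.inr i)) = c := by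
        funext i; simp only [Y, Sum.elim_inr, neg_neg]
      have hYb : ∀ p ∈ 𝒬, comb Y ((g + 1) * q * r) p = b' p := by
        intro p hp
        by_cases h0 : p = p₀
        · rw [h0, hc2]
          simp only [Y, Sum.elim_inl, Sum.elim_inr]
          rw [hRsum b']
          have h1 := hsQ b'
          rw [hbQ] at h1
          have h2 : ∑ i, (-c i) * W i = -∑ i, c i * W i := by
            rw [← Finset.sum_neg_distrib]
            exact Finset.sum_congr rfl fun i _ => neg_mul _ _
          rw [h2]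
          linarith
        · rw [hc1 Y _ ⟨p, (hRi p).2 ⟨h0, hp⟩⟩]
          rfl
      refine ⟨r, Y, fun j => ?_, ?_⟩
      · have h1 := hfv r Y j
        have h2 : fval q r pg s w (comb Y ((g + 1) * q * r)) (fun i => -Y (Sum.inr i)) j ≤
            r * κ j := by
          rw [hYc]
          have h3 := hsol.2 j
          unfold fval at h3 ⊢
          rcases hj : pg j with _ | p
          · rw [hj] at h3
            exact h3
          · rw [hj] at h3
            simp only [Option.elim_some] at h3 ⊢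
            by_cases hp : p ∈ 𝒬
            · rw [hYb p hp]
              have h4 : (s j : ℤ) * b p ≤ s j * b' p :=
                mul_le_mul_of_nonneg_left (hb' p) (Int.natCast_nonneg _)
              linarith
            · obtain ⟨w1, w2, w3⟩ := hwo j p hj hp
              rw [hc3 _ _ p hp, w1, w2, w3]
              simp only [Y, Sum.elim_inr, neg_mul, Finset.sum_neg_distrib]
              push_cast
              linarith
        linarith
      · have h1 := htv r Y σQ a'
        have h2 : ∑ p ∈ 𝒬ᶜ, (σQ p : ℤ) = 0 :=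
          Finset.sum_eq_zero fun p hp => by
            rw [hσ2 p (Finset.mem_compl.1 hp)]; simp
        rw [h2, mul_zero, add_zero, htt, hYc] at h1
        have h3 : tval q r (comb Y ((g + 1) * q * r)) c σQ a' = tval q r b c σQ a' := by
          unfold tval
          congr 1
          refine Finset.sum_congr rfl fun p _ => ?_
          by_cases hp : p ∈ 𝒬
          · rw [hYb p hp]
            simp only [b']
            by_cases hpp : p = p'
            · rw [hσ1 p hp, hpp, hp'0]; simp
            · rw [if_neg hpp, add_zero]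
          · rw [hσ2 p hp]; simp
        rw [h3] at h1
        linarith
  intro σ a hσ hne0 hin
  by_cases ht : tgt σ a = 0
  · -- any solution
    have hR0 : ∃ p₁, p₁ ∈ R := by
      have h1 : 0 < R.card := by rw [hRc]; exact B.g0
      exact Finset.card_pos.1 h1
    obtain ⟨p₁, hp₁⟩ := hR0
    obtain ⟨Y, hY, -⟩ := case1 (fun p => if p = p₀ then s (gg p₀) else 0) (w (gg p₀))
      ⟨{p₀}, by
        rw [Finset.card_singleton]
        exact B.g0, fun p hp => by
          rw [Finset.mem_singleton] at hp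
          simp only [if_neg hp]⟩
      (by
        intro e c he hc
        have h1 := hc (gg p₀)
        rw [hg p₀] at h1
        simpa using h1)
      (by
        intro h0
        have h1 := congrFun h0 (Sum.inl ⟨p₁, hp₁⟩)
        simp only [tgt, Sum.elim_inl, Pi.zero_apply, if_neg ((hRi p₁).1 hp₁).1, if_true] at h1
        have h2 := B.pos _ _ (hg p₀)
        omega)
    refine ⟨_, _, build Y hY, ?_⟩
    rw [htv, ht]
    simp only [Pi.zero_apply, mul_zero, Finset.sum_const_zero, sub_zero, zero_add]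
    obtain ⟨p', hp', hp'0⟩ := free σ hσ
    have h1 : ∀ p ∈ 𝒬, σ p = σ p₀ := by
      intro p hp
      by_cases h0 : p = p₀
      · rw [h0]
      · have h1 := congrFun ht (Sum.inl ⟨p, (hRi p).2 ⟨h0, hp⟩⟩)
        simp only [tgt, Sum.elim_inl, Pi.zero_apply] at h1
        omega
    have h2 : σ p₀ = 0 := by rw [← h1 p' hp', hp'0]
    have h3 : ∃ p, p ∉ 𝒬 ∧ σ p ≠ 0 := by
      by_contra hcon
      push Not at hcon
      have h4 : σ = 0 := by
        funext p
        by_cases hp : p ∈ 𝒬
        · rw [h1 p hp, h2]; rfl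
        · exact hcon p hp
      rcases hne0 with h5 | h5
      · exact h5 h4
      · apply h5
        funext i
        have h6 := congrFun ht (Sum.inr i)
        simp only [tgt, Sum.elim_inr, Pi.zero_apply, h4, Nat.cast_zero, zero_mul,
          Finset.sum_const_zero, sub_zero, add_zero] at h6
        exact h6
    obtain ⟨p, hp, hp0⟩ := h3
    have h4 : 0 < ∑ p ∈ 𝒬ᶜ, (σ p : ℤ) :=
      Finset.sum_pos' (fun p _ => Int.natCast_nonneg _)
        ⟨p, Finset.mem_compl.2 hp, by exact_mod_cast Nat.pos_of_ne_zero hp0⟩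
    have h5 : (0 : ℤ) < q := by exact_mod_cast B.q0
    have h6 : (0 : ℤ) < K := by exact_mod_cast hK0
    positivity
  · obtain ⟨Y, hY, hYt⟩ := case1 σ a hσ hin ht
    refine ⟨_, _, build Y hY, ?_⟩
    rw [htv]
    have h4 : 0 ≤ ∑ p ∈ 𝒬ᶜ, (σ p : ℤ) := Finset.sum_nonneg fun p _ => Int.natCast_nonneg _
    have h7 : (0 : ℤ) ≤ q * K * ∑ p ∈ 𝒬ᶜ, (σ p : ℤ) := by positivity
    linarith

end Vale.Agent.P283.A647
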