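import Vale.Agent.P283.A647.Props
import Vale.Agent.P283.T647.R9

/-!
Row A7: some page has no rays.
-/

set_option linter.all false

namespace Vale.Agent.P283.A647

open Vale.Agent.P283.T647 (psum fval exists_sum_zero bd abs_le_bd bd_nonneg)

section A7

variable {P ι : Type} [Fintype P] [DecidableEq P] [Fintype ι] {k : ℕ}

/-- Extension by a constant. -/
def extN (N : Finset P) (d : ℤ) (y : {p // p ∈ N} → ℤ) (p : P) : ℤ :=
  if h : p ∈ N then y ⟨p, h⟩ else d

theorem extN_mem (N : Finset P) (d : ℤ) (y : {p // p ∈ N} → ℤ) {p : P} (h : p ∈ N) :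
    extN N d y p = y ⟨p, h⟩ := dif_pos h

theorem extN_not (N : Finset P) (d : ℤ) (y : {p // p ∈ N} → ℤ) {p : P} (h : p ∉ N) :
    extN N d y p = d := dif_neg h

theorem sumN (N : Finset P) (F : P → ℤ) (hF : ∀ p, p ∉ N → F p = 0) :
    ∑ p, F p = ∑ x : {p // p ∈ N}, F x.1 := by
  rw [Finset.sum_coe_sort N F]
  exact (Finset.sum_subset (Finset.subset_univ N) fun p _ hp => hF p hp).symm

/-- The rays. -/
def vN (N : Finset P) (pg : ι → Option P) (s : ι → ℕ) (w : ι → Fin k → ℤ) (j : ι)
    (x : {p // p ∈ N} ⊕ Fin k) : ℤ :=
  x.elim (fun p => (pg j).elim 0 (fun p' => if p' = p.1 then (s j : ℤ) else 0))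
    (fun i => (pg j).elim (w j i) (fun p' => if p' ∈ N then w j i else 0))

/-- The pairing with a ray. -/
theorem pair_vN (N : Finset P) (pg : ι → Option P) (s : ι → ℕ) (w : ι → Fin k → ℤ) (j : ι)
    (Y : {p // p ∈ N} ⊕ Fin k → ℤ) (d : ℤ) :
    ∑ x, Y x * vN N pg s w j x = (pg j).elim (∑ i, Y (Sum.inr i) * w j i)
      (fun p' => if p' ∈ N then extN N d (fun p => Y (Sum.inl p)) p' * s j +
        ∑ i, Y (Sum.inr i) * w j i else 0) := by
  rw [Fintype.sum_sum_type]
  rcases hj : pg j with _ | p'
  · simp only [vN, hj, Sum.elim_inl, Sum.elim_inr, Option.elim_none, mul_zero,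
      Finset.sum_const_zero, zero_add]
  · simp only [vN, hj, Sum.elim_inl, Sum.elim_inr, Option.elim_some]
    by_cases h : p' ∈ N
    · simp only [if_pos h]
      rw [extN_mem N d _ h]
      congr 1
      rw [Finset.sum_eq_single (⟨p', h⟩ : {p // p ∈ N})]
      · simp
      · intro b _ hb
        rw [if_neg, mul_zero]
        intro he
        exact hb (Subtype.ext he.symm)
      · intro hb
        exact absurd (Finset.mem_univ _) hb
    · simp only [if_neg h, mul_zero, Finset.sum_const_zero, add_zero]
      refine Finset.sum_eq_zero fun b _ => ?_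
      rw [if_neg, mul_zero]
      intro he
      exact h (he ▸ b.2)

end A7

theorem a7 (h : T647.PointDoi) : CaseA := by
  intro k g q δ hδ
  obtain ⟨k₀, hk₀, H⟩ := h (g + k) q δ hδ
  refine ⟨k₀, hk₀, ?_⟩
  intro P ι _ _ _ pg s w κ B hreal p₁ hp₁ K hK hK0
  have main : ∀ N : Finset P, p₁ ∉ N → N.card = g → ∀ (σ : P → ℕ) (a : Fin k → ℤ),
      (∀ p, p ∉ N → σ p = 0) → (σ ≠ 0 ∨ a ≠ 0) → InBook pg s w σ a →
      Good g q K pg s w κ σ a := by
    intro N hpN hNg σ a hσN hne hin
    have hsupp : Supp g σ := ⟨N, hNg.le, hσN⟩
    let X := {p // p ∈ N} ⊕ Fin k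
    let v : ι → X → ℤ := vN N pg s w
    let T : ι → ℤ := fun j => (pg j).elim (-(κ j : ℤ))
      (fun p' => if p' ∈ N then (q : ℤ) * s j - κ j else 0)
    let κ' : ι → ℕ := fun j => (pg j).elim (κ j) (fun p' => if p' ∈ N then κ j else 0)
    let ℓ : X → ℤ := fun x => x.elim (fun _ => (q : ℤ)) (fun _ => 0)
    have hℓ : ∀ j, ∑ x, ℓ x * v j x =
        (pg j).elim 0 (fun p' => if p' ∈ N then (q : ℤ) * s j else 0) := by
      intro j
      have h1 := pair_vN N pg s w j ℓ 0
      refine h1.trans ?_
      rcases hj : pg j with _ | p'
      · simp [ℓ]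
      · simp only [Option.elim_some]
        split_ifs with h2
        · rw [extN_mem N 0 _ h2]
          simp [ℓ]
        · rfl
    have hℓT : ∀ j, ∑ x, ℓ x * v j x = T j + κ' j := by
      intro j
      rw [hℓ]
      simp only [T, κ']
      rcases hj : pg j with _ | p'
      · simp
      · simp only [Option.elim_some]
        split_ifs <;> simp
    have hcard : Fintype.card X = g + k := by
      simp only [X, Fintype.card_sum, Fintype.card_coe, Fintype.card_fin, hNg]
    obtain ⟨Y, hYf, ℓ', hℓ', hYt⟩ := H X ι hcard v {ℓ} T κ'
      (fun j => by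
        show κ' j ≤ q
        simp only [κ']
        rcases hj : pg j with _ | p'
        · exact B.κq j
        · simp only [Option.elim_some]
          split_ifs
          · exact B.κq j
          · exact Nat.zero_le _)
      (fun ℓ' hℓ' j => by
        rw [Finset.mem_singleton] at hℓ'
        subst hℓ'
        exact (hℓT j).le)
      (fun c hc b hb hbc => by
        refine ⟨ℓ, Finset.mem_singleton_self _, ?_⟩
        have h1 : ∀ j, (((∑ x, ℓ x * v j x : ℤ) : ℝ) - T j) = (κ' j : ℝ) := by
          intro j
          rw [hℓT]
          push_cast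
          ring
        simp only [h1]
        -- the extension by zero
        let c' : ι → ℝ := fun j => (pg j).elim (c j) (fun p' => if p' ∈ N then c j else 0)
        have hc' : ∀ j, 0 ≤ c' j := by
          intro j
          simp only [c']
          rcases hj : pg j with _ | p'
          · exact hc j
          · simp only [Option.elim_some]
            split_ifs
            · exact hc j
            · exact le_refl _
        have hb0 : ∀ p : {p // p ∈ N}, (b (Sum.inl p) : ℝ) =
            ∑ j, if pg j = some p.1 then c j * s j else 0 := by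
          intro p
          rw [hbc (Sum.inl p)]
          refine Finset.sum_congr rfl fun j _ => ?_
          simp only [v, vN, Sum.elim_inl]
          rcases hj : pg j with _ | p'
          · simp
          · simp only [Option.elim_some, Option.some.injEq]
            split_ifs <;> simp
        have hb0' : ∀ p : {p // p ∈ N}, 0 ≤ b (Sum.inl p) := by
          intro p
          have : (0 : ℝ) ≤ b (Sum.inl p) := by
            rw [hb0]
            refine Finset.sum_nonneg fun j _ => ?_
            split_ifs
            · exact mul_nonneg (hc j) (Nat.cast_nonneg _)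
            · exact le_refl _
          exact_mod_cast this
        let σ' : P → ℕ := fun p => if h : p ∈ N then (b (Sum.inl ⟨p, h⟩)).toNat else 0
        have hσ' : ∀ p, p ∉ N → σ' p = 0 := fun p hp => dif_neg hp
        have hσ'' : ∀ p (hp : p ∈ N), (σ' p : ℤ) = b (Sum.inl ⟨p, hp⟩) := by
          intro p hp
          have e : σ' p = (b (Sum.inl ⟨p, hp⟩)).toNat := dif_pos hp
          rw [e]
          exact Int.toNat_of_nonneg (hb0' ⟨p, hp⟩)
        have hps : ∀ p, psum pg s c' p = 0 + σ' p := by
          intro p
          rw [zero_add]
          unfold psum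
          by_cases hp : p ∈ N
          · have e : (σ' p : ℝ) = b (Sum.inl ⟨p, hp⟩) := by exact_mod_cast hσ'' p hp
            rw [e, hb0]
            refine Finset.sum_congr rfl fun j _ => ?_
            by_cases hj : pg j = some p
            · simp only [c', hj, if_true, Option.elim_some, if_pos hp]
            · simp only [hj, if_false]
          · rw [hσ' p hp, Nat.cast_zero]
            refine Finset.sum_eq_zero fun j _ => ?_
            by_cases hj : pg j = some p
            · simp only [c', hj, if_true, Option.elim_some, if_neg hp, zero_mul]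
            · simp only [hj, if_false]
        have hlc := B.lc c' hc' 0 σ' (fun i => b (Sum.inr i)) (le_refl _)
          ⟨N, hNg.le, hσ'⟩ hps
          (fun i => by
            rw [hbc (Sum.inr i)]
            refine Finset.sum_congr rfl fun j _ => ?_
            simp only [v, vN, Sum.elim_inr, c']
            rcases hj : pg j with _ | p'
            · rfl
            · simp only [Option.elim_some]
              split_ifs <;> simp)
          (by
            by_contra hcon
            rw [not_or, not_not, not_not] at hcon
            apply hb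
            funext x
            rcases x with p | i
            · have h2 : σ' p.1 = 0 := congrFun hcon.1 p.1
              have h3 := hσ'' p.1 p.2
              rw [h2] at h3
              exact h3.symm
            · exact congrFun hcon.2 i)
        refine hlc.trans (le_of_eq ?_)
        rw [mul_zero, sub_zero]
        refine Finset.sum_congr rfl fun j _ => ?_
        simp only [c', κ']
        rcases hj : pg j with _ | p'
        · rfl
        · simp only [Option.elim_some]
          split_ifs <;> simp)
      K hK hK0 (fun x => x.elim (fun p => (σ p.1 : ℤ)) a)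
      (by
        intro h0
        rcases hne with h1 | h1
        · apply h1
          funext p
          by_cases hp : p ∈ N
          · have := congrFun h0 (Sum.inl ⟨p, hp⟩)
            simpa using this
          · exact hσN p hp
        · apply h1
          funext i
          exact congrFun h0 (Sum.inr i))
      (fun u hu => by
        obtain ⟨e, he, he0⟩ := exists_sum_zero p₁
          (extN N (bd w (fun i => u (Sum.inr i))) (fun p => u (Sum.inl p)))
        have hu' : ∀ j, 0 ≤ ∑ x, u x * vN N pg s w j x := by
          intro j
          refine (hu j).trans (le_of_eq (Finset.sum_congr rfl fun x _ => mul_comm _ _))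
        have h2 := hin e (fun i => u (Sum.inr i)) he0.le (fun j => by
          have huj := hu' j
          rw [pair_vN N pg s w j u (bd w (fun i => u (Sum.inr i)))] at huj
          rcases hj : pg j with _ | p
          · simp only [hj, Option.elim_none, zero_add] at huj ⊢
            exact huj
          · simp only [hj, Option.elim_some] at huj ⊢
            have hpne : p ≠ p₁ := fun h => hp₁ j (by rw [hj, h])
            rw [he p hpne]
            by_cases hpp : p ∈ N
            · rw [if_pos hpp] at huj
              rw [mul_comm]
              exact huj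
            · rw [extN_not _ _ _ hpp]
              have h3 := abs_le_bd w (fun i => u (Sum.inr i)) j
              have h4 := neg_abs_le (∑ i, u (Sum.inr i) * w j i)
              have h5 := bd_nonneg w (fun i => u (Sum.inr i))
              have h6 : (1 : ℤ) ≤ s j := by exact_mod_cast B.pos j p hj
              nlinarith)
        have h3 : ∑ p, (σ p : ℤ) * e p = ∑ x : {p // p ∈ N}, (σ x.1 : ℤ) * u (Sum.inl x) := by
          rw [sumN N _ fun p hp => by rw [hσN p hp, Nat.cast_zero, zero_mul]]
          refine Finset.sum_congr rfl fun x _ => ?_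
          have hx : x.1 ≠ p₁ := fun h => hpN (h ▸ x.2)
          rw [he x.1 hx, extN_mem _ _ _ x.2]
        rw [h3] at h2
        rw [Fintype.sum_sum_type]
        refine h2.trans (le_of_eq ?_)
        congr 1
        exact Finset.sum_congr rfl fun i _ => mul_comm _ _)
      (by
        obtain ⟨r, hr, b, c, hsol, ht⟩ := hreal σ a hsupp hne hin
        refine ⟨r, fun x => x.elim (fun p => b p.1) (fun i => -c i), fun j => ?_, ℓ,
          Finset.mem_singleton_self _, ?_⟩
        · have h0 := pair_vN N pg s w j (fun x => x.elim (fun p => b p.1) (fun i => -c i)) 0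
          refine le_trans ?_ h0.ge
          have h1 := hsol.2 j
          unfold fval at h1
          simp only [T]
          rcases hj : pg j with _ | p
          · simp only [hj, Option.elim_none, zero_add, Sum.elim_inr, neg_mul,
              Finset.sum_neg_distrib] at h1 ⊢
            linarith
          · simp only [hj, Option.elim_some, Sum.elim_inr, Sum.elim_inl, neg_mul,
              Finset.sum_neg_distrib] at h1 ⊢
            by_cases hpp : p ∈ N
            · rw [if_pos hpp, if_pos hpp, extN_mem _ _ _ hpp]
              linarith
            · rw [if_neg hpp, if_neg hpp, mul_zero]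
        · unfold tval at ht
          rw [sumN N _ fun p hp => by rw [hσN p hp, Nat.cast_zero, zero_mul]] at ht
          rw [Fintype.sum_sum_type, Fintype.sum_sum_type]
          simp only [ℓ, Sum.elim_inl, Sum.elim_inr, neg_mul, Finset.sum_neg_distrib,
            zero_mul, Finset.sum_const_zero, add_zero]
          have h4 : ∑ x : {p // p ∈ N}, (σ x.1 : ℤ) * (q * r - b x.1) =
              r * ∑ x : {p // p ∈ N}, (q : ℤ) * (σ x.1 : ℤ) -
                ∑ x : {p // p ∈ N}, b x.1 * (σ x.1 : ℤ) := by
            rw [Finset.mul_sum, ← Finset.sum_sub_distrib]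
            refine Finset.sum_congr rfl fun x _ => ?_
            ring
          rw [h4] at ht
          linarith)
    -- the solution
    rw [Finset.mem_singleton] at hℓ'
    subst hℓ'
    obtain ⟨b, hb, hb0⟩ := exists_sum_zero p₁
      (extN N (q * K + bd w (fun i => -Y (Sum.inr i))) (fun p => Y (Sum.inl p)))
    refine ⟨b, fun i => -Y (Sum.inr i), ⟨?_, fun j => ?_⟩, ?_⟩
    · rw [hb0]; positivity
    · have h1 := hYf j
      have h0 := pair_vN N pg s w j Y (q * K + bd w (fun i => -Y (Sum.inr i)))
      have h1' : (K : ℤ) * T j ≤ (pg j).elim (∑ i, Y (Sum.inr i) * w j i)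
        (fun p' => if p' ∈ N then extN N (q * K + bd w (fun i => -Y (Sum.inr i)))
          (fun p => Y (Sum.inl p)) p' * s j + ∑ i, Y (Sum.inr i) * w j i else 0) :=
        h1.trans h0.le
      simp only [T] at h1'
      unfold fval
      rcases hj : pg j with _ | p
      · simp only [hj, Option.elim_none, zero_add, neg_mul, Finset.sum_neg_distrib] at h1' ⊢
        linarith
      · simp only [hj, Option.elim_some] at h1' ⊢
        have hpne : p ≠ p₁ := fun h => hp₁ j (by rw [hj, h])
        rw [hb p hpne]
        by_cases hpp : p ∈ N
        · rw [if_pos hpp, if_pos hpp] at h1'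
          simp only [neg_mul, Finset.sum_neg_distrib]
          linarith
        · rw [extN_not _ _ _ hpp]
          have h3 := abs_le_bd w (fun i => -Y (Sum.inr i)) j
          have h4 := le_abs_self (∑ i, (-Y (Sum.inr i)) * w j i)
          have h5 := bd_nonneg w (fun i => -Y (Sum.inr i))
          have h6 : (1 : ℤ) ≤ s j := by exact_mod_cast B.pos j p hj
          have h7 : (0 : ℤ) ≤ K * κ j := by positivity
          nlinarith
    · rw [Fintype.sum_sum_type, Fintype.sum_sum_type] at hYt
      unfold tval
      rw [sumN N _ fun p hp => by rw [hσN p hp, Nat.cast_zero, zero_mul]]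
      have h4 : ∑ x : {p // p ∈ N}, (σ x.1 : ℤ) * (q * K - b x.1) =
          K * ∑ x : {p // p ∈ N}, (q : ℤ) * (σ x.1 : ℤ) -
            ∑ x : {p // p ∈ N}, Y (Sum.inl x) * (σ x.1 : ℤ) := by
        rw [Finset.mul_sum, ← Finset.sum_sub_distrib]
        refine Finset.sum_congr rfl fun x _ => ?_
        have hx : x.1 ≠ p₁ := fun h => hpN (h ▸ x.2)
        rw [hb x.1 hx, extN_mem _ _ _ x.2]
        ring
      rw [h4]
      simp only [ℓ, Sum.elim_inl, Sum.elim_inr, neg_mul, Finset.sum_neg_distrib,
        zero_mul, Finset.sum_const_zero, add_zero] at hYt ⊢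
      linarith
  intro σ a hsupp hne hin
  -- the page without rays
  have hσ : σ p₁ = 0 := by
    have h1 := hin (fun p => if p = p₁ then -1 else 0) 0 (by simp) (fun j => by
      rcases hj : pg j with _ | p
      · simp
      · have hpne : p ≠ p₁ := fun h => hp₁ j (by rw [hj, h])
        simp [hpne])
    simp at h1
    omega
  obtain ⟨I, hI, hI0⟩ := hsupp
  have hsub : I.erase p₁ ⊆ Finset.univ.erase p₁ := Finset.erase_subset_erase _ (Finset.subset_univ _)
  have hc1 : (I.erase p₁).card ≤ g := (Finset.card_erase_le).trans hI
  have hc2 : g ≤ (Finset.univ.erase p₁ : Finset P).card := by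
    rw [Finset.card_erase_of_mem (Finset.mem_univ _), Finset.card_univ]
    have := B.many
    omega
  obtain ⟨N, h1, h2, h3⟩ := Finset.exists_subsuperset_card_eq hsub hc1 hc2
  refine main N (fun h => Finset.notMem_erase p₁ _ (h2 h)) h3 σ a (fun p hp => ?_) hne hin
  by_cases hpp : p = p₁
  · rw [hpp]; exact hσ
  · exact hI0 p fun h => hp (h1 (Finset.mem_erase.2 ⟨hpp, h⟩))

end Vale.Agent.P283.A647
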