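import Vale.Agent.P283.A647.Props

/-!
All books: the case distinction.
-/

set_option linter.all false

namespace Vale.Agent.P283.A647

open Vale.Agent.P283.T647 (psum fval Triv Ch)

theorem a8 (hc : CountRow) (hM : CaseM) (hE : CaseE) (hA : CaseA) : BookAll := by
  classical
  intro k g q δ hq hδ
  choose kM hkM hkM' using fun n => hM n k g q δ hδ
  obtain ⟨kE, hkE, hkE'⟩ := hE k g q δ hδ
  obtain ⟨kA, hkA, hkA'⟩ := hA k g q δ hδ
  refine ⟨(∏ n ∈ Finset.range (2 * q * (g + 1) + (g + 2) + g + 1), kM n) * kE * kA,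
    Nat.mul_pos (Nat.mul_pos (Finset.prod_pos fun n _ => hkM n) hkE) hkA, ?_⟩
  intro P ι _ _ _ pg s w κ hB hR K hK hK0
  have hKM : ∀ n, n < 2 * q * (g + 1) + (g + 2) + g + 1 → kM n ∣ K := fun n hn =>
    ((Finset.dvd_prod_of_mem kM (Finset.mem_range.mpr hn)).trans
      ((Dvd.intro _ rfl).trans (Dvd.intro _ rfl))).trans hK
  have hKE : kE ∣ K := ((Dvd.intro_left _ rfl).trans (Dvd.intro _ rfl)).trans hK
  have hKA : kA ∣ K := (Dvd.intro_left _ rfl).trans hK
  by_cases hall : ∀ p, ∃ j, pg j = some p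
  swap
  · push Not at hall
    obtain ⟨p₁, hp₁⟩ := hall
    exact hkA' P ι pg s w κ hB hR p₁ hp₁ K hKA hK0
  set N0 : Finset P := Finset.univ.filter fun p => ¬ Triv q pg s κ p with hN0
  set Q0 : Finset P := Finset.univ.filter fun p => ¬ Mt q pg s w κ p with hQ0
  have hin : ∀ p ∈ N0, ¬ Triv q pg s κ p := fun p hp => (Finset.mem_filter.mp hp).2
  have hout : ∀ p, p ∉ N0 → Triv q pg s κ p := by
    intro p hp
    by_contra h
    exact hp (Finset.mem_filter.mpr ⟨Finset.mem_univ _, h⟩)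
  have hcard : N0.card ≤ 2 * q * (g + 1) := hc P ι k g q δ pg s w κ hB hall N0 hin
  intro σ a hσ hne hib
  rcases Nat.lt_or_ge (g + 1) Q0.card with h2 | h2
  · obtain ⟨𝒬, hQ, hQc⟩ := Finset.exists_subset_card_eq (show g + 2 ≤ Q0.card by omega)
    obtain ⟨I, hI, hI'⟩ := hσ
    have hcard' : ((N0 ∪ 𝒬) ∪ I).card ≤ 2 * q * (g + 1) + (g + 2) + g := by
      have h3 := Finset.card_union_le (N0 ∪ 𝒬) I
      have h4 := Finset.card_union_le N0 𝒬
      omega
    refine hkM' ((N0 ∪ 𝒬) ∪ I).card P ι pg s w κ hB hR hall ((N0 ∪ 𝒬) ∪ I) ⟨?_, 𝒬, ?_, hQc, ?_⟩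
      rfl K (hKM _ (by omega)) hK0 σ a ?_ ⟨I, hI, hI'⟩ hne hib
    · intro p hp
      exact hout p fun h => hp (Finset.mem_union_left _ (Finset.mem_union_left _ h))
    · intro p hp
      exact Finset.mem_union_left _ (Finset.mem_union_right _ hp)
    · intro p hp
      exact (Finset.mem_filter.mp (hQ hp)).2
    · intro p hp
      exact hI' p fun h => hp (Finset.mem_union_right _ h)
  · obtain ⟨𝒬, hQ, hQc⟩ := Finset.exists_superset_card_eq (show Q0.card ≤ g + 1 by omega) hB.many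
    refine hkE' P ι pg s w κ hB hR hall 𝒬 hQc ?_ K hKE hK0 σ a hσ hne hib
    intro p hp
    by_contra h
    exact hp (hQ (Finset.mem_filter.mpr ⟨Finset.mem_univ _, h⟩))

end Vale.Agent.P283.A647
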