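import Vale.Agent.P283.A647.Props

/-!
The book of a pair of general arrangement type.
-/

set_option linter.all false

namespace Vale.Agent.P283.A647

open Vale.Agent.P283.T647 (psum fval)

namespace A9

variable {R k N M : ℕ}

theorem mono_le {ι : Type} [Fintype ι] (E : Fin (M + 1) → ι → ℤ) (α : ι → ℤ)
    (i : Fin (M + 1)) : ordMono E α ≤ ∑ x, E i x * α x :=
  ciInf_le (Set.finite_range (fun i => ∑ x, E i x * α x)).bddBelow i

theorem mono_att {ι : Type} [Fintype ι] (E : Fin (M + 1) → ι → ℤ) (α : ι → ℤ) :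
    ∃ i, ordMono E α = ∑ x, E i x * α x := by
  obtain ⟨i, hi⟩ := exists_eq_ciInf_of_finite (f := fun i => ∑ x, E i x * α x)
  exact ⟨i, hi.symm⟩

theorem cone_dualT {ι : Type} [Fintype ι] (v : Fin N → ι → ℤ) (a : ι → ℤ)
    (h : ∀ u : ι → ℤ, (∀ j, 0 ≤ ∑ x, v j x * u x) → 0 ≤ ∑ x, a x * u x) : InCone v a := by
  classical
  let e : ι ≃ Fin (Fintype.card ι) := Fintype.equivFin ι
  have hs : ∀ (b : ι → ℤ) (u : Fin (Fintype.card ι) → ℤ),
      ∑ i, b (e.symm i) * u i = ∑ x, b x * u (e x) := by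
    intro b u
    rw [← Equiv.sum_comp e (fun i => b (e.symm i) * u i)]
    exact Finset.sum_congr rfl fun x _ => by rw [Equiv.symm_apply_apply]
  obtain ⟨c, hc, hac⟩ := Z647.cone_dual (fun j i => v j (e.symm i)) (fun i => a (e.symm i)) (by
    intro u hu
    rw [hs]
    refine h (fun x => u (e x)) fun j => ?_
    have := hu j
    rwa [hs] at this)
  refine ⟨c, hc, fun x => ?_⟩
  have := hac (e x)
  simpa using this

/-- The vector of the point `(σ, w)`. -/
def vS (σ : Option (Fin R) → ℕ) (w : Fin k → ℤ) : Fin R ⊕ Fin k → ℤ :=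
  Sum.elim (fun i => (σ (some i) : ℤ) - σ none) w

/-- The point of a ray. -/
def sg (o : Option (Option (Fin R))) (s : ℕ) (p : Option (Fin R)) : ℕ :=
  if o = some p then s else 0

theorem wt_vS (σ : Option (Fin R) → ℕ) (w : Fin k → ℤ) (p : Option (Fin R)) :
    wt (vS σ w) p = (σ p : ℤ) - σ none := by
  rcases p with _ | i
  · simp [wt]
  · simp [wt, vS]

theorem low_vS (σ : Option (Fin R) → ℕ) (w : Fin k → ℤ) (h : ∃ p, σ p = 0) :
    low (vS σ w) = -(σ none : ℤ) := by
  obtain ⟨p, hp⟩ := h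
  unfold low
  apply le_antisymm
  · refine (ciInf_le (Set.finite_range _).bddBelow p).trans ?_
    rw [wt_vS, hp]
    simp
  · refine le_ciInf fun p' => ?_
    rw [wt_vS]
    omega

theorem exists_out {g : ℕ} (hg : g ≤ R) (I : Finset (Option (Fin R))) (hI : I.card ≤ g) :
    ∃ p, p ∉ I := by
  by_contra h
  push Not at h
  have h1 : I = Finset.univ := Finset.eq_univ_iff_forall.2 h
  rw [h1, Finset.card_univ, Fintype.card_option, Fintype.card_fin] at hI
  omega

theorem exists_zero {g : ℕ} (hg : g ≤ R) {σ : Option (Fin R) → ℕ} (h : Supp g σ) :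
    ∃ p, σ p = 0 := by
  obtain ⟨I, hI, h0⟩ := h
  obtain ⟨p, hp⟩ := exists_out hg I hI
  exact ⟨p, h0 p hp⟩

theorem onTrop_vS {g : ℕ} (hg : g ≤ R) {σ : Option (Fin R) → ℕ} (w : Fin k → ℤ)
    (h : Supp g σ) : OnTrop g (vS σ w) := by
  have h1 := exists_zero hg h
  obtain ⟨I, hI, h0⟩ := h
  refine ⟨I, hI, fun p hp => ?_⟩
  rw [wt_vS, low_vS σ w h1, h0 p hp]
  simp

theorem disc_vS (g : ℕ) (σ : Option (Fin R) → ℕ) (w : Fin k → ℤ) (h : ∃ p, σ p = 0) :
    logDisc g (vS σ w) = ∑ i, (σ (some i) : ℤ) - g * σ none + ∑ l, w l := by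
  unfold logDisc
  rw [Fintype.sum_sum_type, low_vS σ w h]
  simp only [vS, Sum.elim_inl, Sum.elim_inr, Finset.sum_sub_distrib, Finset.sum_const,
    Finset.card_univ, Fintype.card_fin, nsmul_eq_mul]
  ring

theorem vS_ne {σ : Option (Fin R) → ℕ} {w : Fin k → ℤ} (h0 : ∃ p, σ p = 0)
    (h : σ ≠ 0 ∨ w ≠ 0) : vS σ w ≠ 0 := by
  intro hv
  have hw : w = 0 := by
    funext l
    have := congrFun hv (Sum.inr l)
    simpa [vS] using this
  have hσ : ∀ p, σ p = σ none := by
    intro p
    rcases p with _ | i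
    · rfl
    · have := congrFun hv (Sum.inl i)
      simp only [vS, Sum.elim_inl, Pi.zero_apply] at this
      omega
  obtain ⟨p, hp⟩ := h0
  rcases h with h | h
  · apply h
    funext p'
    rw [hσ p', ← hσ p, hp]
    rfl
  · exact h hw

/-- The values on the pages. -/
def ee (u : Fin R ⊕ Fin k → ℤ) (p : Option (Fin R)) : ℤ :=
  p.elim (-∑ i, u (Sum.inl i)) (fun i => u (Sum.inl i))

theorem sum_ee (u : Fin R ⊕ Fin k → ℤ) : ∑ p, ee u p = 0 := by
  rw [Fintype.sum_option]
  simp [ee]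

theorem pair_vS (u : Fin R ⊕ Fin k → ℤ) (σ : Option (Fin R) → ℕ) (w : Fin k → ℤ) :
    ∑ x, u x * vS σ w x = ∑ p, (σ p : ℤ) * ee u p + ∑ l, u (Sum.inr l) * w l := by
  rw [Fintype.sum_sum_type, Fintype.sum_option]
  simp only [vS, Sum.elim_inl, Sum.elim_inr, ee, Option.elim]
  have h : ∑ i, u (Sum.inl i) * ((σ (some i) : ℤ) - σ none) =
      (σ none : ℤ) * -∑ i, u (Sum.inl i) + ∑ i, (σ (some i) : ℤ) * u (Sum.inl i) := by
    rw [mul_neg, Finset.mul_sum, ← Finset.sum_neg_distrib, ← Finset.sum_add_distrib]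
    exact Finset.sum_congr rfl fun i _ => by ring
  rw [h]

theorem sum_sg (o : Option (Option (Fin R))) (s : ℕ) (e : Option (Fin R) → ℤ) :
    ∑ p, (sg o s p : ℤ) * e p = o.elim 0 (fun p => (s : ℤ) * e p) := by
  rcases o with _ | p
  · simp [sg]
  · simp [sg]

theorem sg_zero (hR : 0 < R) (o : Option (Option (Fin R))) (s : ℕ) : ∃ p, sg o s p = 0 := by
  have : Nonempty (Fin R) := ⟨⟨0, hR⟩⟩
  rcases o with _ | p
  · exact ⟨none, by simp [sg]⟩
  · obtain ⟨p', hp'⟩ := exists_ne p
    exact ⟨p', by simp [sg, hp'.symm]⟩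

/-- The page of a ray. -/
theorem exists_page (v : Fin R ⊕ Fin k → ℤ) (h : OnTrop 1 v) :
    ∃ (o : Option (Option (Fin R))) (s : ℕ), v = vS (sg o s) (fun l => v (Sum.inr l)) ∧
      (o ≠ none → 0 < s) := by
  obtain ⟨I, hI, h0⟩ := h
  obtain ⟨p₀, hp₀⟩ := Finset.card_le_one_iff_subset_singleton.1 hI
  have h1 : ∀ p, p ≠ p₀ → wt v p = low v := fun p hp => h0 p fun hpI =>
    hp (Finset.mem_singleton.1 (hp₀ hpI))
  have hle : ∀ p, low v ≤ wt v p := fun p => ciInf_le (Set.finite_range _).bddBelow p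
  have hwn : wt v none = 0 := rfl
  have hws : ∀ i, wt v (some i) = v (Sum.inl i) := fun i => rfl
  have key : ∀ i, v (Sum.inl i) = (sg (some p₀) (wt v p₀ - low v).toNat (some i) : ℤ) -
      sg (some p₀) (wt v p₀ - low v).toNat none := by
    intro i
    have hl := hle p₀
    by_cases hn : p₀ = none
    · subst hn
      have h2 := h1 (some i) (by simp)
      rw [hws] at h2
      simp only [sg, if_true, Option.some.injEq, reduceCtorEq, if_false]
      rw [hwn] at hl ⊢
      omega
    · have h2 := h1 none (Ne.symm hn)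
      rw [hwn] at h2
      by_cases hi : p₀ = some i
      · subst hi
        simp only [sg, if_true, Option.some.injEq, reduceCtorEq, if_false]
        rw [hws] at hl ⊢
        omega
      · have h3 := h1 (some i) (Ne.symm hi)
        rw [hws] at h3
        simp only [sg, Option.some.injEq, hi, hn, if_false]
        omega
  by_cases hs : 0 < (wt v p₀ - low v).toNat
  · refine ⟨some p₀, _, ?_, fun _ => hs⟩
    funext x
    rcases x with i | l
    · exact key i
    · rfl
  · have hs0 : (wt v p₀ - low v).toNat = 0 := by omega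
    refine ⟨none, 0, ?_, fun h => absurd rfl h⟩
    funext x
    rcases x with i | l
    · rw [key i, hs0]
      simp [sg, vS]
    · rfl

theorem psum_eq (pg : Fin N → Option (Option (Fin R))) (s : Fin N → ℕ) (c : Fin N → ℝ)
    (p : Option (Fin R)) : psum pg s c p = ∑ j, c j * (sg (pg j) (s j) p : ℝ) := by
  unfold psum
  refine Finset.sum_congr rfl fun j _ => ?_
  simp only [sg]
  split_ifs <;> simp

theorem sum_disc (g : ℕ) (hR : 0 < R) (pg : Fin N → Option (Option (Fin R))) (s : Fin N → ℕ)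
    (w : Fin N → Fin k → ℤ) (c : Fin N → ℝ) :
    ∑ j, c j * (logDisc g (vS (sg (pg j) (s j)) (w j)) : ℝ) =
      ∑ i : Fin R, psum pg s c (some i) - g * psum pg s c none +
        ∑ l, ∑ j, c j * (w j l : ℝ) := by
  have e1 : ∑ i : Fin R, psum pg s c (some i) =
      ∑ j, ∑ i : Fin R, c j * (sg (pg j) (s j) (some i) : ℝ) := by
    simp only [psum_eq]
    exact Finset.sum_comm
  have e2 : ∑ l, ∑ j, c j * (w j l : ℝ) = ∑ j, ∑ l, c j * (w j l : ℝ) := Finset.sum_comm
  rw [e1, e2, psum_eq, Finset.mul_sum, ← Finset.sum_sub_distrib, ← Finset.sum_add_distrib]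
  refine Finset.sum_congr rfl fun j _ => ?_
  rw [disc_vS g _ _ (sg_zero hR _ _)]
  push_cast
  rw [← Finset.mul_sum, ← Finset.mul_sum]
  ring

theorem conc {ι : Type} [Fintype ι] (v : Fin N → ι → ℤ) (E : Fin (M + 1) → ι → ℤ)
    (c : Fin N → ℝ) (hc : ∀ j, 0 ≤ c j) (α : ι → ℤ)
    (hα : ∀ x, (α x : ℝ) = ∑ j, c j * (v j x : ℝ)) :
    ∑ j, c j * (ordMono E (v j) : ℝ) ≤ (ordMono E α : ℝ) := by
  obtain ⟨i, hi⟩ := mono_att E α
  rw [hi]
  push_cast
  simp only [hα, Finset.mul_sum]
  rw [Finset.sum_comm]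
  refine Finset.sum_le_sum fun j _ => ?_
  have h1 : (ordMono E (v j) : ℝ) ≤ ∑ x, (E i x : ℝ) * (v j x : ℝ) := by
    exact_mod_cast mono_le E (v j) i
  calc c j * (ordMono E (v j) : ℝ) ≤ c j * ∑ x, (E i x : ℝ) * (v j x : ℝ) :=
        mul_le_mul_of_nonneg_left h1 (hc j)
    _ = ∑ x, (E i x : ℝ) * (c j * (v j x : ℝ)) := by
        rw [Finset.mul_sum]
        exact Finset.sum_congr rfl fun x _ => by ring

theorem cone_real {ι : Type} [Fintype ι] (v : Fin N → ι → ℤ)
    (c : Fin N → ℝ) (hc : ∀ j, 0 ≤ c j) (α : ι → ℤ)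
    (hα : ∀ x, (α x : ℝ) = ∑ j, c j * (v j x : ℝ)) : InCone v α := by
  apply cone_dualT
  intro u hu
  have h1 : ((∑ x, α x * u x : ℤ) : ℝ) = ∑ j, c j * ((∑ x, v j x * u x : ℤ) : ℝ) := by
    push_cast
    simp only [hα, Finset.sum_mul, Finset.mul_sum]
    rw [Finset.sum_comm]
    exact Finset.sum_congr rfl fun j _ => Finset.sum_congr rfl fun k _ => by ring
  have h2 : (0 : ℝ) ≤ ((∑ x, α x * u x : ℤ) : ℝ) := by
    rw [h1]
    exact Finset.sum_nonneg fun j _ => mul_nonneg (hc j) (by exact_mod_cast hu j)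
  exact_mod_cast h2

/-- The vector of the point of a relation. -/
theorem coord_vec (pg : Fin N → Option (Option (Fin R))) (s : Fin N → ℕ)
    (w : Fin N → Fin k → ℤ) (c : Fin N → ℝ) (μ : ℝ) (σ : Option (Fin R) → ℕ)
    (b : Fin k → ℤ) (hp : ∀ p, psum pg s c p = μ + σ p)
    (hb : ∀ i, (b i : ℝ) = ∑ j, c j * (w j i : ℝ)) (x : Fin R ⊕ Fin k) :
    (vS σ b x : ℝ) = ∑ j, c j * (vS (sg (pg j) (s j)) (w j) x : ℝ) := by
  rcases x with i | l
  · simp only [vS, Sum.elim_inl]
    push_cast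
    simp only [mul_sub, Finset.sum_sub_distrib]
    rw [← psum_eq, ← psum_eq, hp, hp]
    ring
  · simp [vS, hb]

theorem core (g : ℕ) (hR : 0 < R) (q : ℕ) (hq : 0 < q) (r : ℕ) (hr : 0 < r)
    (pg : Fin N → Option (Option (Fin R))) (s : Fin N → ℕ)
    (w : Fin N → Fin k → ℤ) (E : Fin (M + 1) → Fin R ⊕ Fin k → ℤ) (κ : Fin N → ℕ)
    (hκ : ∀ j, (κ j : ℝ) = q * ((logDisc g (vS (sg (pg j) (s j)) (w j)) : ℝ) -
      (ordMono E (vS (sg (pg j) (s j)) (w j)) : ℝ) / r))
    (c : Fin N → ℝ) (hc : ∀ j, 0 ≤ c j) (μ : ℝ) (σ : Option (Fin R) → ℕ)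
    (hσ : ∃ p, σ p = 0)
    (b : Fin k → ℤ) (hp : ∀ p, psum pg s c p = μ + σ p)
    (hb : ∀ i, (b i : ℝ) = ∑ j, c j * (w j i : ℝ)) :
    (q : ℝ) * ((logDisc g (vS σ b) : ℝ) - (ordMono E (vS σ b) : ℝ) / r) ≤
      ∑ j, c j * κ j - q * ((R : ℝ) - g) * μ := by
  have hrR : (0 : ℝ) < r := by exact_mod_cast hr
  have hqR : (0 : ℝ) < q := by exact_mod_cast hq
  have h1 : ∑ j, c j * (κ j : ℝ) =
      q * (∑ j, c j * (logDisc g (vS (sg (pg j) (s j)) (w j)) : ℝ) -
      (∑ j, c j * (ordMono E (vS (sg (pg j) (s j)) (w j)) : ℝ)) / r) := by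
    rw [mul_sub, Finset.mul_sum, Finset.sum_div, Finset.mul_sum, ← Finset.sum_sub_distrib]
    exact Finset.sum_congr rfl fun j _ => by rw [hκ]; ring
  have h2 := conc (fun j => vS (sg (pg j) (s j)) (w j)) E c hc (vS σ b)
    (coord_vec pg s w c μ σ b hp hb)
  have h3 : ∑ j, c j * (logDisc g (vS (sg (pg j) (s j)) (w j)) : ℝ) =
      ((R : ℝ) - g) * μ + (logDisc g (vS σ b) : ℝ) := by
    rw [sum_disc g hR, disc_vS g σ b hσ]
    simp only [hp, ← hb]
    push_cast
    rw [Finset.sum_add_distrib]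
    simp only [Finset.sum_const, Finset.card_univ, Fintype.card_fin, nsmul_eq_mul]
    ring
  rw [h1, h3]
  have h4 : (∑ j, c j * (ordMono E (vS (sg (pg j) (s j)) (w j)) : ℝ)) / r ≤
      (ordMono E (vS σ b) : ℝ) / r := div_le_div_of_nonneg_right h2 hrR.le
  have h5 := mul_le_mul_of_nonneg_left h4 hqR.le
  nlinarith

theorem common_den {ι : Type} [Fintype ι] (F : ι → ℚ) (hF : ∀ o, 0 ≤ F o) :
    ∃ (D : ℕ) (n : ι → ℕ), 0 < D ∧ ∀ o, (n o : ℚ) = D * F o := by
  classical
  have h1 : ∀ o, ∃ n : ℕ, (n : ℚ) = ((∏ o, (F o).den : ℕ) : ℚ) * F o := by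
    intro o
    obtain ⟨e, he⟩ := Finset.dvd_prod_of_mem (fun o => (F o).den) (Finset.mem_univ o)
    have h2 : (0 : ℤ) ≤ (F o).num := Rat.num_nonneg.2 (hF o)
    refine ⟨(F o).num.toNat * e, ?_⟩
    rw [he]
    push_cast
    have h3 : (((F o).num.toNat : ℕ) : ℚ) = (F o).num := by
      exact_mod_cast Int.toNat_of_nonneg h2
    rw [h3]
    have h4 : ((F o).den : ℚ) * F o = (F o).num := by
      rw [mul_comm]; exact Rat.mul_den_eq_num (F o)
    rw [← h4]; ring
  choose n hn using h1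
  exact ⟨_, n, Finset.prod_pos fun o _ => (F o).den_pos, hn⟩

end A9

theorem a9 (h : T647.RatApprox) : ToBook := by
  classical
  intro g q ε hg hq hε R k N M r v E κ hr hgR hrays hκ hκq hlc
  have hR : 0 < R := hg.trans_le hgR
  choose pg s hv hpos using fun j => A9.exists_page (v j) (hrays j)
  have hrR : (0 : ℝ) < r := by exact_mod_cast hr
  have hqR : (0 : ℝ) < q := by exact_mod_cast hq
  obtain ⟨w, hw⟩ : ∃ w : Fin N → Fin k → ℤ, w = fun j l => v j (Sum.inr l) := ⟨_, rfl⟩
  have hvv : v = fun j => A9.vS (A9.sg (pg j) (s j)) (w j) := by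
    funext j; rw [hw]; exact hv j
  have hwv : (fun j l => v j (Sum.inr l)) = w := hw.symm
  refine ⟨pg, s, ?_, ?_, ?_⟩
  · intro j i
    rw [hvv]
    simp only [A9.vS, Sum.elim_inl]
    rcases hp : pg j with _ | p | i'
    · simp [A9.sg]
    · simp [A9.sg]
    · by_cases h : i = i'
      · subst h; simp [A9.sg]
      · have h' : ¬ i' = i := fun h1 => h h1.symm
        simp [A9.sg, h, h']
  · rw [hwv]
    clear hv hwv hw
    subst hvv
    have hκR : ∀ j, (κ j : ℝ) = q * ((logDisc g (A9.vS (A9.sg (pg j) (s j)) (w j)) : ℝ) -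
        (ordMono E (A9.vS (A9.sg (pg j) (s j)) (w j)) : ℝ) / r) := by
      intro j
      have h1 := congrArg (Rat.cast : ℚ → ℝ) (hκ j)
      unfold toricDisc at h1
      push_cast at h1
      exact h1
    have hlc' : ∀ c : Fin N → ℝ, (∀ j, 0 ≤ c j) → ∀ (μ : ℝ) (σ : Option (Fin R) → ℕ)
        (b : Fin k → ℤ), Supp g σ → (∀ p, psum pg s c p = μ + σ p) →
        (∀ i, (b i : ℝ) = ∑ j, c j * w j i) → (σ ≠ 0 ∨ b ≠ 0) →
        q * ε ≤ ∑ j, c j * κ j - q * ((R : ℝ) - g) * μ := by
      intro c hc μ σ b hσ hp hb hne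
      have h0 := A9.exists_zero hgR hσ
      have h1 := hlc (A9.vS σ b) (A9.onTrop_vS hgR b hσ)
        (A9.cone_real _ c hc _ (A9.coord_vec pg s w c μ σ b hp hb)) (A9.vS_ne h0 hne)
      exact (mul_le_mul_of_nonneg_left h1 hqR.le).trans
        (A9.core g hR q hq r hr pg s w E κ hκR c hc μ σ h0 b hp hb)
    have hcard : ((Fintype.card (Option (Fin R)) : ℝ) - g - 1) = (R : ℝ) - g := by
      rw [Fintype.card_option, Fintype.card_fin]
      push_cast
      ring
    -- the rational case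
    have hnnQ : ∀ c : Fin N → ℚ, (∀ j, 0 ≤ c j) → ∀ (μ : ℚ) (σ : Option (Fin R) → ℚ),
        (∀ p, 0 ≤ σ p) → Supp g σ →
        (∀ p, psum pg s (fun j => (c j : ℝ)) p = μ + (σ p : ℝ)) →
        0 ≤ ∑ j, (c j : ℝ) * κ j - q * ((R : ℝ) - g) * μ := by
      intro c hc μ σ hσ hsupp hp
      obtain ⟨D, n, hD, hn⟩ := A9.common_den (fun o : Fin N ⊕ Option (Fin R) => Sum.elim c σ o)
        (fun o => by rcases o with j | p; exacts [hc j, hσ p])
      have hDR : (0 : ℝ) < D := by exact_mod_cast hD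
      have hnR : ∀ j, ((n (Sum.inl j) : ℕ) : ℝ) = D * (c j : ℝ) := by
        intro j
        have := congrArg (Rat.cast : ℚ → ℝ) (hn (Sum.inl j))
        push_cast at this
        exact this
      have hnσ : ∀ p, ((n (Sum.inr p) : ℕ) : ℝ) = D * (σ p : ℝ) := by
        intro p
        have := congrArg (Rat.cast : ℚ → ℝ) (hn (Sum.inr p))
        push_cast at this
        exact this
      have hsupp' : Supp g (fun p => n (Sum.inr p)) := by
        obtain ⟨I, hI, h0⟩ := hsupp
        refine ⟨I, hI, fun p hpI => ?_⟩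
        have h1 := hnσ p
        rw [h0 p hpI] at h1
        simpa using h1
      have hp' : ∀ p, psum pg s (fun j => ((n (Sum.inl j) : ℕ) : ℝ)) p =
          D * μ + ((n (Sum.inr p) : ℕ) : ℝ) := by
        intro p
        have h1 : psum pg s (fun j => ((n (Sum.inl j) : ℕ) : ℝ)) p =
            D * psum pg s (fun j => (c j : ℝ)) p := by
          rw [A9.psum_eq, A9.psum_eq, Finset.mul_sum]
          refine Finset.sum_congr rfl fun j _ => ?_
          rw [hnR]
          ring
        rw [h1, hp, mul_add, hnσ]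
      obtain ⟨b, hb⟩ : ∃ b : Fin k → ℤ, b = fun i => ∑ j, (n (Sum.inl j) : ℤ) * w j i :=
        ⟨_, rfl⟩
      have hb' : ∀ i, (b i : ℝ) = ∑ j, ((n (Sum.inl j) : ℕ) : ℝ) * (w j i : ℝ) := by
        intro i; rw [hb]; push_cast; rfl
      have hfin : ∑ j, ((n (Sum.inl j) : ℕ) : ℝ) * (κ j : ℝ) - q * ((R : ℝ) - g) * (D * μ) =
          D * (∑ j, (c j : ℝ) * κ j - q * ((R : ℝ) - g) * μ) := by
        have e : ∑ j, ((n (Sum.inl j) : ℕ) : ℝ) * (κ j : ℝ) =
            D * ∑ j, (c j : ℝ) * (κ j : ℝ) := by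
          rw [Finset.mul_sum]
          exact Finset.sum_congr rfl fun j _ => by rw [hnR]; ring
        rw [e]
        ring
      have hge : 0 ≤ D * (∑ j, (c j : ℝ) * κ j - q * ((R : ℝ) - g) * μ) := by
        rw [← hfin]
        by_cases hne : (fun p => n (Sum.inr p)) ≠ 0 ∨ b ≠ 0
        · exact (mul_pos hqR hε).le.trans
            (hlc' _ (fun j => Nat.cast_nonneg _) _ _ b hsupp' hp' hb' hne)
        · push Not at hne
          have h1 := A9.core g hR q hq r hr pg s w E κ hκR _ (fun j => Nat.cast_nonneg _) _ _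
            (A9.exists_zero hgR hsupp') b hp' hb'
          refine le_trans ?_ h1
          have h0 : A9.vS (R := R) (fun p => n (Sum.inr p)) b = 0 := by
            rw [hne.1, hne.2]
            funext x
            rcases x with i | l
            · simp [A9.vS]
            · simp [A9.vS]
          have hd : logDisc g (A9.vS (R := R) (fun p => n (Sum.inr p)) b) = 0 := by
            rw [A9.disc_vS g _ _ (A9.exists_zero hgR hsupp'), hne.2]
            have h2 : ∀ p, n (Sum.inr p) = 0 := fun p => congrFun hne.1 p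
            simp [h2]
          rw [hd, h0]
          obtain ⟨i, hi⟩ := A9.mono_att E (0 : Fin R ⊕ Fin k → ℤ)
          rw [hi]
          simp
      exact nonneg_of_mul_nonneg_right hge hDR
    refine ⟨hg, hq, mul_pos hqR hε, by simpa using hgR, ?_, hκq, ?_, ?_⟩
    · intro j p hjp
      exact hpos j (by rw [hjp]; exact Option.some_ne_none _)
    · intro c hc μ σ b hμ hσ hp hb hne
      rw [hcard]
      exact hlc' c hc μ σ b hσ hp hb hne
    · intro c hc μ σ hμ hσ hsupp hp
      rw [hcard]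
      obtain ⟨I, hI, h0⟩ := hsupp
      obtain ⟨p₁, hp₁⟩ := A9.exists_out hgR I hI
      -- the linear function
      let a : Fin N → ℝ := fun j => κ j - q * ((R : ℝ) - g) * (A9.sg (pg j) (s j) p₁ : ℝ)
      have hL : ∀ c' : Fin N → ℝ, ∑ j, c' j * (κ j : ℝ) -
          q * ((R : ℝ) - g) * psum pg s c' p₁ = ∑ j, c' j * a j := by
        intro c'
        rw [A9.psum_eq, Finset.mul_sum, ← Finset.sum_sub_distrib]
        refine Finset.sum_congr rfl fun j _ => ?_
        simp only [a]
        ring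
      have hμ1 : psum pg s c p₁ = μ := by rw [hp, h0 p₁ hp₁, add_zero]
      rw [← hμ1, hL]
      by_contra hneg
      push Not at hneg
      have hA : 0 ≤ ∑ j, |a j| := Finset.sum_nonneg fun j _ => abs_nonneg _
      let t : Option (Fin R) → Fin N → ℕ := fun p j => A9.sg (pg j) (s j) p
      have hps : ∀ (c' : Fin N → ℝ) (p : Option (Fin R)),
          psum pg s c' p = ∑ j, c' j * (t p j : ℝ) := fun c' p => A9.psum_eq pg s c' p
      obtain ⟨c', hc', heq, hclose⟩ := h (Fin N ⊕ Option (Fin R))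
        (Option (Fin R) ⊕ Option (Fin R))
        (fun e o => Sum.elim
          (fun p => Sum.elim (fun j => (t p j : ℚ) - (t p₁ j : ℚ))
            (fun p' => if p' = p then (-1 : ℚ) else 0) o)
          (fun p => Sum.elim (fun _ => (0 : ℚ))
            (fun p' => if p' = p ∧ p ∉ I then (1 : ℚ) else 0) o) e)
        (fun o => Sum.elim c σ o) (fun o => by rcases o with j | p; exacts [hc j, hσ p])
        (by
          intro e
          rw [Fintype.sum_sum_type]
          rcases e with p | p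
          · simp only [Sum.elim_inl, Sum.elim_inr]
            push_cast
            have h1 : ∑ j, (((t p j : ℝ) - (t p₁ j : ℝ)) * c j) =
                psum pg s c p - psum pg s c p₁ := by
              rw [hps, hps, ← Finset.sum_sub_distrib]
              exact Finset.sum_congr rfl fun j _ => by ring
            have h2 : ∑ p', ((((if p' = p then (-1 : ℚ) else 0) : ℚ) : ℝ) * σ p') = -σ p := by
              rw [Finset.sum_eq_single p (fun b _ hb => by simp [hb])
                (fun h => absurd (Finset.mem_univ p) h)]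
              simp
            rw [h1, h2, hμ1, hp]
            ring
          · simp only [Sum.elim_inl, Sum.elim_inr]
            by_cases hpI : p ∈ I
            · simp [hpI]
            · have h2 : ∀ p', ((((if p' = p ∧ p ∉ I then (1 : ℚ) else 0) : ℚ) : ℝ) * σ p') =
                  0 := by
                intro p'
                by_cases hpp : p' = p
                · subst hpp
                  rw [h0 _ hpI, mul_zero]
                · simp [hpp]
              simp only [h2]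
              simp)
        (-(∑ j, c j * a j) / (∑ j, |a j| + 1)) (div_pos (by linarith) (by linarith))
      have hσ' : ∀ p, p ∉ I → c' (Sum.inr p) = 0 := by
        intro p hpI
        have h1 := heq (Sum.inr p)
        rw [Fintype.sum_sum_type] at h1
        simp only [Sum.elim_inl, Sum.elim_inr] at h1
        simpa [hpI] using h1
      have hp'' : ∀ p, psum pg s (fun j => ((c' (Sum.inl j) : ℚ) : ℝ)) p =
          ((∑ j, c' (Sum.inl j) * (t p₁ j : ℚ) : ℚ) : ℝ) + ((c' (Sum.inr p) : ℚ) : ℝ) := by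
        intro p
        have h1 := congrArg (Rat.cast : ℚ → ℝ) (heq (Sum.inl p))
        rw [Fintype.sum_sum_type] at h1
        simp only [Sum.elim_inl, Sum.elim_inr] at h1
        have h3 : ∑ p', ((if p' = p then (-1 : ℚ) else 0) * c' (Sum.inr p')) =
            -c' (Sum.inr p) := by
          simp
        rw [h3] at h1
        push_cast at h1
        have h2 : ∑ j, (((t p j : ℝ) - (t p₁ j : ℝ)) * ((c' (Sum.inl j) : ℚ) : ℝ)) =
              psum pg s (fun j => ((c' (Sum.inl j) : ℚ) : ℝ)) p -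
                ∑ j, ((c' (Sum.inl j) : ℚ) : ℝ) * (t p₁ j : ℝ) := by
          rw [hps, ← Finset.sum_sub_distrib]
          exact Finset.sum_congr rfl fun j _ => by ring
        rw [h2] at h1
        push_cast
        linarith
      have h3 := hnnQ (fun j => c' (Sum.inl j)) (fun j => hc' _) _
        (fun p => c' (Sum.inr p)) (fun p => hc' _) ⟨I, hI, hσ'⟩ hp''
      have h4 : ((∑ j, c' (Sum.inl j) * (t p₁ j : ℚ) : ℚ) : ℝ) =
          psum pg s (fun j => ((c' (Sum.inl j) : ℚ) : ℝ)) p₁ := by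
        rw [hps]
        push_cast
        rfl
      rw [h4, hL] at h3
      have h5 : ∑ j, (((c' (Sum.inl j) : ℚ) : ℝ) - c j) * a j ≤
          (-(∑ j, c j * a j) / (∑ j, |a j| + 1)) * ∑ j, |a j| := by
        rw [Finset.mul_sum]
        refine Finset.sum_le_sum fun j _ => ?_
        calc (((c' (Sum.inl j) : ℚ) : ℝ) - c j) * a j
              ≤ |(((c' (Sum.inl j) : ℚ) : ℝ) - c j) * a j| := le_abs_self _
          _ = |((c' (Sum.inl j) : ℚ) : ℝ) - c j| * |a j| := abs_mul _ _
          _ ≤ _ := mul_le_mul_of_nonneg_right (hclose (Sum.inl j)).le (abs_nonneg _)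
      have h6 : ∑ j, (((c' (Sum.inl j) : ℚ) : ℝ) - c j) * a j =
          ∑ j, ((c' (Sum.inl j) : ℚ) : ℝ) * a j - ∑ j, c j * a j := by
        rw [← Finset.sum_sub_distrib]
        exact Finset.sum_congr rfl fun j _ => by ring
      rw [h6] at h5
      have h7 : (-(∑ j, c j * a j) / (∑ j, |a j| + 1)) * ∑ j, |a j| < -(∑ j, c j * a j) := by
        rw [div_mul_eq_mul_div, div_lt_iff₀ (by linarith)]
        nlinarith
      linarith
  · rw [hwv]
    clear hv hwv hw
    subst hvv
    intro σ a hσ hne hin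
    have h0 := A9.exists_zero hgR hσ
    have hcone : InCone (fun j => A9.vS (A9.sg (pg j) (s j)) (w j)) (A9.vS σ a) := by
      apply A9.cone_dualT
      intro u hu
      have hcomm : ∀ y : Fin R ⊕ Fin k → ℤ, ∑ x, y x * u x = ∑ x, u x * y x := fun y =>
        Finset.sum_congr rfl fun x _ => mul_comm _ _
      rw [hcomm, A9.pair_vS]
      have h1 := hin (A9.ee u) (fun l => u (Sum.inr l)) (A9.sum_ee u).le (fun j => by
        have h2 := hu j
        rw [hcomm, A9.pair_vS, A9.sum_sg] at h2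
        exact h2)
      exact h1
    have h1 := hlc _ (A9.onTrop_vS hgR a hσ) hcone (A9.vS_ne h0 hne)
    obtain ⟨i, hi⟩ := A9.mono_att E (A9.vS σ a)
    have hκZ : ∀ j, (r : ℤ) * κ j = q * (r * logDisc g (A9.vS (A9.sg (pg j) (s j)) (w j)) -
        ordMono E (A9.vS (A9.sg (pg j) (s j)) (w j))) := by
      intro j
      have h2 := hκ j
      unfold toricDisc at h2
      have hrQ : (r : ℚ) ≠ 0 := by exact_mod_cast hr.ne'
      have h3 : (r : ℚ) * κ j = q * (r * logDisc g (A9.vS (A9.sg (pg j) (s j)) (w j)) -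
        ordMono E (A9.vS (A9.sg (pg j) (s j)) (w j))) := by
        rw [h2]; field_simp
      exact_mod_cast h3
    -- the value of the functional
    obtain ⟨bb, hbb⟩ : ∃ bb : Option (Fin R) → ℤ, bb = fun p =>
        p.elim (((g : ℤ) + 1) * q * r - q * ∑ i', E i (Sum.inl i'))
          (fun i' => q * E i (Sum.inl i')) := ⟨_, rfl⟩
    have hval : ∀ (σ' : Option (Fin R) → ℕ) (w' : Fin k → ℤ), (∃ p, σ' p = 0) →
        ∑ p, (σ' p : ℤ) * (q * r - bb p) +
          ∑ l, ((r : ℤ) * q - q * E i (Sum.inr l)) * w' l =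
        q * (r * logDisc g (A9.vS σ' w') - ∑ x, E i x * A9.vS σ' w' x) := by
      intro σ' w' h'
      rw [A9.disc_vS g _ _ h', A9.pair_vS, Fintype.sum_option, Fintype.sum_option]
      simp only [hbb, Option.elim, A9.ee]
      have e1 : ∑ x : Fin R, (σ' (some x) : ℤ) * (q * r - q * E i (Sum.inl x)) =
          q * r * ∑ x : Fin R, (σ' (some x) : ℤ) -
            q * ∑ x : Fin R, (σ' (some x) : ℤ) * E i (Sum.inl x) := by
        rw [Finset.mul_sum, Finset.mul_sum, ← Finset.sum_sub_distrib]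
        exact Finset.sum_congr rfl fun x _ => by ring
      have e2 : ∑ l, ((r : ℤ) * q - q * E i (Sum.inr l)) * w' l =
          r * q * ∑ l, w' l - q * ∑ l, E i (Sum.inr l) * w' l := by
        rw [Finset.mul_sum, Finset.mul_sum, ← Finset.sum_sub_distrib]
        exact Finset.sum_congr rfl fun x _ => by ring
      rw [e1, e2]
      ring
    refine ⟨r, hr, bb, fun l => (r : ℤ) * q - q * E i (Sum.inr l), ⟨?_, fun j => ?_⟩, ?_⟩
    · rw [Fintype.sum_option]
      simp only [hbb, Option.elim, ← Finset.mul_sum]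
      apply le_of_eq
      ring
    · have h2 := hval (A9.sg (pg j) (s j)) (w j) (A9.sg_zero hR _ _)
      rw [A9.sum_sg] at h2
      unfold fval
      rw [h2, hκZ]
      have h3 := A9.mono_le E (A9.vS (A9.sg (pg j) (s j)) (w j)) i
      have hq0 : (0 : ℤ) ≤ q := by positivity
      nlinarith
    · unfold tval
      refine lt_of_lt_of_eq ?_ (hval σ a h0).symm
      rw [← hi]
      have h3 : (0 : ℝ) < q * (r * (logDisc g (A9.vS σ a) : ℝ) -
          (ordMono E (A9.vS σ a) : ℝ)) := by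
        have h4 : (r : ℝ) * ε ≤ r * (logDisc g (A9.vS σ a) : ℝ) -
          (ordMono E (A9.vS σ a) : ℝ) := by
          have h5 := mul_le_mul_of_nonneg_left h1 hrR.le
          have h6 : (r : ℝ) * ((logDisc g (A9.vS σ a) : ℝ) -
            (ordMono E (A9.vS σ a) : ℝ) / r) =
            r * (logDisc g (A9.vS σ a) : ℝ) -
            (ordMono E (A9.vS σ a) : ℝ) := by field_simp
          rw [h6] at h5
          exact h5
        have h5 := mul_pos hrR hε
        exact mul_pos hqR (by linarith)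
      exact_mod_cast h3

end Vale.Agent.P283.A647
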