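import Vale.Agent.P283.A647.Props

/-!
Row B1: the function field of a chart.
-/

set_option linter.all false

namespace Vale.Agent.P283.A647

open MvPolynomial

namespace B1

section Chart

variable {L : Type} [Field L] [Algebra ℂ L] {d : ℕ} {U : Type} [Fintype U]

/-- the product of the units -/
noncomputable def q0 (d : ℕ) (A : U → ℂ) (B : U → Fin d → ℂ) : MvPolynomial (Fin d) ℂ :=
  ∏ i, (C (A i) + ∑ j, C (B i j) * X j)

theorem chartY_sg (y : Fin d → L) (A : U → ℂ) (B : U → Fin d → ℂ) :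
    chartY y A B ∘ Fin.succ = y := by
  funext l
  rfl

theorem lin_ne {y : Fin d → L} (H : IsRat y) {A : U → ℂ} {B : U → Fin d → ℂ}
    (hA : ∀ i, A i ≠ 0) (i : U) : lin y A B i ≠ 0 := by
  intro h0
  have h1 : aeval y (C (A i) + ∑ j, C (B i j) * X j : MvPolynomial (Fin d) ℂ) = 0 := by
    rw [map_add, map_sum, aeval_C]
    rw [Finset.sum_congr rfl fun j _ => show aeval y (C (B i j) * X j : MvPolynomial (Fin d) ℂ) =
      algebraMap ℂ L (B i j) * y j by rw [map_mul, aeval_C, aeval_X]]
    exact h0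
  have h2 := H.ind.eq_zero_of_aeval_eq_zero _ h1
  have h3 := congrArg constantCoeff h2
  rw [map_add, map_sum, constantCoeff_C, map_zero, Finset.sum_eq_zero, add_zero] at h3
  · exact hA i h3
  · intro j _
    rw [map_mul, constantCoeff_X, mul_zero]

theorem prod_lin_ne {y : Fin d → L} (H : IsRat y) {A : U → ℂ} {B : U → Fin d → ℂ}
    (hA : ∀ i, A i ≠ 0) : ∏ i, lin y A B i ≠ 0 :=
  Finset.prod_ne_zero_iff.2 fun i _ => lin_ne H hA i

theorem chartY_ne {y : Fin d → L} (H : IsRat y) {A : U → ℂ} {B : U → Fin d → ℂ}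
    (hA : ∀ i, A i ≠ 0) (j : Fin (d + 1)) : chartY y A B j ≠ 0 := by
  unfold chartY
  refine Fin.cases ?_ (fun j => ?_) j
  · rw [Fin.cons_zero]
    exact inv_ne_zero (prod_lin_ne H hA)
  · rw [Fin.cons_succ]
    exact H.ind.ne_zero j

theorem rename_q0 (A : U → ℂ) (B : U → Fin d → ℂ) : rename Fin.succ (q0 d A B) =
    (∏ i, (C (A i) + ∑ j, C (B i j) * X (Fin.succ j)) : MvPolynomial (Fin (d + 1)) ℂ) := by
  unfold q0
  rw [map_prod]
  refine Finset.prod_congr rfl fun i _ => ?_
  rw [map_add, map_sum, rename_C]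
  refine congrArg _ (Finset.sum_congr rfl fun j _ => ?_)
  rw [map_mul, rename_C, rename_X]

theorem chartF_eq (A : U → ℂ) (B : U → Fin d → ℂ) :
    chartF d A B = X 0 * rename Fin.succ (q0 d A B) - 1 := by
  rw [rename_q0]; rfl

theorem aeval_prod (y : Fin d → L) (A : U → ℂ) (B : U → Fin d → ℂ) :
    aeval (chartY y A B) (∏ i, (C (A i) + ∑ j, C (B i j) * X (Fin.succ j)) :
      MvPolynomial (Fin (d + 1)) ℂ) = ∏ i, lin y A B i := by
  rw [map_prod]
  refine Finset.prod_congr rfl fun i _ => ?_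
  rw [map_add, map_sum, aeval_C]
  refine congrArg _ (Finset.sum_congr rfl fun j _ => ?_)
  rw [map_mul, aeval_C, aeval_X]
  rfl

theorem aeval_chartF {y : Fin d → L} (H : IsRat y) {A : U → ℂ} {B : U → Fin d → ℂ}
    (hA : ∀ i, A i ≠ 0) : aeval (chartY y A B) (chartF d A B) = 0 := by
  unfold chartF
  rw [map_sub, map_mul, aeval_X, map_one, aeval_prod]
  have : chartY y A B 0 = (∏ i, lin y A B i)⁻¹ := rfl
  rw [this, inv_mul_cancel₀ (prod_lin_ne H hA), sub_self]

/-- elimination of the variable `0` -/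
theorem elim (A : U → ℂ) (B : U → Fin d → ℂ) (P : MvPolynomial (Fin (d + 1)) ℂ) :
    ∃ (n : ℕ) (P' : MvPolynomial (Fin d) ℂ),
      chartF d A B ∣ rename Fin.succ (q0 d A B) ^ n * P - rename Fin.succ P' := by
  induction P using MvPolynomial.induction_on with
  | C a =>
    refine ⟨0, C a, ?_⟩
    rw [pow_zero, one_mul, rename_C, sub_self]
    exact dvd_zero _
  | add P₁ P₂ h₁ h₂ =>
    obtain ⟨n₁, Q₁, h₁⟩ := h₁
    obtain ⟨n₂, Q₂, h₂⟩ := h₂
    refine ⟨n₁ + n₂, q0 d A B ^ n₂ * Q₁ + q0 d A B ^ n₁ * Q₂, ?_⟩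
    have h3 : rename Fin.succ (q0 d A B) ^ (n₁ + n₂) * (P₁ + P₂) -
        rename Fin.succ (q0 d A B ^ n₂ * Q₁ + q0 d A B ^ n₁ * Q₂) =
        rename Fin.succ (q0 d A B) ^ n₂ *
          (rename Fin.succ (q0 d A B) ^ n₁ * P₁ - rename Fin.succ Q₁) +
        rename Fin.succ (q0 d A B) ^ n₁ *
          (rename Fin.succ (q0 d A B) ^ n₂ * P₂ - rename Fin.succ Q₂) := by
      rw [map_add, map_mul, map_mul, map_pow, map_pow]
      ring
    rw [h3]
    exact dvd_add (h₁.mul_left _) (h₂.mul_left _)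
  | mul_X P i h =>
    obtain ⟨n, Q, h⟩ := h
    refine Fin.cases ?_ (fun l => ?_) i
    · refine ⟨n + 1, Q, ?_⟩
      have h3 : rename Fin.succ (q0 d A B) ^ (n + 1) * (P * X 0) -
          rename Fin.succ Q = (rename Fin.succ (q0 d A B) ^ n * P - rename Fin.succ Q) +
            rename Fin.succ (q0 d A B) ^ n * P * chartF d A B := by
        rw [chartF_eq]
        ring
      rw [h3]
      exact dvd_add h (dvd_mul_left _ _)
    · refine ⟨n, Q * X l, ?_⟩
      have h3 : rename Fin.succ (q0 d A B) ^ n * (P * X (Fin.succ l)) -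
          rename Fin.succ (Q * X l) =
          (rename Fin.succ (q0 d A B) ^ n * P - rename Fin.succ Q) * X (Fin.succ l) := by
        rw [map_mul, rename_X]
        ring
      rw [h3]
      exact h.mul_right _

theorem chart_hyp {y : Fin d → L} (H : IsRat y) {A : U → ℂ} {B : U → Fin d → ℂ}
    (hA : ∀ i, A i ≠ 0) : H647.HypData (chartY y A B) (chartF d A B) where
  gen := by
    intro g
    have h1 : g ∈ IntermediateField.adjoin ℂ (Set.range y) := by
      rw [H.gen]
      exact IntermediateField.mem_top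
    obtain ⟨P, Q, h2⟩ := (IntermediateField.mem_adjoin_range_iff ℂ _ g).1 h1
    by_cases hQ : aeval y Q = 0
    · refine ⟨0, 1, ?_, ?_⟩
      · rw [map_one]
        exact one_ne_zero
      · rw [h2, hQ, div_zero, map_zero, zero_div]
    · refine ⟨rename Fin.succ P, rename Fin.succ Q, ?_, ?_⟩
      · rw [aeval_rename, chartY_sg]
        exact hQ
      · rw [aeval_rename, aeval_rename, chartY_sg]
        exact h2
  ker := by
    intro P
    constructor
    · intro hP
      obtain ⟨n, P', h⟩ := elim A B P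
      have h1 : aeval (chartY y A B) (rename Fin.succ (q0 d A B) ^ n * P -
          rename Fin.succ P') = 0 := by
        obtain ⟨g, hg⟩ := h
        rw [hg, map_mul, aeval_chartF H hA, zero_mul]
      rw [map_sub, map_mul, hP, mul_zero, zero_sub, neg_eq_zero, aeval_rename, chartY_sg] at h1
      have h2 := H.ind.eq_zero_of_aeval_eq_zero _ h1
      rw [h2, map_zero, sub_zero] at h
      have h3 : IsCoprime (chartF d A B) (rename Fin.succ (q0 d A B) ^ n) := by
        refine IsCoprime.pow_right ⟨-1, X 0, ?_⟩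
        rw [chartF_eq]
        ring
      exact h3.dvd_of_dvd_mul_left h
    · rintro ⟨g, rfl⟩
      rw [map_mul, aeval_chartF H hA, zero_mul]
  f0 := by
    intro h0
    have h1 := congrArg constantCoeff h0
    unfold chartF at h1
    rw [map_sub, map_mul, constantCoeff_X, zero_mul, map_one, map_zero] at h1
    norm_num at h1
  x0 := chartY_ne H hA

end Chart

end B1

/-- B1. -/
theorem b1 : ChartHyp := fun _ _ _ _ _ _ _ _ _ H hA => B1.chart_hyp H hA

end Vale.Agent.P283.A647
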