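import Vale.Agent.P283.A647.B1

/-!
Row B2: the residue form of a chart.
-/

set_option linter.all false

namespace Vale.Agent.P283.A647

open MvPolynomial

namespace B2

section Chart

variable {L : Type} [Field L] [Algebra ℂ L] {d : ℕ} {U : Type} [Fintype U]

theorem pd (A : U → ℂ) (B : U → Fin d → ℂ) : pderiv 0 (chartF d A B) =
    ∏ i, (C (A i) + ∑ j, C (B i j) * X (Fin.succ j)) := by
  have h1 : pderiv 0 (rename Fin.succ (B1.q0 d A B)) = 0 := by
    apply pderiv_eq_zero_of_notMem_vars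
    intro h
    classical
    obtain ⟨l, -, hl⟩ := Finset.mem_image.1 (vars_rename Fin.succ (B1.q0 d A B) h)
    exact Fin.succ_ne_zero l hl
  rw [B1.chartF_eq, map_sub, Derivation.leibniz, h1, pderiv_X_self, smul_zero, zero_add,
    smul_eq_mul, mul_one, pderiv_one, sub_zero, B1.rename_q0]

theorem succAbove (y : Fin d → L) (A : U → ℂ) (B : U → Fin d → ℂ) :
    chartY y A B ∘ (0 : Fin (d + 1)).succAbove = y := by
  funext l
  rw [Function.comp_apply, Fin.zero_succAbove]
  rfl

theorem chart_res {y : Fin d → L} (H : IsRat y) {A : U → ℂ} {B : U → Fin d → ℂ}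
    (hA : ∀ i, A i ≠ 0) {D' : Fin d → Derivation ℂ L L} {h : L} (hh : h * Q.jac D' y = 1) :
    H647.ResForm (chartY y A B) (chartF d A B) D' ((∏ i, lin y A B i) * h) := by
  have hj : Q.jac D' y ≠ 0 := by
    intro h0
    rw [h0, mul_zero] at hh
    exact zero_ne_one hh
  obtain ⟨h1, R⟩ := (B1.chart_hyp H hA : H647.HypData (chartY y A B) (chartF d A B)).exists_resForm
    (D' := D') ⟨y, hj⟩
  have h2 := R.res 0
  rw [succAbove, pd, B1.aeval_prod] at h2
  have h3 : h1 = (∏ i, lin y A B i) * h := by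
    have h4 : h1 * (h * Q.jac D' y) = h1 := by rw [hh, mul_one]
    have h5 : ((0 : Fin (d + 1)) : ℕ) = 0 := rfl
    rw [h5, pow_zero, one_mul] at h2
    calc h1 = h1 * (h * Q.jac D' y) := h4.symm
      _ = (h1 * Q.jac D' y) * h := by ring
      _ = (∏ i, lin y A B i) * h := by rw [h2]
  rw [← h3]
  exact R

end Chart

end B2

/-- B2. -/
theorem b2 : ChartRes := fun _ _ _ _ _ _ _ _ _ H hA _ _ hh => B2.chart_res H hA hh

end Vale.Agent.P283.A647
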