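import Vale.Agent.P283.A647.Props
import Vale.Agent.P283.T647.G3

/-!
Row B3: values and orders in a chart.
-/

set_option linter.all false

namespace Vale.Agent.P283.A647

open MvPolynomial Finset
open Vale.Agent.P283.H647 (cder cder_add cder_C cder_sum cder_mul_X HypData ResForm)
open Vale.Agent.P283.Z647 (IsMinZ inFormZ wtZ HomogZ AtLeastZ minWt coeff_inFormZ isMinZ_minWt
  wtZ_add wtZ_zero)
open Vale.Agent.P283.T647.G3 (Lead AL_zero lead_C lead_X cder_mul cder_X cder_pow cder_prod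
  pow_shift)

namespace B3

section Main

variable {d : ℕ} {U : Type} [Fintype U]

/-- The linear polynomial of a unit. -/
noncomputable def ul (A : U → ℂ) (B : U → Fin d → ℂ) (i : U) : MvPolynomial (Fin (d + 1)) ℂ :=
  C (A i) + ∑ j, C (B i j) * X (Fin.succ j)

/-- The coefficients of the leading parts of the units. -/
noncomputable def bl (a : Fin (d + 1) → ℤ) (B : U → Fin d → ℂ) (i : U) (j : Fin d) : ℂ :=
  if a (Fin.succ j) = 0 then B i j else 0

theorem lead_ul {a : Fin (d + 1) → ℤ} {B : U → Fin d → ℂ}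
    (hp : ∀ i j, B i j ≠ 0 → 0 ≤ a (Fin.succ j)) (A : U → ℂ) (i : U) :
    Lead a 0 (ul A B i) (ul A (bl a B) i) := by
  unfold ul
  refine (lead_C _).add (Lead.sum _ fun j _ => ?_)
  have h1 := (lead_C (a := a) (B i j)).mul (lead_X (a := a) (Fin.succ j))
  rw [zero_add] at h1
  unfold bl
  by_cases h : a (Fin.succ j) = 0
  · rw [if_pos h]
    rw [h] at h1
    exact h1
  · rw [if_neg h, map_zero, zero_mul]
    by_cases hb : B i j = 0
    · rw [hb, map_zero, zero_mul]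
      exact Lead.of_gt (n := 1) AL_zero one_pos
    · exact Lead.of_gt h1.atLeast (lt_of_le_of_ne (hp i j hb) (Ne.symm h))

/-- The equation. -/
noncomputable def fl (A : U → ℂ) (B : U → Fin d → ℂ) : MvPolynomial (Fin (d + 1)) ℂ :=
  X 0 * ∏ i, ul A B i + C (-1)

theorem chartF_eq (A : U → ℂ) (B : U → Fin d → ℂ) : chartF d A B = fl A B := by
  unfold chartF fl ul
  rw [map_neg, map_one, sub_eq_add_neg]

theorem lead_f {a : Fin (d + 1) → ℤ} {B : U → Fin d → ℂ}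
    (hp : ∀ i j, B i j ≠ 0 → 0 ≤ a (Fin.succ j)) (h0 : a 0 = 0) (A : U → ℂ) :
    Lead a 0 (chartF d A B) (fl A (bl a B)) := by
  rw [chartF_eq]
  unfold fl
  refine Lead.add ?_ (lead_C _)
  have h3 := (lead_X (a := a) 0).mul (Lead.prod (a := a) Finset.univ
    (P := fun i => ul A B i) (G := fun i => ul A (bl a B) i) (m := fun _ => 0)
    (fun i _ => lead_ul hp A i))
  rw [h0, Finset.sum_const_zero, add_zero] at h3
  exact h3

theorem eval_fl (A : U → ℂ) (B : U → Fin d → ℂ) (ξ : Fin (d + 1) → ℂ) :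
    eval ξ (fl A B) = ξ 0 * ∏ i, eval ξ (ul A B i) - 1 := by
  unfold fl
  rw [map_add, map_mul, eval_X, map_prod, eval_C, sub_eq_add_neg]

theorem fl_ne (A : U → ℂ) (B : U → Fin d → ℂ) : fl A B ≠ 0 := by
  intro h
  have h1 := eval_fl A B 0
  rw [h, map_zero] at h1
  simp at h1

theorem cder_ul {δ : Derivation ℚ ℂ ℂ} {A : U → ℂ} {B : U → Fin d → ℂ} (hA : ∀ i, δ (A i) = 0)
    (hB : ∀ i j, δ (B i j) = 0) (ξ : Fin (d + 1) → ℂ) (i : U) : cder δ ξ (ul A B i) = 0 := by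
  unfold ul
  rw [cder_add, cder_C, hA, cder_sum, zero_add]
  refine Finset.sum_eq_zero fun j _ => ?_
  rw [cder_mul, cder_C, hB, cder_X]
  ring

theorem cder_fl {δ : Derivation ℚ ℂ ℂ} {A : U → ℂ} {B : U → Fin d → ℂ} (hA : ∀ i, δ (A i) = 0)
    (hB : ∀ i j, δ (B i j) = 0) (ξ : Fin (d + 1) → ℂ) : cder δ ξ (fl A B) = 0 := by
  unfold fl
  rw [cder_add, cder_mul, cder_X, cder_prod _ fun i _ => cder_ul hA hB ξ i, cder_C, map_neg,
    Derivation.map_one_eq_zero]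
  ring

theorem bl_zero {δ : Derivation ℚ ℂ ℂ} {B : U → Fin d → ℂ} (hB : ∀ i j, δ (B i j) = 0)
    (a : Fin (d + 1) → ℤ) (i : U) (j : Fin d) : δ (bl a B i j) = 0 := by
  unfold bl
  split_ifs
  · exact hB i j
  · exact map_zero δ

/-- A term multiplied by a monomial. -/
noncomputable def pe (T : ℕ) (A : U → ℂ) (B : U → Fin d → ℂ) (e : (U → ℤ) × (Fin d → ℤ)) :
    MvPolynomial (Fin (d + 1)) ℂ :=
  (∏ i, ul A B i ^ (e.1 i + T).toNat) * ∏ j : Fin d, X j.succ ^ (e.2 j + T).toNat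

/-- The weight of `pe`. -/
def we (a : Fin (d + 1) → ℤ) (T : ℕ) (e : (U → ℤ) × (Fin d → ℤ)) : ℤ :=
  ∑ j : Fin d, ((e.2 j + T).toNat : ℤ) * a j.succ

theorem lead_pe {a : Fin (d + 1) → ℤ} {B : U → Fin d → ℂ}
    (hp : ∀ i j, B i j ≠ 0 → 0 ≤ a (Fin.succ j)) (T : ℕ) (A : U → ℂ)
    (e : (U → ℤ) × (Fin d → ℤ)) : Lead a (we a T e) (pe T A B e) (pe T A (bl a B) e) := by
  unfold we pe
  have h1 := Lead.prod (a := a) Finset.univ
    (P := fun i => ul A B i ^ (e.1 i + T).toNat)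
    (G := fun i => ul A (bl a B) i ^ (e.1 i + T).toNat)
    (m := fun i => ((e.1 i + T).toNat : ℤ) * 0) (fun i _ => (lead_ul hp A i).pow _)
  simp only [mul_zero, Finset.sum_const_zero] at h1
  have h2 := h1.mul (Lead.prod (a := a) Finset.univ
    (P := fun j : Fin d => (X j.succ : MvPolynomial (Fin (d + 1)) ℂ) ^ (e.2 j + T).toNat)
    (G := fun j : Fin d => (X j.succ : MvPolynomial (Fin (d + 1)) ℂ) ^ (e.2 j + T).toNat)
    (m := fun j => ((e.2 j + T).toNat : ℤ) * a j.succ) (fun j _ => (lead_X _).pow _))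
  rw [zero_add] at h2
  exact h2

theorem cder_pe {δ : Derivation ℚ ℂ ℂ} {A : U → ℂ} {B : U → Fin d → ℂ} (hA : ∀ i, δ (A i) = 0)
    (hB : ∀ i j, δ (B i j) = 0) (T : ℕ) (ξ : Fin (d + 1) → ℂ)
    (e : (U → ℤ) × (Fin d → ℤ)) : cder δ ξ (pe T A B e) = 0 := by
  unfold pe
  rw [cder_mul, cder_prod _ fun i _ => cder_pow (cder_ul hA hB ξ i) _,
    cder_prod _ fun l _ => cder_pow (cder_X _) _]
  ring

theorem ul_ne {A : U → ℂ} (hA : ∀ i, A i ≠ 0) (B : U → Fin d → ℂ) (i : U) : ul A B i ≠ 0 := by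
  intro h
  have h1 : eval 0 (ul A B i) = A i := by
    unfold ul
    rw [map_add, eval_C, map_sum, Finset.sum_eq_zero, add_zero]
    intro j _
    rw [map_mul, eval_X, Pi.zero_apply, mul_zero]
  rw [h, map_zero] at h1
  exact hA i h1.symm

theorem pe_ne {A : U → ℂ} (hA : ∀ i, A i ≠ 0) (B : U → Fin d → ℂ) (T : ℕ)
    (e : (U → ℤ) × (Fin d → ℤ)) : pe T A B e ≠ 0 := by
  unfold pe
  refine mul_ne_zero ?_ ?_
  · exact Finset.prod_ne_zero_iff.2 fun i _ => pow_ne_zero _ (ul_ne hA B i)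
  · exact Finset.prod_ne_zero_iff.2 fun i _ => pow_ne_zero _ (X_ne_zero _)

/-- The polynomial. -/
noncomputable def pS (T : ℕ) (A : U → ℂ) (B : U → Fin d → ℂ)
    (Ee : Finset ((U → ℤ) × (Fin d → ℤ))) (lam : (U → ℤ) × (Fin d → ℤ) → ℂ) :
    MvPolynomial (Fin (d + 1)) ℂ :=
  ∑ e ∈ Ee, C (lam e) * pe T A B e

/-- Its leading part. -/
noncomputable def gS (a : Fin (d + 1) → ℤ) (T : ℕ) (A : U → ℂ) (B : U → Fin d → ℂ)
    (Ee : Finset ((U → ℤ) × (Fin d → ℤ))) (lam : (U → ℤ) × (Fin d → ℤ) → ℂ)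
    (e₀ : (U → ℤ) × (Fin d → ℤ)) : MvPolynomial (Fin (d + 1)) ℂ :=
  ∑ e ∈ Ee, if we a T e = we a T e₀ then C (lam e) * pe T A (bl a B) e else 0

variable {A : U → ℂ} {B : U → Fin d → ℂ} {Ee : Finset ((U → ℤ) × (Fin d → ℤ))}
  {lam : (U → ℤ) × (Fin d → ℤ) → ℂ}

theorem lead_S {a : Fin (d + 1) → ℤ} (hp : ∀ i j, B i j ≠ 0 → 0 ≤ a (Fin.succ j)) (T : ℕ)
    {e₀ : (U → ℤ) × (Fin d → ℤ)} (hmin : ∀ e ∈ Ee, we a T e₀ ≤ we a T e) :
    Lead a (we a T e₀) (pS T A B Ee lam) (gS a T A B Ee lam e₀) := by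
  unfold pS gS
  refine Lead.sum _ fun e he => ?_
  have h1 := (lead_C (a := a) (lam e)).mul (lead_pe hp T A e)
  rw [zero_add] at h1
  split_ifs with h
  · rw [h] at h1
    exact h1
  · exact Lead.of_gt h1.atLeast (lt_of_le_of_ne (hmin e he) (Ne.symm h))

theorem cder_gS {a : Fin (d + 1) → ℤ} {T : ℕ} {e₀ : (U → ℤ) × (Fin d → ℤ)}
    (he₀ : e₀ ∈ Ee) {δ : Derivation ℚ ℂ ℂ} (hA : ∀ i, δ (A i) = 0) (hB : ∀ i j, δ (B i j) = 0)
    (h1 : δ (lam e₀) = 1) (h2 : ∀ e ∈ Ee, e ≠ e₀ → δ (lam e) = 0) (ξ : Fin (d + 1) → ℂ) :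
    cder δ ξ (gS a T A B Ee lam e₀) = eval ξ (pe T A (bl a B) e₀) := by
  unfold gS
  rw [cder_sum, Finset.sum_eq_single_of_mem e₀ he₀]
  · rw [if_pos rfl, cder_mul, cder_C, h1, cder_pe hA (bl_zero hB a), one_mul, mul_zero, add_zero]
  · intro e he hne
    split_ifs
    · rw [cder_mul, cder_C, h2 e he hne, cder_pe hA (bl_zero hB a), zero_mul, mul_zero, add_zero]
    · rw [← map_zero C, cder_C, map_zero]

variable (hA0 : ∀ i, A i ≠ 0) (hlam : ∀ e₀ ∈ Ee, ∃ δ : Derivation ℚ ℂ ℂ, (∀ i, δ (A i) = 0) ∧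
  (∀ i j, δ (B i j) = 0) ∧ δ (lam e₀) = 1 ∧ ∀ e ∈ Ee, e ≠ e₀ → δ (lam e) = 0)

include hA0 hlam

theorem gS_ne {a : Fin (d + 1) → ℤ} {T : ℕ} {e₀ : (U → ℤ) × (Fin d → ℤ)}
    (he₀ : e₀ ∈ Ee) : gS a T A B Ee lam e₀ ≠ 0 := by
  intro h
  obtain ⟨δ, h1, h2, h3, h4⟩ := hlam e₀ he₀
  apply pe_ne hA0 (bl a B) T e₀
  apply MvPolynomial.funext
  intro ξ
  rw [← cder_gS he₀ h1 h2 h3 h4 ξ, h, ← map_zero C, cder_C, map_zero, map_zero, map_zero]

/-- General position. -/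
theorem genpos {a : Fin (d + 1) → ℤ} (hp : ∀ i j, B i j ≠ 0 → 0 ≤ a (Fin.succ j))
    (h0 : a 0 = 0) (T : ℕ) {e₀ : (U → ℤ) × (Fin d → ℤ)} (he₀ : e₀ ∈ Ee)
    (hmin : ∀ e ∈ Ee, we a T e₀ ≤ we a T e) (ξ : Fin (d + 1) → ℂ) (hξ : ∀ j, ξ j ≠ 0)
    (hf : eval ξ (inFormZ (chartF d A B) a) = 0) (t₀ t : ℂ)
    (ht : eval ξ (inFormZ (pS T A B Ee lam) a) ≠ 0 → t = 0)
    (hrel : ∀ j, t₀ * eval ξ (pderiv j (inFormZ (chartF d A B) a)) +
      t * eval ξ (pderiv j (inFormZ (pS T A B Ee lam) a)) = 0) : t₀ = 0 ∧ t = 0 := by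
  obtain ⟨δ, hδ1, hδ2, hδ3, hδ4⟩ := hlam e₀ he₀
  rw [((lead_f hp h0 A).isMin (fl_ne A (bl a B))).2] at hf hrel
  rw [((lead_S hp T hmin).isMin (gS_ne hA0 hlam he₀)).2] at ht hrel
  have hg : ξ 0 * ∏ i, eval ξ (ul A (bl a B) i) = 1 := by
    rw [eval_fl] at hf
    linear_combination hf
  have hgi : ∏ i, eval ξ (ul A (bl a B) i) ≠ 0 := by
    intro h
    rw [h, mul_zero] at hg
    exact zero_ne_one hg
  have hge : eval ξ (pe T A (bl a B) e₀) ≠ 0 := by
    unfold pe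
    rw [map_mul, map_prod, map_prod]
    refine mul_ne_zero ?_ ?_
    · refine Finset.prod_ne_zero_iff.2 fun i _ => ?_
      rw [map_pow]
      exact pow_ne_zero _ (Finset.prod_ne_zero_iff.1 hgi i (Finset.mem_univ i))
    · refine Finset.prod_ne_zero_iff.2 fun i _ => ?_
      rw [map_pow, eval_X]
      exact pow_ne_zero _ (hξ _)
  have ht' : t = 0 := by
    by_cases hs : eval ξ (gS a T A B Ee lam e₀) = 0
    · have hdf : ∑ i, eval ξ (pderiv i (fl A (bl a B))) * δ (ξ i) = 0 := by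
        have h2 := cder_fl hδ1 (bl_zero hδ2 a) ξ
        unfold cder at h2
        rw [hf, map_zero, zero_sub, neg_eq_zero] at h2
        exact h2
      have hds : ∑ i, eval ξ (pderiv i (gS a T A B Ee lam e₀)) * δ (ξ i) =
          - eval ξ (pe T A (bl a B) e₀) := by
        have h2 := cder_gS (a := a) (T := T) he₀ hδ1 hδ2 hδ3 hδ4 ξ
        unfold cder at h2
        rw [hs, map_zero, zero_sub] at h2
        rw [← h2, neg_neg]
      have hsum : ∑ j, (t₀ * eval ξ (pderiv j (fl A (bl a B))) +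
          t * eval ξ (pderiv j (gS a T A B Ee lam e₀))) * δ (ξ j) = 0 :=
        Finset.sum_eq_zero fun j _ => by rw [hrel j, zero_mul]
      have hexp : ∑ j, (t₀ * eval ξ (pderiv j (fl A (bl a B))) +
          t * eval ξ (pderiv j (gS a T A B Ee lam e₀))) * δ (ξ j) =
          t₀ * ∑ j, eval ξ (pderiv j (fl A (bl a B))) * δ (ξ j) +
          t * ∑ j, eval ξ (pderiv j (gS a T A B Ee lam e₀)) * δ (ξ j) := by
        rw [Finset.mul_sum, Finset.mul_sum, ← Finset.sum_add_distrib]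
        exact Finset.sum_congr rfl fun j _ => by ring
      rw [hexp, hdf, hds, mul_zero, zero_add] at hsum
      exact (mul_eq_zero.1 hsum).resolve_right (neg_ne_zero.2 hge)
    · exact ht hs
  refine ⟨?_, ht'⟩
  have h2 := hrel 0
  rw [ht', zero_mul, add_zero] at h2
  refine (mul_eq_zero.1 h2).resolve_right ?_
  have h3 : eval ξ (pderiv 0 (fl A (bl a B))) = ∏ i, eval ξ (ul A (bl a B) i) := by
    have h4 : ∀ i, pderiv (0 : Fin (d + 1)) (ul A (bl a B) i) = 0 := by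
      intro i
      unfold ul
      rw [map_add, pderiv_C, map_sum, zero_add]
      refine Finset.sum_eq_zero fun j _ => ?_
      have h5 : pderiv (0 : Fin (d + 1)) (X j.succ : MvPolynomial (Fin (d + 1)) ℂ) = 0 :=
        pderiv_X_of_ne (Fin.succ_ne_zero j)
      rw [Derivation.leibniz, pderiv_C, h5]
      simp
    have h6 : ∀ s : Finset U, pderiv (0 : Fin (d + 1)) (∏ i ∈ s, ul A (bl a B) i) = 0 := by
      intro s
      classical
      induction s using Finset.induction_on with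
      | empty => rw [Finset.prod_empty, Derivation.map_one_eq_zero]
      | insert j s hj ih =>
        rw [Finset.prod_insert hj, Derivation.leibniz, ih, h4]; simp
    unfold fl
    rw [map_add, pderiv_C, add_zero, Derivation.leibniz, h6, pderiv_X_self]
    simp
  rw [h3]
  exact hgi

end Main

theorem exists_shift {d : ℕ} {U : Type} [Fintype U] (Ee : Finset ((U → ℤ) × (Fin d → ℤ))) :
    ∃ T : ℕ, ∀ e ∈ Ee, (∀ i, 0 ≤ e.1 i + T) ∧ ∀ l, 0 ≤ e.2 l + T := by
  classical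
  refine ⟨∑ e ∈ Ee, (∑ i, (e.1 i).natAbs + ∑ l, (e.2 l).natAbs), ?_⟩
  intro e he
  have h1 : ∑ i, (e.1 i).natAbs + ∑ l, (e.2 l).natAbs ≤
      ∑ e ∈ Ee, (∑ i, (e.1 i).natAbs + ∑ l, (e.2 l).natAbs) :=
    Finset.single_le_sum (f := fun e : (U → ℤ) × (Fin d → ℤ) =>
      ∑ i, (e.1 i).natAbs + ∑ l, (e.2 l).natAbs) (fun _ _ => Nat.zero_le _) he
  refine ⟨fun i => ?_, fun l => ?_⟩
  · have h2 := Finset.single_le_sum (f := fun i => (e.1 i).natAbs) (fun _ _ => Nat.zero_le _)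
      (Finset.mem_univ i)
    omega
  · have h2 := Finset.single_le_sum (f := fun l => (e.2 l).natAbs) (fun _ _ => Nat.zero_le _)
      (Finset.mem_univ l)
    omega

end B3

open B3 in
/-- B3. -/
theorem b3 (hH : ChartHyp) (hR : ChartRes) : ChartBound := by
  classical
  intro d U _ L _ _ y A B hd hrat hA Ee lam hne hlam
  obtain ⟨k, rfl⟩ : ∃ k, d = k + 1 := ⟨d - 1, by omega⟩
  have H := hH (k + 1) U L y A B hrat hA
  obtain ⟨T, hT⟩ := exists_shift Ee
  have hy0 : ∀ l, y l ≠ 0 := fun l => H.x0 l.succ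
  have hQ0 : (∏ i, lin y A B i) ≠ 0 := by
    have h1 : (∏ i, lin y A B i)⁻¹ ≠ 0 := H.x0 0
    intro h
    rw [h, inv_zero] at h1
    exact h1 rfl
  have hlin : ∀ i, lin y A B i ≠ 0 := fun i => Finset.prod_ne_zero_iff.1 hQ0 i (Finset.mem_univ i)
  have hyp : (∏ l, y l) ≠ 0 := Finset.prod_ne_zero_iff.2 fun l _ => hy0 l
  obtain ⟨e₁, he₁⟩ := hne
  have hwe0 : ∀ e : (U → ℤ) × (Fin (k + 1) → ℤ), we (0 : Fin (k + 2) → ℤ) T e = 0 := by
    intro e
    unfold we
    simp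
  have hp0 : ∀ i j, B i j ≠ 0 → 0 ≤ (0 : Fin (k + 2) → ℤ) (Fin.succ j) := fun _ _ _ => le_rfl
  have hS0 : pS T A B Ee lam ≠ 0 := by
    intro h
    have h1 := ((lead_S (A := A) (B := B) (lam := lam) (a := (0 : Fin (k + 2) → ℤ)) hp0 T
      (e₀ := e₁) (fun e _ => by rw [hwe0, hwe0])).isMin (gS_ne hA hlam he₁)).1
    rw [h] at h1
    obtain ⟨⟨α, hα, -⟩, -⟩ := h1
    simp at hα
  have hSy : aeval (chartY y A B) (pS T A B Ee lam) =
      (∑ e ∈ Ee, algebraMap ℂ L (lam e) * term y A B e) *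
        ((∏ i, lin y A B i) ^ T * (∏ l, y l) ^ T) := by
    unfold pS
    rw [map_sum, Finset.sum_mul]
    refine Finset.sum_congr rfl fun e he => ?_
    obtain ⟨h1, h2⟩ := hT e he
    have e2 : ∀ l : Fin (k + 1), aeval (chartY y A B) (X l.succ :
        MvPolynomial (Fin (k + 2)) ℂ) = y l := by
      intro l
      rw [aeval_X]; rfl
    have e1 : ∀ i, aeval (chartY y A B) (ul A B i) = lin y A B i := by
      intro i
      unfold ul lin
      rw [map_add, map_sum, aeval_C]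
      congr 1
      refine Finset.sum_congr rfl fun j _ => ?_
      rw [map_mul, e2, aeval_C]
    unfold pe term
    rw [map_mul, aeval_C, map_mul, map_prod, map_prod]
    simp only [map_pow, e1, e2]
    rw [Finset.prod_congr rfl fun i _ => pow_shift (hlin i) (h1 i),
      Finset.prod_congr rfl fun l _ => pow_shift (hy0 l) (h2 l), Finset.prod_mul_distrib,
      Finset.prod_mul_distrib, Finset.prod_pow, Finset.prod_pow]
    ring
  have hSne : aeval (chartY y A B) (pS T A B Ee lam) ≠ 0 := by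
    refine Z647.aeval_neZ (s := 0) (v := (Fin.elim0 : Fin 0 → Fin (k + 2) → ℤ))
      (g := (Fin.elim0 : Fin 0 → MvPolynomial (Fin (k + 2)) ℂ)) H hS0 ?_
    intro a ha ξ hξ hf t₀ t t' _ ht' hrel
    have ha0 : a = 0 := by
      obtain ⟨c, -, hc⟩ := ha
      funext j
      have := hc j
      rw [Finset.univ_eq_empty, Finset.sum_empty] at this
      exact_mod_cast this
    subst ha0
    have h1 := genpos (A := A) (B := B) (lam := lam) hA hlam (a := (0 : Fin (k + 2) → ℤ)) hp0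
      rfl T he₁ (fun e _ => by rw [hwe0, hwe0]) ξ hξ hf t₀ t' ht' (fun j => by
        have := hrel j
        rw [Finset.univ_eq_empty, Finset.sum_empty, add_zero] at this
        exact this)
    exact ⟨h1.1, h1.2, fun i => i.elim0⟩
  have hF0 : (∑ e ∈ Ee, algebraMap ℂ L (lam e) * term y A B e) ≠ 0 := by
    intro h
    rw [hSy, h, zero_mul] at hSne
    exact hSne rfl
  refine ⟨hF0, ?_⟩
  intro w hw hwp hwl D' h hjac m' hm' e₀ he₀ hmin
  have h0 : h ≠ 0 := by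
    rintro rfl
    rw [zero_mul] at hjac
    exact zero_ne_one hjac
  have R := hR (k + 1) U L y A B hrat hA D' h hjac
  -- the weights
  obtain ⟨a, ha⟩ : ∃ a : Fin (k + 2) → ℤ, ∀ j, a j = ov w (chartY y A B j) := ⟨_, fun _ => rfl⟩
  have hal : ∀ l : Fin (k + 1), a l.succ = ov w (y l) := fun l => ha l.succ
  have hQv : ov w (∏ i, lin y A B i) = 0 := by
    rw [ov_prod _ _ fun i _ => hlin i]
    exact Finset.sum_eq_zero fun i _ => hwl i
  have ha0 : a 0 = 0 := by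
    rw [ha 0]
    show ov w (∏ i, lin y A B i)⁻¹ = 0
    rw [ov_inv, hQv, neg_zero]
  have hap : ∀ i j, B i j ≠ 0 → 0 ≤ a (Fin.succ j) := by
    intro i j hb
    rw [hal]
    exact hwp i j hb
  have hweq : ∀ e ∈ Ee, we a T e = twt w y e + T * ∑ l, ov w (y l) := by
    intro e he
    obtain ⟨h1, h2⟩ := hT e he
    unfold we twt
    rw [Finset.mul_sum, ← Finset.sum_add_distrib]
    refine Finset.sum_congr rfl fun l _ => ?_
    rw [Int.toNat_of_nonneg (h2 l), hal]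
    ring
  have hmin' : ∀ e ∈ Ee, we a T e₀ ≤ we a T e := by
    intro e he
    rw [hweq e he, hweq e₀ he₀]
    have := hmin e he
    linarith
  have hb : ∀ j, w (chartY y A B j) = (a j : WithTop ℤ) := by
    intro j
    rw [ha j, coe_ov w (H.x0 j)]
  have key := Z647.X_bound_aux (s := 0) H R (fun _ => pS T A B Ee lam) (fun _ => hS0)
    (fun _ => hSne) a (by
      intro ξ hξ hf t₀ t ht hrel
      have h1 := genpos (A := A) (B := B) (lam := lam) hA hlam hap ha0 T he₀ hmin' ξ hξ hf t₀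
        (t none) (ht none) (fun j => by
          have := hrel j
          rw [Fintype.sum_option, Finset.univ_eq_empty, Finset.sum_empty, add_zero] at this
          exact this)
      refine ⟨h1.1, ?_⟩
      rintro (_ | i)
      · exact h1.2
      · exact i.elim0)
    hw hb hm'
  rw [Fintype.sum_option, Fin.sum_univ_zero, add_zero] at key
  have hmf : minWt (chartF (k + 1) A B) a = 0 :=
    (isMinZ_minWt H.f0 a).unique ((lead_f hap ha0 A).isMin (fl_ne A (bl a B))).1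
  have hms : minWt (pS T A B Ee lam) a = we a T e₀ :=
    (isMinZ_minWt hS0 a).unique ((lead_S hap T hmin').isMin (gS_ne hA hlam he₀)).1
  have hsa : ∑ j, a j = ∑ l, ov w (y l) := by
    rw [Fin.sum_univ_succ, ha0, zero_add]
    exact Finset.sum_congr rfl fun l _ => hal l
  have hvh : ov w ((∏ i, lin y A B i) * h) = ov w h := by
    rw [ov_mul w hQ0 h0, hQv, zero_add]
  have hvS : ov w (aeval (chartY y A B) (pS T A B Ee lam)) =
      ov w (∑ e ∈ Ee, algebraMap ℂ L (lam e) * term y A B e) + T * ∑ l, ov w (y l) := by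
    rw [hSy, ov_mul w hF0 (mul_ne_zero (pow_ne_zero _ hQ0) (pow_ne_zero _ hyp)),
      ov_mul w (pow_ne_zero _ hQ0) (pow_ne_zero _ hyp), ov_pow w hQ0, ov_pow w hyp, hQv,
      ov_prod _ _ fun l _ => hy0 l]
    ring
  rw [hmf, hms, hsa, hvh, hvS, hweq e₀ he₀] at key
  linarith

end Vale.Agent.P283.A647
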