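import Vale.Agent.P283.A647.Props
import Vale.Agent.P283.Z647.Lc

/-!
Row B4: divisorial valuations with given weights in a chart.
-/

set_option linter.all false

namespace Vale.Agent.P283.A647

open MvPolynomial Finset
open Vale.Agent.P283.H647 (ResForm HypData DiagData)
open Vale.Agent.P283.Z647 (wtZ IsMinZ RegZ inFormZ psi_valZ)

section Eqn

variable {d : ℕ} {U : Type} [Fintype U]

/-- The product of the units of a chart, as a polynomial. -/
noncomputable def qPoly (d : ℕ) (A : U → ℂ) (B : U → Fin d → ℂ) : MvPolynomial (Fin (d + 1)) ℂ :=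
  ∏ i, (C (A i) + ∑ j, C (B i j) * X (Fin.succ j))

theorem coeff_zero_qPoly (A : U → ℂ) (B : U → Fin d → ℂ) : coeff 0 (qPoly d A B) = ∏ i, A i := by
  rw [← constantCoeff_eq]
  unfold qPoly
  rw [map_prod]
  exact Finset.prod_congr rfl fun i _ => by simp

theorem mem_qPoly {A : U → ℂ} {B : U → Fin d → ℂ} {β : Fin (d + 1) →₀ ℕ}
    (h : β ∈ (qPoly d A B).support) :
    β 0 = 0 ∧ ∀ j, β (Fin.succ j) ≠ 0 → ∃ i, B i j ≠ 0 := by
  classical
  have h1 : qPoly d A B ∈ supported ℂ {x : Fin (d + 1) | ∃ i j, B i j ≠ 0 ∧ x = Fin.succ j} := by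
    unfold qPoly
    refine Subalgebra.prod_mem _ fun i _ => ?_
    refine Subalgebra.add_mem _ ?_ ?_
    · exact Subalgebra.algebraMap_mem _ (A i)
    · refine Subalgebra.sum_mem _ fun j _ => ?_
      by_cases hB : B i j = 0
      · rw [hB, C_0, zero_mul]
        exact Subalgebra.zero_mem _
      · refine Subalgebra.mul_mem _ (Subalgebra.algebraMap_mem _ (B i j)) ?_
        exact X_mem_supported.2 ⟨i, j, hB, rfl⟩
  rw [mem_supported] at h1
  constructor
  · by_contra h2
    obtain ⟨i, j, -, h3⟩ := h1 (Finset.mem_coe.2 ((mem_vars 0).2 ⟨β, h, Finsupp.mem_support_iff.2 h2⟩))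
    exact absurd h3 (Fin.succ_ne_zero j).symm
  · intro j h2
    obtain ⟨i, j', hB, h3⟩ := h1 (Finset.mem_coe.2
      ((mem_vars (Fin.succ j)).2 ⟨β, h, Finsupp.mem_support_iff.2 h2⟩))
    rw [Fin.succ_inj] at h3
    exact ⟨i, by rw [h3]; exact hB⟩

theorem mem_chartF {A : U → ℂ} {B : U → Fin d → ℂ} {α : Fin (d + 1) →₀ ℕ}
    (h : α ∈ (chartF d A B).support) :
    α = 0 ∨ (α 0 = 1 ∧ ∀ j, α (Fin.succ j) ≠ 0 → ∃ i, B i j ≠ 0) := by
  classical
  by_cases h0 : α = 0
  · exact Or.inl h0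
  right
  have h1 : coeff α (X 0 * qPoly d A B) ≠ 0 := by
    intro h2
    rw [mem_support_iff] at h
    apply h
    have h3 : chartF d A B = X 0 * qPoly d A B - 1 := rfl
    rw [h3, coeff_sub, h2, coeff_one, if_neg (Ne.symm h0), sub_zero]
  rw [coeff_X_mul'] at h1
  by_cases h2 : (0 : Fin (d + 1)) ∈ α.support
  · rw [if_pos h2] at h1
    obtain ⟨h3, h4⟩ := mem_qPoly (mem_support_iff.2 h1)
    rw [Finsupp.mem_support_iff] at h2
    constructor
    · simp only [Finsupp.tsub_apply, Finsupp.single_eq_same] at h3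
      omega
    · intro j hj
      apply h4 j
      simp only [Finsupp.tsub_apply]
      rw [Finsupp.single_eq_of_ne (by simp [Fin.succ_ne_zero])]
      simpa using hj
  · rw [if_neg h2] at h1
    exact absurd rfl h1

theorem coeff_zero_chartF (A : U → ℂ) (B : U → Fin d → ℂ) : coeff 0 (chartF d A B) = -1 := by
  classical
  have h3 : chartF d A B = X 0 * qPoly d A B - 1 := rfl
  rw [h3, coeff_sub, coeff_X_mul', if_neg (by simp), coeff_one, if_pos rfl]
  ring

theorem coeff_one_chartF (A : U → ℂ) (B : U → Fin d → ℂ) :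
    coeff (Finsupp.single 0 1) (chartF d A B) = ∏ i, A i := by
  classical
  have h3 : chartF d A B = X 0 * qPoly d A B - 1 := rfl
  have h4 : (0 : Fin (d + 1) →₀ ℕ) ≠ Finsupp.single 0 1 := by
    intro h
    have h1 := DFunLike.congr_fun h 0
    simp at h1
  rw [h3, coeff_sub, coeff_X_mul', if_pos (by simp), coeff_one, if_neg h4, tsub_self,
    coeff_zero_qPoly, sub_zero]

theorem wtZ_chart {A : U → ℂ} {B : U → Fin d → ℂ} (ω : Fin d → ℤ)
    (hω : ∀ i j, B i j ≠ 0 → 0 ≤ ω j) {α : Fin (d + 1) →₀ ℕ} (h : α ∈ (chartF d A B).support) :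
    0 ≤ wtZ (Fin.cons 0 ω : Fin (d + 1) → ℤ) α := by
  unfold wtZ
  rw [Fin.sum_univ_succ]
  simp only [Fin.cons_zero, Fin.cons_succ, zero_mul, zero_add]
  rcases mem_chartF h with rfl | ⟨-, h1⟩
  · simp
  · refine Finset.sum_nonneg fun j _ => ?_
    by_cases h2 : α (Fin.succ j) = 0
    · rw [h2]; simp
    · obtain ⟨i, hi⟩ := h1 j h2
      exact mul_nonneg (hω i j hi) (by positivity)

theorem isMin_chart {A : U → ℂ} {B : U → Fin d → ℂ} (ω : Fin d → ℤ)
    (hω : ∀ i j, B i j ≠ 0 → 0 ≤ ω j) :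
    IsMinZ (chartF d A B) (Fin.cons 0 ω) 0 := by
  constructor
  · refine ⟨0, ?_, by simp [wtZ]⟩
    rw [mem_support_iff, coeff_zero_chartF]
    norm_num
  · intro β hβ
    exact wtZ_chart ω hω hβ

theorem reg_chart {A : U → ℂ} {B : U → Fin d → ℂ} (a : Fin (d + 1) → ℤ)
    (ha : IsMinZ (chartF d A B) a 0) : RegZ (chartF d A B) a := by
  classical
  intro ξ hξ h0
  refine ⟨0, ?_⟩
  have h1 : X 0 * pderiv 0 (inFormZ (chartF d A B) a) = inFormZ (chartF d A B) a + 1 := by
    unfold inFormZ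
    have hmem : (0 : Fin (d + 1) →₀ ℕ) ∈ (chartF d A B).support.filter
        (fun α => ∀ β ∈ (chartF d A B).support, wtZ a α ≤ wtZ a β) := by
      rw [Finset.mem_filter, mem_support_iff, coeff_zero_chartF]
      refine ⟨by norm_num, fun β hβ => ?_⟩
      have := ha.2 β hβ
      simpa [wtZ] using this
    rw [← Finset.sum_erase_add _ _ hmem, map_add, mul_add, map_sum, Finset.mul_sum,
      coeff_zero_chartF]
    have h2 : X 0 * pderiv 0 (monomial (0 : Fin (d + 1) →₀ ℕ) (-1 : ℂ)) = 0 := by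
      rw [pderiv_monomial]; simp
    have h3 : monomial (0 : Fin (d + 1) →₀ ℕ) (-1 : ℂ) = -1 := by
      simp
    rw [h2, h3]
    have h4 : ∀ α ∈ ((chartF d A B).support.filter
        (fun α => ∀ β ∈ (chartF d A B).support, wtZ a α ≤ wtZ a β)).erase 0,
        X 0 * pderiv 0 (monomial α (coeff α (chartF d A B))) =
          monomial α (coeff α (chartF d A B)) := by
      intro α hα
      rw [Finset.mem_erase, Finset.mem_filter] at hα
      rcases mem_chartF hα.2.1 with h | ⟨h5, -⟩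
      · exact absurd h hα.1
      · rw [X_mul_pderiv_monomial, h5, one_smul]
    rw [Finset.sum_congr rfl h4]
    ring
  have h2 := congrArg (eval ξ) h1
  rw [map_mul, map_add, h0, eval_X, map_one, zero_add] at h2
  intro h3
  rw [h3, mul_zero] at h2
  exact zero_ne_one h2

end Eqn

theorem b4 (hyp : ChartHyp) (res : ChartRes) : ChartExist := by
  classical
  intro d U _ L _ _ y A B hd hrat hA ω hω0 hω
  obtain ⟨d, rfl⟩ : ∃ e, d = e + 1 := ⟨d - 1, by omega⟩
  have H := hyp (d + 1) U L y A B hrat hA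
  set a : Fin (d + 1 + 1) → ℤ := Fin.cons 0 ω with ha
  have ha0 : a ≠ 0 := by
    intro h
    apply hω0
    funext l
    have h2 := congrFun h l.succ
    simp only [ha, Fin.cons_succ, Pi.zero_apply] at h2
    exact h2
  have hmin : IsMinZ (chartF (d + 1) A B) a 0 := isMin_chart ω hω
  have hreg : RegZ (chartF (d + 1) A B) a := reg_chart a hmin
  have hα : (0 : Fin (d + 1 + 1) →₀ ℕ) ∈ (chartF (d + 1) A B).support := by
    rw [mem_support_iff, coeff_zero_chartF]; norm_num
  have hβ : (Finsupp.single 0 1 : Fin (d + 1 + 1) →₀ ℕ) ∈ (chartF (d + 1) A B).support := by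
    rw [mem_support_iff, coeff_one_chartF]
    exact Finset.prod_ne_zero_iff.2 fun i _ => hA i
  have hαw : wtZ a 0 = 0 := by simp [wtZ]
  have hβw : wtZ a (Finsupp.single 0 1) = 0 := by
    unfold wtZ
    rw [Fin.sum_univ_succ, ha, Fin.cons_zero, zero_mul, zero_add]
    refine Finset.sum_eq_zero fun j _ => ?_
    rw [Finsupp.single_eq_of_ne (Fin.succ_ne_zero j)]
    simp
  have hαβ : (0 : Fin (d + 1 + 1) →₀ ℕ) ≠ Finsupp.single 0 1 := by
    intro h
    have h1 := DFunLike.congr_fun h 0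
    simp at h1
  have HD : DiagData L (chartY y A B) (chartF (d + 1) A B) (⊥ : Subgroup (L ≃ₐ[ℂ] L)) :=
    { gen := H.gen
      ker := H.ker
      f0 := H.f0
      x0 := H.x0
      fin := inferInstance
      diag := by
        intro τ hτ j
        rw [Subgroup.mem_bot] at hτ
        exact ⟨1, by rw [hτ]; simp⟩
      fix := by
        intro z
        refine ⟨fun _ τ hτ => ?_, fun _ => ⟨z, rfl⟩⟩
        rw [Subgroup.mem_bot] at hτ
        rw [hτ]; rfl }
  obtain ⟨c₁, e₀, v', w, hc₁, he₀, hv', hw, hvw, hx, hord⟩ :=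
    psi_valZ HD a hreg ha0 1 one_pos (fun _ _ => by simp) hmin hα hβ hαw hβw hαβ
  have he1 : e₀ = 1 := by
    obtain ⟨t, ht⟩ := hw.normalized
    have ht0 : t ≠ 0 := ne_zero_of_eq w (n := 1) (by simpa using ht)
    have h1 := hvw t
    have h2 : (algebraMap L L t) = t := rfl
    rw [h2, ht, ← coe_ov v' ht0, ← WithTop.coe_nsmul, nsmul_eq_mul] at h1
    have h3 : (1 : ℤ) = e₀ * ov v' t := by exact_mod_cast h1
    have h4 : (e₀ : ℤ) ∣ 1 := ⟨_, h3⟩
    have h5 := Int.eq_one_of_dvd_one (by positivity) h4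
    exact_mod_cast h5
  subst he1
  have hxA : ∀ j, (c₁ : ℤ) * ov w (chartY y A B j) = a j := by
    intro j
    have h1 := hx j
    push_cast at h1
    rw [one_mul, one_mul] at h1
    exact h1
  have hc0 : (0 : ℤ) < c₁ := by exact_mod_cast hc₁
  have hwz : ∀ l, (c₁ : ℤ) * ov w (y l) = ω l := fun l => hxA l.succ
  have hwp : ov w (∏ i, lin y A B i) = 0 := by
    have h1 := hxA 0
    have h2 : chartY y A B 0 = (∏ i, lin y A B i)⁻¹ := rfl
    have h3 : a 0 = 0 := rfl
    rw [h2, h3, ov_inv] at h1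
    rcases mul_eq_zero.1 h1 with h4 | h4
    · omega
    · omega
  have hp0 : ∏ i, lin y A B i ≠ 0 := by
    have h1 := H.x0 0
    have h2 : chartY y A B 0 = (∏ i, lin y A B i)⁻¹ := rfl
    rw [h2] at h1
    exact fun h => h1 (by rw [h, inv_zero])
  have hl0 : ∀ i, lin y A B i ≠ 0 := fun i => Finset.prod_ne_zero_iff.1 hp0 i (Finset.mem_univ i)
  have hy0 : ∀ j, y j ≠ 0 := fun j => H.x0 j.succ
  have hwy0 : ∀ i j, B i j ≠ 0 → 0 ≤ ov w (y j) := by
    intro i j hB
    have h1 : (0 : ℤ) ≤ (c₁ : ℤ) * ov w (y j) := by rw [hwz]; exact hω i j hB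
    exact nonneg_of_mul_nonneg_right h1 hc0
  have hln : ∀ i, 0 ≤ ov w (lin y A B i) := by
    intro i
    have h1 : (0 : WithTop ℤ) ≤ w (lin y A B i) := by
      unfold lin
      refine le_trans (le_min ?_ ?_) (w.map_add _ _)
      · by_cases h : A i = 0
        · rw [h, map_zero, AddValuation.map_zero]; exact le_top
        · rw [hw.const _ h]
      · refine AddValuation.map_le_sum w fun j _ => ?_
        rw [AddValuation.map_mul]
        by_cases h : B i j = 0
        · rw [h, map_zero, AddValuation.map_zero, top_add]; exact le_top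
        · refine add_nonneg ?_ ((nonneg_iff w (hy0 j)).2 (hwy0 i j h))
          rw [hw.const _ h]
    exact (nonneg_iff w (hl0 i)).1 h1
  have hl : ∀ i, ov w (lin y A B i) = 0 := by
    rw [ov_prod _ _ fun i _ => hl0 i] at hwp
    intro i
    exact (Finset.sum_eq_zero_iff_of_nonneg fun i _ => hln i).1 hwp i (Finset.mem_univ i)
  refine ⟨w, hw, c₁, hc₁, hwz, hl, ?_⟩
  intro D' h hh m' hm'
  have hR := res (d + 1) U L y A B hrat hA D' h hh
  have h1 := hord D' _ hR m' hm'
  have hh0 : h ≠ 0 := by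
    rintro rfl
    rw [zero_mul] at hh
    exact zero_ne_one hh
  have h2 : ov w ((∏ i, lin y A B i) * h) = ov w h := by
    rw [ov_mul w hp0 hh0, hwp, zero_add]
  rw [h2] at h1
  have h3 : ∑ j, a j = ∑ l, ω l := by
    rw [Fin.sum_univ_succ]
    simp [ha]
  rw [h3] at h1
  push_cast at h1
  linarith

end Vale.Agent.P283.A647
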