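import Vale.Agent.P283.A647.Props

/-!
Row B5b: the Jacobian determinant of the chart.
-/

set_option linter.all false

namespace Vale.Agent.P283.A647.H279

open Finset

/-- The coefficients of a linear form. -/
noncomputable def rowOf {g R : ℕ} (a : Fin R → Fin (g + 1) → ℂ) (p : Option (Fin R)) :
    Fin (g + 1) → ℂ :=
  p.elim (Pi.single 0 1) a

section

variable {g R k : ℕ} {L : Type} [Field L] [Algebra ℂ L]

theorem form_eq (t : Fin g → L) (a : Fin R → Fin (g + 1) → ℂ) (p : Option (Fin R)) :
    form t a p = ∑ j, algebraMap ℂ L (rowOf a p j) * (Fin.cons 1 t : Fin (g + 1) → L) j := by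
  cases p with
  | none =>
    rw [Fin.sum_univ_succ]
    simp [form, rowOf, Pi.single_apply, Fin.succ_ne_zero]
  | some i => rfl

theorem der_form (t : Fin g → L) (a : Fin R → Fin (g + 1) → ℂ) (p : Option (Fin R))
    (D : Derivation ℂ L L) :
    D (form t a p) = ∑ i, algebraMap ℂ L (rowOf a p (Fin.succ i)) * D (t i) := by
  rw [form_eq, Fin.sum_univ_succ]
  simp only [Fin.cons_zero, Fin.cons_succ, map_add, map_sum, Derivation.leibniz,
    Derivation.map_algebraMap, Derivation.map_one_eq_zero, smul_zero, add_zero, smul_eq_mul,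
    zero_add, mul_zero]

/-- The determinant of a projective change of coordinates. -/
theorem det_proj (A : Matrix (Fin (g + 1)) (Fin (g + 1)) L) (T F : Fin (g + 1) → L)
    (hT : T 0 = 1) (hF : ∀ i, F i = ∑ j, A i j * T j) (h0 : F 0 ≠ 0) :
    (Matrix.of fun j i : Fin g =>
      (F 0 * A (Fin.succ j) (Fin.succ i) - F (Fin.succ j) * A 0 (Fin.succ i)) / F 0 ^ 2).det =
      A.det * (F 0)⁻¹ ^ (g + 1) := by
  classical
  set M : Matrix (Fin g) (Fin g) L := Matrix.of fun j i : Fin g =>
      (F 0 * A (Fin.succ j) (Fin.succ i) - F (Fin.succ j) * A 0 (Fin.succ i)) / F 0 ^ 2 with hM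
  have h1 : (A.updateCol 0 F).det = A.det := by
    have hFT : F = A.mulVec T := by
      funext i
      rw [hF]
      rfl
    rw [← Matrix.cramer_apply, Matrix.cramer_eq_adjugate_mulVec, hFT, Matrix.mulVec_mulVec,
      Matrix.adjugate_mul, Matrix.smul_mulVec, Matrix.one_mulVec, Pi.smul_apply, hT,
      smul_eq_mul, mul_one]
  let c : Fin (g + 1) → L := Fin.cons 0 fun j => F (Fin.succ j) / F 0
  let B : Matrix (Fin (g + 1)) (Fin (g + 1)) L := Matrix.of
    (Fin.cons (A.updateCol 0 F 0) fun j => Fin.cons 0 fun i => F 0 * M j i)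
  have h2 : (A.updateCol 0 F).det = B.det := by
    refine Matrix.det_eq_of_forall_row_eq_smul_add_const c 0 rfl ?_
    intro i j
    refine Fin.cases ?_ (fun i => ?_) i
    · simp [B, c]
    · refine Fin.cases ?_ (fun j => ?_) j
      · simp only [B, c, Matrix.of_apply, Fin.cons_succ, Fin.cons_zero, Matrix.updateCol_self]
        field_simp
        ring
      · simp only [B, c, hM, Matrix.of_apply, Fin.cons_succ, Fin.cons_zero]
        rw [Matrix.updateCol_ne (Fin.succ_ne_zero j), Matrix.updateCol_ne (Fin.succ_ne_zero j)]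
        field_simp
        ring
  have h3 : B.det = F 0 * (F 0 ^ g * M.det) := by
    rw [Matrix.det_succ_column_zero, Fin.sum_univ_succ]
    have h4 : ∀ i : Fin g, (-1) ^ ((Fin.succ i : Fin (g + 1)) : ℕ) * B (Fin.succ i) 0 *
        (B.submatrix (Fin.succ i).succAbove Fin.succ).det = 0 := by
      intro i
      have h5 : B (Fin.succ i) 0 = 0 := rfl
      rw [h5, mul_zero, zero_mul]
    rw [Finset.sum_eq_zero fun i _ => h4 i, add_zero]
    have h5 : B 0 0 = F 0 := by
      simp only [B, Matrix.of_apply, Fin.cons_zero, Matrix.updateCol_self]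
    have h6 : B.submatrix (Fin.succAbove 0) Fin.succ = F 0 • M := by
      ext j i
      rw [Fin.succAbove_zero]
      rfl
    rw [h5, h6, Matrix.det_smul, Fintype.card_fin]
    simp
  rw [h1, h3] at h2
  have h7 : F 0 * F 0 ^ g * (F 0)⁻¹ ^ (g + 1) = 1 := by
    rw [← pow_succ', ← mul_pow, mul_inv_cancel₀ h0, one_pow]
  rw [h2]
  calc M.det = M.det * (F 0 * F 0 ^ g * (F 0)⁻¹ ^ (g + 1)) := by rw [h7, mul_one]
    _ = _ := by ring

theorem form_ne {t : Fin g → L} {a : Fin R → Fin (g + 1) → ℂ} {z : Fin k → L}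
    (hrat : IsRat (Fin.append t z)) {p : Option (Fin R)} (hp : rowOf a p ≠ 0) :
    form t a p ≠ 0 := by
  classical
  intro h
  apply hp
  set P : MvPolynomial (Fin (g + k)) ℂ := MvPolynomial.C (rowOf a p 0) +
    ∑ i : Fin g, MvPolynomial.C (rowOf a p (Fin.succ i)) * MvPolynomial.X (Fin.castAdd k i) with hP
  have h1 : MvPolynomial.aeval (Fin.append t z) P = 0 := by
    rw [hP, map_add, map_sum, MvPolynomial.aeval_C]
    simp only [map_mul, MvPolynomial.aeval_C, MvPolynomial.aeval_X, Fin.append_left]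
    rw [form_eq, Fin.sum_univ_succ] at h
    simpa using h
  have h2 : P = 0 := hrat.ind (by rw [h1, map_zero])
  have h3 : ∀ ξ : Fin (g + k) → ℂ, rowOf a p 0 +
      ∑ i : Fin g, rowOf a p (Fin.succ i) * ξ (Fin.castAdd k i) = 0 := by
    intro ξ
    have h4 := congrArg (MvPolynomial.eval ξ) h2
    rw [hP, map_add, map_sum, map_zero] at h4
    simpa using h4
  have h5 : rowOf a p 0 = 0 := by simpa using h3 0
  funext j
  refine Fin.cases h5 (fun i => ?_) j
  have h6 := h3 (Pi.single (Fin.castAdd k i) 1)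
  rw [h5, zero_add, Finset.sum_eq_single i] at h6
  · simpa using h6
  · intro b _ hb
    rw [Pi.single_eq_of_ne, mul_zero]
    intro h7
    exact hb (Fin.castAdd_injective g k h7)
  · intro h7
    exact absurd (Finset.mem_univ i) h7

end

end Vale.Agent.P283.A647.H279

namespace Vale.Agent.P283.A647

open H279

theorem b5b : ArrJac := by
  classical
  intro g R k L _ _ t a z hrat hgen m e he hem
  have hinj : Function.Injective (Fin.cons m e : Fin (g + 1) → Option (Fin R)) := by
    rw [Fin.cons_injective_iff]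
    exact ⟨fun ⟨j, hj⟩ => hem j hj, he⟩
  have hdet := hgen _ hinj
  set Ac : Matrix (Fin (g + 1)) (Fin (g + 1)) ℂ :=
    Matrix.of fun i => rowOf a ((Fin.cons m e : Fin (g + 1) → Option (Fin R)) i) with hAc
  refine ⟨Ac.det, hdet, fun D' => ?_⟩
  set c : Fin (g + 1) → Option (Fin R) := Fin.cons m e with hc
  set F : Fin (g + 1) → L := fun i => form t a (c i) with hF
  set A : Matrix (Fin (g + 1)) (Fin (g + 1)) L := (algebraMap ℂ L).mapMatrix Ac with hA
  have hA' : ∀ i j, A i j = algebraMap ℂ L (rowOf a (c i) j) := fun i j => rfl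
  have hFA : ∀ i, F i = ∑ j, A i j * (Fin.cons 1 t : Fin (g + 1) → L) j := fun i => form_eq t a _
  have hrow : rowOf a m ≠ 0 := by
    intro h
    apply hdet
    exact Matrix.det_eq_zero_of_row_eq_zero 0 fun j => congrFun h j
  have h0 : F 0 ≠ 0 := form_ne hrat hrow
  have hproj := det_proj A (Fin.cons 1 t) F rfl hFA h0
  set M : Matrix (Fin g) (Fin g) L := Matrix.of fun j i : Fin g =>
      (F 0 * A (Fin.succ j) (Fin.succ i) - F (Fin.succ j) * A 0 (Fin.succ i)) / F 0 ^ 2 with hM
  have hder : ∀ (D : Derivation ℂ L L) (j : Fin g), D (form t a (e j) / form t a m) =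
      ∑ i, M j i * D (t i) := by
    intro D j
    have h1 : form t a (e j) = F (Fin.succ j) := rfl
    have h2 : form t a m = F 0 := rfl
    rw [Derivation.leibniz_div, der_form, der_form, h1, h2, smul_eq_mul, smul_eq_mul, smul_eq_mul,
      Finset.mul_sum, Finset.mul_sum, ← Finset.sum_sub_distrib, Finset.mul_sum]
    refine Finset.sum_congr rfl fun i _ => ?_
    have h3 : M j i = (F 0 * A (Fin.succ j) (Fin.succ i) - F (Fin.succ j) * A 0 (Fin.succ i)) /
      F 0 ^ 2 := rfl
    have h4 : A (Fin.succ j) (Fin.succ i) = algebraMap ℂ L (rowOf a (e j) (Fin.succ i)) := rfl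
    have h5 : A 0 (Fin.succ i) = algebraMap ℂ L (rowOf a m (Fin.succ i)) := rfl
    rw [h3, h4, h5, div_eq_mul_inv]
    ring
  have hmul : (Matrix.of fun i j => D' j (arrY t a z m e i)) =
      (Matrix.reindex finSumFinEquiv finSumFinEquiv (Matrix.fromBlocks M 0 0 1)) *
        (Matrix.of fun i j => D' j ((Fin.append t z : Fin (g + k) → L) i)) := by
    ext i x
    rw [Matrix.mul_apply, Fin.sum_univ_add]
    refine Fin.addCases (fun j => ?_) (fun l => ?_) i
    · simp only [Matrix.of_apply, Matrix.reindex_apply, Matrix.submatrix_apply,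
        finSumFinEquiv_symm_apply_castAdd, finSumFinEquiv_symm_apply_natAdd,
        Matrix.fromBlocks_apply₁₁, Matrix.fromBlocks_apply₁₂, Matrix.zero_apply, zero_mul,
        Finset.sum_const_zero, add_zero, Fin.append_left, arrY]
      exact hder _ _
    · simp only [Matrix.of_apply, Matrix.reindex_apply, Matrix.submatrix_apply,
        finSumFinEquiv_symm_apply_castAdd, finSumFinEquiv_symm_apply_natAdd,
        Matrix.fromBlocks_apply₂₁, Matrix.fromBlocks_apply₂₂, Matrix.zero_apply, zero_mul,
        Finset.sum_const_zero, zero_add, Fin.append_right, arrY, Matrix.one_apply, ite_mul,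
        one_mul, Finset.sum_ite_eq, Finset.mem_univ, if_true]
  have hAdet : A.det = algebraMap ℂ L Ac.det := by
    rw [hA, ← RingHom.map_det]
  have h2 : form t a m = F 0 := rfl
  unfold Q.jac
  rw [hmul, Matrix.det_mul, Matrix.det_reindex_self, Matrix.det_fromBlocks_zero₂₁, Matrix.det_one,
    mul_one, hproj, hAdet, h2]

end Vale.Agent.P283.A647
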