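import Vale.Agent.P283.A647.B6

/-!
B5c. The other linear forms in the chart.
-/

set_option linter.all false

namespace Vale.Agent.P283.A647

open MvPolynomial

namespace B5c

open B6

section

variable {L : Type} [Field L] [Algebra ℂ L] {g R k : ℕ} {t : Fin g → L}
  {a : Fin R → Fin (g + 1) → ℂ} {z : Fin k → L}

theorem der_row {δ : Derivation ℚ ℂ ℂ} (hδ : ∀ i j, δ (a i j) = 0) (p : Option (Fin R))
    (j : Fin (g + 1)) : δ (row a p j) = 0 := by
  cases p with
  | none =>
    show δ ((Pi.single 0 1 : Fin (g + 1) → ℂ) j) = 0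
    by_cases hj : j = 0
    · subst hj
      rw [Pi.single_eq_same]
      exact δ.map_one_eq_zero
    · rw [Pi.single_eq_of_ne hj]
      exact map_zero δ
  | some i => exact hδ i j

theorem der_inv {n : ℕ} {M : Matrix (Fin n) (Fin n) ℂ} (hM : IsUnit M.det)
    {δ : Derivation ℚ ℂ ℂ} (h : ∀ i j, δ (M i j) = 0) (i j : Fin n) : δ (M⁻¹ i j) = 0 := by
  have h1 : M * (Matrix.of fun i j => δ (M⁻¹ i j)) = 0 := by
    ext i j
    have h2 : (M * M⁻¹) i j = (1 : Matrix (Fin n) (Fin n) ℂ) i j := by
      rw [Matrix.mul_nonsing_inv _ hM]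
    have h3 := congrArg δ h2
    have h4 : δ ((1 : Matrix (Fin n) (Fin n) ℂ) i j) = 0 := by
      rw [Matrix.one_apply]
      split_ifs
      · exact δ.map_one_eq_zero
      · exact map_zero δ
    rw [h4, Matrix.mul_apply, map_sum] at h3
    simp only [Derivation.leibniz, h, smul_eq_mul, mul_zero, add_zero] at h3
    rw [Matrix.mul_apply]
    exact h3
  have h2 : (Matrix.of fun i j => δ (M⁻¹ i j)) = (0 : Matrix (Fin n) (Fin n) ℂ) := by
    calc (Matrix.of fun i j => δ (M⁻¹ i j))
        = M⁻¹ * (M * (Matrix.of fun i j => δ (M⁻¹ i j))) := by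
          rw [← Matrix.mul_assoc, Matrix.nonsing_inv_mul _ hM, Matrix.one_mul]
      _ = 0 := by rw [h1, Matrix.mul_zero]
  exact congrFun (congrFun h2 i) j

/-- The matrix of the chart. -/
def mat (a : Fin R → Fin (g + 1) → ℂ) (m : Option (Fin R)) (e : Fin g → Option (Fin R)) :
    Matrix (Fin (g + 1)) (Fin (g + 1)) ℂ :=
  Matrix.of fun i => row a ((Fin.cons m e : Fin (g + 1) → Option (Fin R)) i)

/-- The coefficients of a form in the chart. -/
noncomputable def cf (a : Fin R → Fin (g + 1) → ℂ) (m : Option (Fin R))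
    (e : Fin g → Option (Fin R)) (p : Option (Fin R)) : Fin (g + 1) → ℂ :=
  Matrix.vecMul (row a p) (mat a m e)⁻¹

variable {m : Option (Fin R)} {e : Fin g → Option (Fin R)}

theorem cons_inj (he : Function.Injective e) {p : Option (Fin R)} (hp : ∀ j, e j ≠ p) :
    Function.Injective (Fin.cons p e : Fin (g + 1) → Option (Fin R)) :=
  Fin.cons_injective_iff.2 ⟨fun ⟨j, hj⟩ => hp j hj, he⟩

theorem mat_unit (hgen : GenPos a) (he : Function.Injective e) {p : Option (Fin R)}
    (hp : ∀ j, e j ≠ p) : IsUnit (mat a p e).det :=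
  isUnit_iff_ne_zero.2 (hgen _ (cons_inj he hp))

theorem form_cf (hM : IsUnit (mat a m e).det) (p : Option (Fin R)) :
    form t a p = algebraMap ℂ L (cf a m e p 0) * form t a m +
      ∑ j, algebraMap ℂ L (cf a m e p (Fin.succ j)) * form t a (e j) := by
  have h1 : Matrix.vecMul (cf a m e p) (mat a m e) = row a p := by
    unfold cf
    rw [Matrix.vecMul_vecMul, Matrix.nonsing_inv_mul _ hM, Matrix.vecMul_one]
  have h2 : ∀ j, row a p j = ∑ i, cf a m e p i * mat a m e i j := by
    intro j
    conv_lhs => rw [← h1]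
    rfl
  have h3 : form t a p = ∑ i, algebraMap ℂ L (cf a m e p i) *
      form t a ((Fin.cons m e : Fin (g + 1) → Option (Fin R)) i) := by
    rw [form_row]
    have h4 : ∀ i, form t a ((Fin.cons m e : Fin (g + 1) → Option (Fin R)) i) =
        ∑ j, algebraMap ℂ L (mat a m e i j) * (Fin.cons 1 t : Fin (g + 1) → L) j := fun i =>
      form_row _
    simp only [h4, Finset.mul_sum]
    rw [Finset.sum_comm]
    refine Finset.sum_congr rfl fun j _ => ?_
    rw [h2 j, map_sum, Finset.sum_mul]
    refine Finset.sum_congr rfl fun i _ => ?_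
    rw [map_mul]
    ring
  rw [h3, Fin.sum_univ_succ]
  rfl

theorem cf_ne (hgen : GenPos a) (he : Function.Injective e) (hem : ∀ j, e j ≠ m)
    {p : Option (Fin R)} (hp : ∀ j, e j ≠ p) : cf a m e p 0 ≠ 0 := by
  intro h0
  have hM := mat_unit hgen he hem
  have hN := mat_unit hgen he hp
  have h1 : (mat a p e * (mat a m e)⁻¹).det = 0 := by
    refine Matrix.det_eq_zero_of_column_eq_zero 0 fun i => ?_
    refine Fin.cases ?_ (fun j => ?_) i
    · exact h0
    · have h2 : (mat a p e * (mat a m e)⁻¹) j.succ 0 = (mat a m e * (mat a m e)⁻¹) j.succ 0 := by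
        rw [Matrix.mul_apply, Matrix.mul_apply]
        rfl
      rw [h2, Matrix.mul_nonsing_inv _ hM]
      exact Matrix.one_apply_ne (Fin.succ_ne_zero j)
  rw [Matrix.det_mul] at h1
  rcases mul_eq_zero.1 h1 with h2 | h2
  · exact hN.ne_zero h2
  · have h3 : (mat a m e)⁻¹.det * (mat a m e).det = 1 := by
      rw [← Matrix.det_mul, Matrix.nonsing_inv_mul _ hM, Matrix.det_one]
    rw [h2, zero_mul] at h3
    exact zero_ne_one h3

theorem der_cf (hM : IsUnit (mat a m e).det) {δ : Derivation ℚ ℂ ℂ}
    (hδ : ∀ i j, δ (a i j) = 0) (p : Option (Fin R)) (j : Fin (g + 1)) :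
    δ (cf a m e p j) = 0 := by
  show δ (∑ l, row a p l * (mat a m e)⁻¹ l j) = 0
  rw [map_sum]
  refine Finset.sum_eq_zero fun l _ => ?_
  rw [Derivation.leibniz, der_row hδ, der_inv hM (fun i j => der_row hδ _ _)]
  simp

end

end B5c

open B5c B6 in
theorem b5c : ArrLin := by
  classical
  intro g R k L _ _ t a z hrat hgen m e he hem
  have hM := mat_unit hgen he hem
  have hgR : g ≤ R := by
    have h1 := Fintype.card_le_of_injective _ (cons_inj he hem)
    rw [Fintype.card_option, Fintype.card_fin, Fintype.card_fin] at h1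
    omega
  have hm : form t a m ≠ 0 := form_ne hrat hgR hgen m
  refine ⟨fun p => if ∃ j, e j = p then 1 else cf a m e p 0,
    fun p => if ∃ j, e j = p then 0 else Fin.append (fun j => cf a m e p j.succ) 0,
    fun p => ?_, fun p hp => ?_, fun p hp => ?_, fun p l => ?_, fun δ hδ => ⟨fun p => ?_,
      fun p j => ?_⟩⟩
  · by_cases h : ∃ j, e j = p
    · simp only [if_pos h]
      exact one_ne_zero
    · simp only [if_neg h]
      exact cf_ne hgen he hem fun j hj => h ⟨j, hj⟩
  · have h : ¬ ∃ j, e j = p := fun ⟨j, hj⟩ => hp j hj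
    unfold lin
    simp only [if_neg h]
    rw [Fin.sum_univ_add]
    have h2 : ∑ i : Fin k, algebraMap ℂ L
        ((Fin.append (fun j => cf a m e p j.succ) (0 : Fin k → ℂ)) (Fin.natAdd g i)) *
          arrY t a z m e (Fin.natAdd g i) = 0 := by
      refine Finset.sum_eq_zero fun i _ => ?_
      rw [Fin.append_right]
      simp
    rw [h2, add_zero, form_cf (t := t) hM p, add_div, mul_div_cancel_right₀ _ hm, Finset.sum_div]
    congr 1
    refine Finset.sum_congr rfl fun j _ => ?_
    unfold arrY
    rw [Fin.append_left, Fin.append_left, mul_div_assoc]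
  · unfold lin
    simp only [if_pos hp]
    simp
  · by_cases h : ∃ j, e j = p
    · simp only [if_pos h]
      rfl
    · simp only [if_neg h]
      rw [Fin.append_right]
      rfl
  · by_cases h : ∃ j, e j = p
    · simp only [if_pos h]
      exact δ.map_one_eq_zero
    · simp only [if_neg h]
      exact der_cf hM hδ p 0
  · by_cases h : ∃ j, e j = p
    · simp only [if_pos h]
      exact map_zero δ
    · simp only [if_neg h]
      refine Fin.addCases (fun i => ?_) (fun i => ?_) j
      · rw [Fin.append_left]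
        exact der_cf hM hδ p _
      · rw [Fin.append_right]
        exact map_zero δ

end Vale.Agent.P283.A647
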