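import Vale.Agent.P283.A647.Props

/-!
B6. The weights of a valuation.
-/

set_option linter.all false

namespace Vale.Agent.P283.A647

open MvPolynomial

namespace B6

section

variable {L : Type} [Field L] [Algebra ℂ L] {g R k : ℕ} {t : Fin g → L}
  {a : Fin R → Fin (g + 1) → ℂ} {z : Fin k → L}

/-- The coefficients of a form. -/
def row (a : Fin R → Fin (g + 1) → ℂ) (p : Option (Fin R)) : Fin (g + 1) → ℂ :=
  p.elim (Pi.single 0 1) a

theorem form_row (p : Option (Fin R)) :
    form t a p = ∑ j, algebraMap ℂ L (row a p j) * (Fin.cons 1 t : Fin (g + 1) → L) j := by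
  cases p with
  | none =>
    show (1 : L) = _
    rw [Fin.sum_univ_succ]
    simp [row]
  | some i => rfl

theorem form_zero (h : IsRat (Fin.append t z)) {v : Fin (g + 1) → ℂ}
    (h0 : ∑ j, algebraMap ℂ L (v j) * (Fin.cons 1 t : Fin (g + 1) → L) j = 0) : v = 0 := by
  classical
  set P : MvPolynomial (Fin (g + k)) ℂ :=
    C (v 0) + ∑ j : Fin g, C (v j.succ) * X (Fin.castAdd k j) with hP
  have h1 : aeval (Fin.append t z) P = 0 := by
    rw [hP]
    simp only [map_add, map_sum, map_mul, algHom_C, aeval_X, Fin.append_left]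
    rw [Fin.sum_univ_succ] at h0
    simpa using h0
  have h2 : P = 0 := h.ind (by rw [h1, map_zero])
  have hc0 : v 0 = 0 := by
    have h3 := congrArg (coeff 0) h2
    rw [hP, coeff_add, coeff_sum] at h3
    simpa [coeff_C_mul, coeff_zero_X] using h3
  have hcs : ∀ j : Fin g, v j.succ = 0 := by
    intro j
    have h3 := congrArg (coeff (Finsupp.single (Fin.castAdd k j) 1)) h2
    rw [hP, coeff_add, coeff_sum, coeff_zero] at h3
    rw [coeff_C, if_neg (by
      intro hh
      have := congrArg (fun f => f (Fin.castAdd k j)) hh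
      simp at this), zero_add, Finset.sum_eq_single j] at h3
    · rw [coeff_C_mul, coeff_X, if_pos rfl, mul_one] at h3
      exact h3
    · intro i _ hij
      rw [coeff_C_mul, coeff_X', if_neg, mul_zero]
      intro hh
      have h4 := congrArg (fun f => f (Fin.castAdd k j)) hh
      simp only [Finsupp.single_eq_same] at h4
      rw [Finsupp.single_apply, if_neg] at h4
      · omega
      · intro h5
        exact hij (Fin.castAdd_injective g k h5)
    · simp
  funext j
  refine Fin.cases hc0 hcs j

theorem row_ne (hgR : g ≤ R) (hgen : GenPos a) (p : Option (Fin R)) : row a p ≠ 0 := by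
  classical
  have hcard : (Finset.univ : Finset (Option (Fin R))).card = R + 1 := by
    rw [Finset.card_univ, Fintype.card_option, Fintype.card_fin]
  obtain ⟨I, hpI, -, hIc⟩ := Finset.exists_subsuperset_card_eq (Finset.subset_univ {p})
    (n := g + 1) (by rw [Finset.card_singleton]; omega) (by rw [hcard]; omega)
  have hp : p ∈ I := hpI (Finset.mem_singleton_self p)
  intro h0
  refine hgen (fun j => (I.equivFinOfCardEq hIc).symm j) ?_ ?_
  · intro j j' h
    exact (I.equivFinOfCardEq hIc).symm.injective (Subtype.ext h)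
  · refine Matrix.det_eq_zero_of_row_eq_zero (I.equivFinOfCardEq hIc ⟨p, hp⟩) fun j => ?_
    show row a ((I.equivFinOfCardEq hIc).symm (I.equivFinOfCardEq hIc ⟨p, hp⟩)) j = 0
    rw [Equiv.symm_apply_apply, h0]
    rfl

theorem form_ne (h : IsRat (Fin.append t z)) (hgR : g ≤ R) (hgen : GenPos a)
    (p : Option (Fin R)) : form t a p ≠ 0 := by
  intro h0
  rw [form_row] at h0
  exact row_ne hgR hgen p (form_zero h h0)

/-- A form is a combination of `g + 1` others. -/
theorem form_comb (hgen : GenPos a) {e : Fin (g + 1) → Option (Fin R)}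
    (he : Function.Injective e) (m : Option (Fin R)) : ∃ c : Fin (g + 1) → ℂ,
    form t a m = ∑ i, algebraMap ℂ L (c i) * form t a (e i) := by
  classical
  set M : Matrix (Fin (g + 1)) (Fin (g + 1)) ℂ := Matrix.of fun i => row a (e i) with hM
  have hdet : IsUnit M.det := isUnit_iff_ne_zero.2 (hgen e he)
  refine ⟨Matrix.vecMul (row a m) M⁻¹, ?_⟩
  have h1 : Matrix.vecMul (Matrix.vecMul (row a m) M⁻¹) M = row a m := by
    rw [Matrix.vecMul_vecMul, Matrix.nonsing_inv_mul _ hdet, Matrix.vecMul_one]
  have h2 : ∀ j, row a m j = ∑ i, Matrix.vecMul (row a m) M⁻¹ i * row a (e i) j := by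
    intro j
    conv_lhs => rw [← h1]
    rfl
  rw [form_row]
  simp only [form_row (t := t) (a := a) (e _), Finset.mul_sum]
  rw [Finset.sum_comm]
  refine Finset.sum_congr rfl fun j _ => ?_
  rw [h2 j, map_sum, Finset.sum_mul]
  refine Finset.sum_congr rfl fun i _ => ?_
  rw [map_mul]
  ring

theorem wt_wts (w : AddValuation L (WithTop ℤ)) (p : Option (Fin R)) :
    wt (wts w t a z) p = ov w (form t a p) := by
  cases p with
  | none => show (0 : ℤ) = ov w 1; rw [ov_one]
  | some i => rfl

end

end B6

open B6 in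
theorem b6 : WtsTrop := by
  classical
  intro g R k L _ _ t a z hgR hrat hgen w hw
  set α := wts w t a z with hα
  refine ⟨Finset.univ.filter fun p => wt α p ≠ low α, ?_, fun p hp => ?_⟩
  swap
  · by_contra h
    exact hp (by simp [h])
  by_contra hcard
  push Not at hcard
  obtain ⟨I, hI, hIc⟩ := Finset.exists_subset_card_eq (Nat.succ_le_of_lt hcard)
  obtain ⟨m, hm⟩ : ∃ m, wt α m = low α := exists_eq_ciInf_of_finite (f := wt α)
  obtain ⟨c, hc⟩ := form_comb (t := t) hgen (e := fun j => (I.equivFinOfCardEq hIc).symm j)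
    (fun j j' h => (I.equivFinOfCardEq hIc).symm.injective (Subtype.ext h)) m
  have hlow : ∀ p, low α ≤ wt α p := fun p => ciInf_le (Set.finite_range _).bddBelow p
  have h1 : ((low α : ℤ) : WithTop ℤ) < w (form t a m) := by
    rw [hc]
    refine AddValuation.map_lt_sum _ (WithTop.coe_ne_top) fun i _ => ?_
    have hmem : ((I.equivFinOfCardEq hIc).symm i : Option (Fin R)) ∈
        Finset.univ.filter fun p => wt α p ≠ low α := hI ((I.equivFinOfCardEq hIc).symm i).2
    have h2 : low α < wt α ((I.equivFinOfCardEq hIc).symm i) :=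
      lt_of_le_of_ne (hlow _) (Finset.mem_filter.1 hmem).2.symm
    rw [AddValuation.map_mul]
    by_cases hci : c i = 0
    · rw [hci, map_zero, AddValuation.map_zero, top_add]
      exact WithTop.coe_lt_top _
    · rw [hw _ hci, zero_add, ← coe_ov w (form_ne hrat hgR hgen _)]
      rw [hα, wt_wts] at h2
      exact_mod_cast h2
  rw [← coe_ov w (form_ne hrat hgR hgen m), ← wt_wts (z := z), ← hα, hm] at h1
  exact lt_irrefl _ h1

end Vale.Agent.P283.A647
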