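import Vale.Agent.P283.A647.Props
import Vale.Agent.P283.H647.Gen

/-!
B7. Generic functions with given exponents.
-/

set_option linter.all false

namespace Vale.Agent.P283.A647

open MvPolynomial

namespace B7

theorem prod_zpow_sum' {L ι : Type} [Field L] (s : Finset ι) {x : L} (hx : x ≠ 0) (f : ι → ℤ) :
    ∏ i ∈ s, x ^ f i = x ^ ∑ i ∈ s, f i := by
  classical
  induction s using Finset.induction_on with
  | empty => simp
  | insert i s hi ih => rw [Finset.prod_insert hi, Finset.sum_insert hi, ih, zpow_add₀ hx]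

/-- Hyperplanes for a chart. -/
theorem exists_enum {g R : ℕ} (hgR : g ≤ R) (I₀ : Finset (Option (Fin R))) (hI : I₀.card ≤ g) :
    ∃ (m : Option (Fin R)) (e : Fin g → Option (Fin R)), Function.Injective e ∧
      (∀ j, e j ≠ m) ∧ ∀ p ∈ I₀, ∃ j, e j = p := by
  classical
  have hcard : (Finset.univ : Finset (Option (Fin R))).card = R + 1 := by
    rw [Finset.card_univ, Fintype.card_option, Fintype.card_fin]
  obtain ⟨I, hII, -, hIc⟩ := Finset.exists_subsuperset_card_eq (Finset.subset_univ I₀) hI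
    (by rw [hcard]; omega)
  obtain ⟨m, hm⟩ : ∃ m, m ∉ I := by
    by_contra hcon
    push Not at hcon
    have h1 : I = Finset.univ := Finset.eq_univ_iff_forall.2 hcon
    rw [h1, hcard] at hIc
    omega
  refine ⟨m, fun j => (I.equivFinOfCardEq hIc).symm j, ?_, ?_, ?_⟩
  · intro j j' h
    exact (I.equivFinOfCardEq hIc).symm.injective (Subtype.ext h)
  · intro j h
    exact hm (h ▸ ((I.equivFinOfCardEq hIc).symm j).2)
  · intro p hp
    exact ⟨I.equivFinOfCardEq hIc ⟨p, hII hp⟩, by simp⟩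

section

variable {L : Type} [Field L] [Algebra ℂ L] {g R k : ℕ} {t : Fin g → L}
  {a : Fin R → Fin (g + 1) → ℂ} {z : Fin k → L}

theorem rat_ne {d : ℕ} {y : Fin d → L} (h : IsRat y) (j : Fin d) : y j ≠ 0 := h.ind.ne_zero j

theorem form_none : form t a none = 1 := rfl

theorem form_some (i : Fin R) : form t a (some i) = coord t a z (Sum.inl i) := rfl

theorem z_ne (h : IsRat (Fin.append t z)) (l : Fin k) : z l ≠ 0 := by
  have := rat_ne h (Fin.natAdd g l)
  rwa [Fin.append_right] at this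

theorem form_ne (ha : ArrRat) (h : IsRat (Fin.append t z)) (hg : 0 < g) (hgR : g ≤ R)
    (hgen : GenPos a) (p : Option (Fin R)) : form t a p ≠ 0 := by
  classical
  obtain ⟨m, e, he, hem, hp⟩ := exists_enum hgR {p} (by rw [Finset.card_singleton]; omega)
  obtain ⟨j, hj⟩ := hp p (by simp)
  have h1 := rat_ne (ha g R k L t a z h hgen m e he hem) (Fin.castAdd k j)
  unfold arrY at h1
  rw [Fin.append_left, hj] at h1
  intro h0
  rw [h0, zero_div] at h1
  exact h1 rfl

/-- The exponents of the forms, of sum `0`. -/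
def gh (γ : Fin R ⊕ Fin k → ℤ) (p : Option (Fin R)) : ℤ :=
  p.elim (-∑ i, γ (Sum.inl i)) fun i => γ (Sum.inl i)

theorem sum_option {M : Type} [AddCommMonoid M] (f : Option (Fin R) → M) :
    ∑ p, f p = f none + ∑ i, f (some i) := Fintype.sum_option f

theorem gh_sum (γ : Fin R ⊕ Fin k → ℤ) : ∑ p, gh γ p = 0 := by
  rw [sum_option]
  show -∑ i, γ (Sum.inl i) + ∑ i, γ (Sum.inl i) = 0
  ring

/-- The exponents in the chart. -/
def phB (e : Fin g → Option (Fin R)) (γ : Fin R ⊕ Fin k → ℤ) :
    (Option (Fin R) → ℤ) × (Fin (g + k) → ℤ) :=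
  (gh γ, Fin.append (fun j => gh γ (e j)) fun l => γ (Sum.inr l))

/-- The inverse of `phB`. -/
def bkB (E : (Option (Fin R) → ℤ) × (Fin (g + k) → ℤ)) : Fin R ⊕ Fin k → ℤ :=
  Sum.elim (fun i => E.1 (some i)) fun l => E.2 (Fin.natAdd g l)

theorem bk_phB (e : Fin g → Option (Fin R)) (γ : Fin R ⊕ Fin k → ℤ) :
    bkB (phB e γ) = γ := by
  funext x
  cases x with
  | inl i => rfl
  | inr l =>
    show (Fin.append (fun j => gh γ (e j)) fun l => γ (Sum.inr l)) (Fin.natAdd g l) = _
    rw [Fin.append_right]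

theorem phB_inj (e : Fin g → Option (Fin R)) :
    Function.Injective (phB e : (Fin R ⊕ Fin k → ℤ) → _) := by
  intro γ γ' h
  rw [← bk_phB e γ, ← bk_phB e γ', h]

variable {m : Option (Fin R)} {e : Fin g → Option (Fin R)} {A : Option (Fin R) → ℂ}
  {B : Option (Fin R) → Fin (g + k) → ℂ}

theorem term_phB (hf : ∀ p, form t a p ≠ 0) (he : Function.Injective e)
    (hl1 : ∀ p, (∀ j, e j ≠ p) → lin (arrY t a z m e) A B p = form t a p / form t a m)
    (hl2 : ∀ p, (∃ j, e j = p) → lin (arrY t a z m e) A B p = 1) (γ : Fin R ⊕ Fin k → ℤ) :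
    term (arrY t a z m e) A B (phB e γ) = ∏ x, coord t a z x ^ γ x := by
  classical
  have h1 : ∏ x, coord t a z x ^ γ x = (∏ p, form t a p ^ gh γ p) * ∏ l, z l ^ γ (Sum.inr l) := by
    rw [Fintype.prod_sum_type]
    congr 1
    rw [Fintype.prod_option]
    show _ = (1 : L) ^ _ * _
    rw [one_zpow, one_mul]
    rfl
  have h2 : ∏ p, form t a p ^ gh γ p = ∏ p, (form t a p / form t a m) ^ gh γ p := by
    have h3 : ∏ p, (form t a p / form t a m) ^ gh γ p =
        (∏ p, form t a p ^ gh γ p) * ∏ p, ((form t a m)⁻¹) ^ gh γ p := by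
      rw [← Finset.prod_mul_distrib]
      exact Finset.prod_congr rfl fun p _ => by rw [div_eq_mul_inv, mul_zpow]
    rw [h3, prod_zpow_sum' _ (inv_ne_zero (hf m)), gh_sum, zpow_zero, mul_one]
  have h4 : ∏ p, (form t a p / form t a m) ^ gh γ p =
      (∏ p, lin (arrY t a z m e) A B p ^ gh γ p) *
        ∏ j, (form t a (e j) / form t a m) ^ gh γ (e j) := by
    have h5 : ∏ j, (form t a (e j) / form t a m) ^ gh γ (e j) =
        ∏ p, if p ∈ Finset.univ.image e then (form t a p / form t a m) ^ gh γ p else 1 := by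
      rw [Finset.prod_ite_mem, Finset.univ_inter, Finset.prod_image fun j _ j' _ h => he h]
    rw [h5, ← Finset.prod_mul_distrib]
    refine Finset.prod_congr rfl fun p _ => ?_
    by_cases hp : ∃ j, e j = p
    · rw [hl2 p hp, one_zpow, one_mul, if_pos]
      obtain ⟨j, rfl⟩ := hp
      exact Finset.mem_image_of_mem _ (Finset.mem_univ _)
    · rw [hl1 p fun j hj => hp ⟨j, hj⟩, if_neg, mul_one]
      intro hm
      obtain ⟨j, -, hj⟩ := Finset.mem_image.1 hm
      exact hp ⟨j, hj⟩
  rw [h1, h2, h4]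
  unfold term
  rw [Fin.prod_univ_add, mul_assoc]
  congr 2
  · refine Finset.prod_congr rfl fun j _ => ?_
    show (arrY t a z m e (Fin.castAdd k j)) ^
      ((Fin.append (fun j => gh γ (e j)) fun l => γ (Sum.inr l)) (Fin.castAdd k j)) = _
    unfold arrY
    rw [Fin.append_left, Fin.append_left]
  · refine Finset.prod_congr rfl fun l _ => ?_
    show (arrY t a z m e (Fin.natAdd g l)) ^
      ((Fin.append (fun j => gh γ (e j)) fun l => γ (Sum.inr l)) (Fin.natAdd g l)) = _
    unfold arrY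
    rw [Fin.append_right, Fin.append_right]

theorem coord_ne (hf : ∀ p, form t a p ≠ 0) (hz : ∀ l, z l ≠ 0) (x : Fin R ⊕ Fin k) :
    coord t a z x ≠ 0 := by
  cases x with
  | inl j => exact hf (some j)
  | inr l => exact hz l

/-- The least weight. -/
theorem low_le (α : Fin R ⊕ Fin k → ℤ) (p : Option (Fin R)) : low α ≤ wt α p :=
  ciInf_le (Set.finite_range _).bddBelow p

theorem wt_wts (w : AddValuation L (WithTop ℤ)) (p : Option (Fin R)) :
    wt (wts w t a z) p = ov w (form t a p) := by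
  cases p with
  | none => show (0 : ℤ) = ov w 1; rw [ov_one]
  | some i => rfl

theorem sum_range (he : Function.Injective e) {f : Option (Fin R) → ℤ}
    (h0 : ∀ p, (∀ j, e j ≠ p) → f p = 0) : ∑ p, f p = ∑ j, f (e j) := by
  classical
  rw [← Finset.sum_image (f := f) (s := Finset.univ) (g := e) fun j _ j' _ h => he h]
  symm
  refine Finset.sum_subset (Finset.subset_univ _) fun p _ hp => h0 p fun j hj => hp ?_
  rw [← hj]
  exact Finset.mem_image_of_mem _ (Finset.mem_univ _)

end

end B7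

open B7 in
theorem b7 (hB : ChartBound) (ha : ArrRat) (hj : ArrJac) (hl : ArrLin) (hw : WtsTrop) :
    GenericF := by
  classical
  intro g R k L _ _ t a z hg hgR hrat hgen Ee hEe
  have hf : ∀ p, form t a p ≠ 0 := form_ne ha hrat hg hgR hgen
  have hz : ∀ l, z l ≠ 0 := z_ne hrat
  obtain ⟨c, hc⟩ := H647.gen_coeffs (Finset.univ.image fun x : Fin R × Fin (g + 1) => a x.1 x.2)
    Ee
  obtain ⟨c', hc'⟩ : ∃ c' : (Fin R ⊕ Fin k → ℤ) → ℂ,
      ∀ γ (h : γ ∈ Ee), c' γ = c ⟨γ, h⟩ :=
    ⟨fun γ => if h : γ ∈ Ee then c ⟨γ, h⟩ else 0, fun γ h => by simp [h]⟩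
  have hder : ∀ γ₀ ∈ Ee, ∃ δ : Derivation ℚ ℂ ℂ, (∀ i j, δ (a i j) = 0) ∧ δ (c' γ₀) = 1 ∧
      ∀ γ ∈ Ee, γ ≠ γ₀ → δ (c' γ) = 0 := by
    intro γ₀ hγ₀
    obtain ⟨δ, h1, h2, h3⟩ := hc ⟨γ₀, hγ₀⟩
    refine ⟨δ, fun i j => h1 _ (Finset.mem_image_of_mem
      (fun x : Fin R × Fin (g + 1) => a x.1 x.2) (Finset.mem_univ (i, j))), ?_, ?_⟩
    · rw [hc' _ hγ₀]; exact h2
    · intro γ hγ hne
      rw [hc' _ hγ]
      exact h3 ⟨γ, hγ⟩ fun h => hne (congrArg Subtype.val h)
  have hc0 : ∀ γ ∈ Ee, c' γ ≠ 0 := by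
    intro γ hγ h0
    obtain ⟨δ, -, h2, -⟩ := hder γ hγ
    rw [h0, map_zero] at h2
    exact zero_ne_one h2
  set F : L := ∑ γ ∈ Ee, algebraMap ℂ L (c' γ) * ∏ x, coord t a z x ^ γ x with hFdef
  -- every chart
  have key : ∀ (m : Option (Fin R)) (e : Fin g → Option (Fin R)), Function.Injective e →
      (∀ j, e j ≠ m) → F ≠ 0 ∧
      ∀ w : AddValuation L (WithTop ℤ), Q.IsDivisorial (g + k) w →
      (∀ j, ov w (form t a m) ≤ ov w (form t a (e j))) →
      (∀ p, (∀ j, e j ≠ p) → ov w (form t a p) = ov w (form t a m)) →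
      ∀ (D' : Fin (g + k) → Derivation ℂ L L) (h : L), h * Q.jac D' (Fin.append t z) = 1 →
      ∀ m' : ℤ, Q.FormOrder w D' m' → ∀ γ₀ ∈ Ee,
      (∀ γ ∈ Ee, twt w (arrY t a z m e) (phB e γ₀) ≤ twt w (arrY t a z m e) (phB e γ)) →
      ov w h + (g + 1) * ov w (form t a m) + ∑ j, ov w (arrY t a z m e j) +
        (ov w F - twt w (arrY t a z m e) (phB e γ₀)) ≤ 1 + m' := by
    intro m e he hem
    obtain ⟨A, B, hA, hl1, hl2, hB0, hδ⟩ := hl g R k L t a z hrat hgen m e he hem
    obtain ⟨u, hu, hjac⟩ := hj g R k L t a z hrat hgen m e he hem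
    have hy := ha g R k L t a z hrat hgen m e he hem
    have hF : ∑ E ∈ Ee.image (phB e), algebraMap ℂ L (c' (bkB E)) *
        term (arrY t a z m e) A B E = F := by
      rw [Finset.sum_image fun γ _ γ' _ h => phB_inj e h, hFdef]
      exact Finset.sum_congr rfl fun γ _ => by rw [bk_phB, term_phB hf he hl1 hl2]
    have hCB := hB (g + k) (Option (Fin R)) L (arrY t a z m e) A B (by omega) hy hA
      (Ee.image (phB e)) (fun E => c' (bkB E)) (hEe.image _) (by
        intro e₀ he₀
        obtain ⟨γ₀, hγ₀, rfl⟩ := Finset.mem_image.1 he₀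
        obtain ⟨δ, h1, h2, h3⟩ := hder γ₀ hγ₀
        obtain ⟨h4, h5⟩ := hδ δ h1
        refine ⟨δ, h4, h5, by rw [bk_phB]; exact h2, ?_⟩
        intro E hE hne
        obtain ⟨γ, hγ, rfl⟩ := Finset.mem_image.1 hE
        rw [bk_phB]
        exact h3 γ hγ fun h => hne (by rw [h]))
    rw [hF] at hCB
    refine ⟨hCB.1, ?_⟩
    intro w hwd hlow heq D' h hh m' hm' γ₀ hγ₀ hmin
    have h10 : h * Q.jac D' (Fin.append t z) ≠ 0 := by rw [hh]; exact one_ne_zero
    have h0ne : h ≠ 0 := left_ne_zero_of_mul h10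
    have hu' : algebraMap ℂ L u ≠ 0 := by
      rw [Ne, map_eq_zero]; exact hu
    have hh' : (h * (algebraMap ℂ L u)⁻¹ * form t a m ^ (g + 1)) *
        Q.jac D' (arrY t a z m e) = 1 := by
      rw [hjac]
      calc _ = ((algebraMap ℂ L u)⁻¹ * algebraMap ℂ L u) *
            (form t a m * (form t a m)⁻¹) ^ (g + 1) * (h * Q.jac D' (Fin.append t z)) := by
              rw [mul_pow]; ring
        _ = 1 := by
          rw [inv_mul_cancel₀ hu', mul_inv_cancel₀ (hf m), hh, one_pow, one_mul, one_mul]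
    have hwu : ov w (algebraMap ℂ L u) = 0 := by
      rw [ov, hwd.const u hu]; rfl
    have hovh : ov w (h * (algebraMap ℂ L u)⁻¹ * form t a m ^ (g + 1)) =
        ov w h + (g + 1) * ov w (form t a m) := by
      rw [ov_mul w (mul_ne_zero h0ne (inv_ne_zero hu')) (pow_ne_zero _ (hf m)),
        ov_mul w h0ne (inv_ne_zero hu'), ov_inv, hwu, ov_pow w (hf m)]
      push_cast
      ring
    have h2 := hCB.2 w hwd (by
        intro p j hBpj
        refine Fin.addCases (fun j' hB' => ?_) (fun l hB' => ?_) j hBpj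
        · show 0 ≤ ov w (arrY t a z m e (Fin.castAdd k j'))
          unfold arrY
          rw [Fin.append_left, ov_div w (hf _) (hf m)]
          have := hlow j'
          linarith
        · exact absurd (hB0 p l) hB')
      (by
        intro p
        by_cases hp : ∃ j, e j = p
        · rw [hl2 p hp, ov_one]
        · rw [hl1 p fun j hj => hp ⟨j, hj⟩, ov_div w (hf _) (hf m),
            heq p fun j hj => hp ⟨j, hj⟩, sub_self])
      D' _ hh' m' hm' (phB e γ₀) (Finset.mem_image_of_mem _ hγ₀) (by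
        intro E hE
        obtain ⟨γ, hγ, rfl⟩ := Finset.mem_image.1 hE
        exact hmin γ hγ)
    rw [hovh] at h2
    exact h2
  have hF0 : F ≠ 0 := by
    obtain ⟨m, e, he, hem, -⟩ := exists_enum hgR ∅ (by simp)
    exact (key m e he hem).1
  refine ⟨F, hF0, ?_, ?_⟩
  · intro w hw B hBd
    rw [← le_iff w hF0, hFdef]
    apply AddValuation.map_le_sum
    intro γ hγ
    have hprod : ∏ x, coord t a z x ^ γ x ≠ 0 :=
      Finset.prod_ne_zero_iff.2 fun x _ => zpow_ne_zero _ (coord_ne hf hz x)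
    rw [AddValuation.map_mul, hw _ (hc0 γ hγ), zero_add, le_iff w hprod,
      ov_prod _ _ fun x _ => zpow_ne_zero _ (coord_ne hf hz x)]
    refine (hBd γ hγ).trans (le_of_eq ?_)
    exact Finset.sum_congr rfl fun x _ => (ov_zpow w (coord_ne hf hz x) _).symm
  · intro w hwd D' h hh m' hm' γ₀ hγ₀ hmin
    obtain ⟨I, hI, hIw⟩ := hw g R k L t a z hgR hrat hgen w hwd.const
    obtain ⟨m, e, he, hem, heI⟩ := exists_enum hgR I hI
    have hmI : ∀ p, (∀ j, e j ≠ p) → wt (wts w t a z) p = low (wts w t a z) := by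
      intro p hp
      refine hIw p fun hpI => ?_
      obtain ⟨j, hj⟩ := heI p hpI
      exact hp j hj
    set α := wts w t a z with hα
    have hm : wt α m = low α := hmI m hem
    have hwm : ov w (form t a m) = low α := by rw [← hm, hα, wt_wts]
    -- the weights of the chart
    have hyj : ∀ j : Fin g, ov w (arrY t a z m e (Fin.castAdd k j)) = wt α (e j) - low α := by
      intro j
      unfold arrY
      rw [Fin.append_left, ov_div w (hf _) (hf m), hwm, hα, wt_wts]
    have hyl : ∀ l : Fin k, ov w (arrY t a z m e (Fin.natAdd g l)) = α (Sum.inr l) := by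
      intro l
      unfold arrY
      rw [Fin.append_right]
      rfl
    have htwt : ∀ γ : Fin R ⊕ Fin k → ℤ, twt w (arrY t a z m e) (phB e γ) = ∑ x, γ x * α x := by
      intro γ
      unfold twt
      rw [Fin.sum_univ_add, Fintype.sum_sum_type]
      have e1 : ∑ j, (phB e γ).2 (Fin.castAdd k j) * ov w (arrY t a z m e (Fin.castAdd k j)) =
          ∑ i, γ (Sum.inl i) * α (Sum.inl i) := by
        have e2 : ∑ p, gh γ p * (wt α p - low α) =
            ∑ j, gh γ (e j) * (wt α (e j) - low α) :=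
          sum_range he fun p hp => by rw [hmI p hp, sub_self, mul_zero]
        have e3 : ∑ p, gh γ p * (wt α p - low α) = ∑ i, γ (Sum.inl i) * α (Sum.inl i) := by
          have e4 : ∑ p, gh γ p * (wt α p - low α) =
              ∑ p, gh γ p * wt α p - (∑ p, gh γ p) * low α := by
            rw [Finset.sum_mul, ← Finset.sum_sub_distrib]
            exact Finset.sum_congr rfl fun p _ => by ring
          rw [e4, gh_sum, zero_mul, sub_zero, sum_option]
          show -(∑ i, γ (Sum.inl i)) * 0 + ∑ i, γ (Sum.inl i) * α (Sum.inl i) = _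
          rw [mul_zero, zero_add]
        rw [← e3, e2]
        refine Finset.sum_congr rfl fun j _ => ?_
        rw [hyj]
        congr 1
        show (Fin.append (fun j => gh γ (e j)) fun l => γ (Sum.inr l)) (Fin.castAdd k j) = _
        rw [Fin.append_left]
      rw [e1]
      congr 1
      refine Finset.sum_congr rfl fun l _ => ?_
      rw [hyl]
      congr 1
      show (Fin.append (fun j => gh γ (e j)) fun l => γ (Sum.inr l)) (Fin.natAdd g l) = _
      rw [Fin.append_right]
    have hld : logDisc g α = (g + 1) * low α + ∑ j, ov w (arrY t a z m e j) := by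
      rw [Fin.sum_univ_add]
      have e1 : ∑ j, ov w (arrY t a z m e (Fin.castAdd k j)) = ∑ p, (wt α p - low α) := by
        rw [sum_range he fun p hp => by rw [hmI p hp, sub_self]]
        exact Finset.sum_congr rfl fun j _ => hyj j
      have e2 : ∑ p, (wt α p - low α) = ∑ i, α (Sum.inl i) - (R + 1) * low α := by
        rw [Finset.sum_sub_distrib, Finset.sum_const, Finset.card_univ, Fintype.card_option,
          Fintype.card_fin, sum_option]
        show (0 : ℤ) + ∑ i, α (Sum.inl i) - (R + 1) • low α = _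
        simp
      have e3 : ∑ l, ov w (arrY t a z m e (Fin.natAdd g l)) = ∑ l, α (Sum.inr l) :=
        Finset.sum_congr rfl fun l _ => hyl l
      rw [e1, e2, e3]
      unfold logDisc
      rw [Fintype.sum_sum_type]
      ring
    have h1 := (key m e he hem).2 w hwd (by
        intro j
        have := low_le α (e j)
        rw [hwm]
        refine this.trans (le_of_eq ?_)
        rw [hα, wt_wts])
      (by
        intro p hp
        rw [hwm, ← hmI p hp, hα, wt_wts])
      D' h hh m' hm' γ₀ hγ₀ (by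
        intro γ hγ
        rw [htwt, htwt]
        exact hmin γ hγ)
    rw [hld]
    rw [hwm, htwt] at h1
    linarith

end Vale.Agent.P283.A647
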