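import Vale.Agent.P283.A647.Props
import Vale.Agent.P283.T647.Ch

/-!
B8. The log discrepancies at the lattice points.
-/

set_option linter.all false

namespace Vale.Agent.P283.A647

open MvPolynomial

namespace B8

theorem ordMono_le {ι : Type} [Fintype ι] {M : ℕ} (E : Fin (M + 1) → ι → ℤ) (α : ι → ℤ)
    (i : Fin (M + 1)) : ordMono E α ≤ ∑ x, E i x * α x :=
  ciInf_le (f := fun i => ∑ x, E i x * α x) (Set.finite_range _).bddBelow i

theorem ordMono_attained {ι : Type} [Fintype ι] {M : ℕ} (E : Fin (M + 1) → ι → ℤ) (α : ι → ℤ) :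
    ∃ i, ordMono E α = ∑ x, E i x * α x := by
  obtain ⟨i, hi⟩ := exists_eq_ciInf_of_finite (f := fun i => ∑ x, E i x * α x)
  exact ⟨i, hi.symm⟩

theorem ordMono_mul {ι : Type} [Fintype ι] {M : ℕ} (E : Fin (M + 1) → ι → ℤ) (α β : ι → ℤ)
    (c : ℕ) (h : ∀ x, (c : ℤ) * β x = α x) : ordMono E α = c * ordMono E β := by
  have h1 : ∀ i, ∑ x, E i x * α x = c * ∑ x, E i x * β x := by
    intro i
    rw [Finset.mul_sum]
    exact Finset.sum_congr rfl fun x _ => by rw [← h]; ring
  apply le_antisymm
  · obtain ⟨i, hi⟩ := ordMono_attained E β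
    rw [hi, ← h1]; exact ordMono_le E α i
  · obtain ⟨i, hi⟩ := ordMono_attained E α
    rw [hi, h1]
    exact mul_le_mul_of_nonneg_left (ordMono_le E β i) (by positivity)

theorem low_le {R k : ℕ} (α : Fin R ⊕ Fin k → ℤ) (p : Option (Fin R)) : low α ≤ wt α p :=
  ciInf_le (f := fun p => wt α p) (Set.finite_range _).bddBelow p

theorem exists_e {g R : ℕ} (I : Finset (Option (Fin R))) (hI : I.card = g) :
    ∃ e : Fin g → Option (Fin R), Function.Injective e ∧ ∀ p, (∃ j, e j = p) ↔ p ∈ I := by
  refine ⟨fun j => ((I.equivFinOfCardEq hI).symm j).1, ?_, ?_⟩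
  · intro i j hij
    exact (I.equivFinOfCardEq hI).symm.injective (Subtype.ext hij)
  · intro p
    constructor
    · rintro ⟨j, rfl⟩
      exact ((I.equivFinOfCardEq hI).symm j).2
    · intro hp
      exact ⟨I.equivFinOfCardEq hI ⟨p, hp⟩, by simp⟩

theorem sum_inl {R k : ℕ} (α : Fin R ⊕ Fin k → ℤ) :
    ∑ i, α (Sum.inl i) = ∑ p : Option (Fin R), wt α p := by
  rw [Fintype.sum_option]
  show _ = 0 + ∑ i, α (Sum.inl i)
  rw [zero_add]

/-- The log discrepancy in a chart. -/
theorem logDisc_chart {g R k : ℕ} (α : Fin R ⊕ Fin k → ℤ) (I : Finset (Option (Fin R)))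
    (hIc : I.card = g) (hlow : ∀ p, p ∉ I → wt α p = low α) (e : Fin g → Option (Fin R))
    (he : Function.Injective e) (heI : ∀ p, (∃ j, e j = p) ↔ p ∈ I) :
    logDisc g α = ((g : ℤ) + 1) * low α + ∑ j, (wt α (e j) - low α) +
      ∑ l, α (Sum.inr l) := by
  have h1 : ∑ p : Option (Fin R), (wt α p - low α) = ∑ j, (wt α (e j) - low α) := by
    have h2 : ∑ p : Option (Fin R), (wt α p - low α) = ∑ p ∈ I, (wt α p - low α) := by
      symm
      apply Finset.sum_subset (Finset.subset_univ I)
      intro p _ hp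
      rw [hlow p hp, sub_self]
    rw [h2]
    have h3 : I = Finset.univ.image e := by
      ext p
      rw [Finset.mem_image, ← heI]
      simp
    rw [h3, Finset.sum_image (fun x _ y _ hxy => he hxy)]
  have h4 : ∑ p : Option (Fin R), (wt α p - low α) =
      ∑ p : Option (Fin R), wt α p - ((R : ℤ) + 1) * low α := by
    rw [Finset.sum_sub_distrib, Finset.sum_const, Finset.card_univ, Fintype.card_option,
      Fintype.card_fin, nsmul_eq_mul]
    push_cast; ring
  unfold logDisc
  rw [Fintype.sum_sum_type, sum_inl]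
  linarith

section

variable {L : Type} [Field L] [Algebra ℂ L]

theorem coords {d : ℕ} {y : Fin d → L} (h : IsRat y) : IsCoords y where
  ind := h.ind
  gen := by
    intro f
    obtain ⟨p, r, hr, hf⟩ := T647.gen_div h.gen f
    exact ⟨p, r, fun h0 => hr (by rw [h0, map_zero]), hf⟩

theorem trdeg {d : ℕ} {y : Fin d → L} (h : IsRat y) :
    Algebra.trdeg ℂ L = ((d : ℕ) : Cardinal) := by
  rw [(coords h).trdeg_eq, Fintype.card_fin]

theorem form_ne (ha : ArrRat) {g R k : ℕ} {t : Fin g → L} {a : Fin R → Fin (g + 1) → ℂ}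
    {z : Fin k → L} (hg : 0 < g) (hR : g ≤ R) (hrat : IsRat (Fin.append t z)) (hgen : GenPos a)
    (p : Option (Fin R)) : form t a p ≠ 0 := by
  obtain ⟨I, hI, hIc⟩ : ∃ I ⊆ (Finset.univ.erase p : Finset (Option (Fin R))), I.card = g := by
    apply Finset.exists_subset_card_eq
    rw [Finset.card_erase_of_mem (Finset.mem_univ p), Finset.card_univ, Fintype.card_option,
      Fintype.card_fin]
    omega
  obtain ⟨e, he, heI⟩ := exists_e I hIc
  have hep : ∀ j, e j ≠ p := by
    intro j hj
    have h1 := hI ((heI p).1 ⟨j, hj⟩)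
    exact Finset.notMem_erase p _ h1
  have h1 := ha g R k L t a z hrat hgen p e he hep
  have h2 := (coords h1).ne_zero (Fin.castAdd k ⟨0, hg⟩)
  intro h0
  apply h2
  unfold arrY
  rw [Fin.append_left, h0, div_zero]

end

end B8

open B8

theorem b8 (h : ChartExist) (ha : ArrRat) (hj : ArrJac) (hl : ArrLin) : LcPoint := by
  intro g R k N M r L _ _ t a z hg hR hrat hgen v E ε hε hr D' h₀ hjac hlc α htrop hcone hα
  obtain ⟨I₀, hI₀, hlow₀⟩ := htrop
  obtain ⟨I, hI, hIc⟩ := Finset.exists_superset_card_eq hI₀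
    (by rw [Fintype.card_option, Fintype.card_fin]; omega :
      g ≤ Fintype.card (Option (Fin R)))
  obtain ⟨m, hm⟩ : ∃ m, m ∉ I := by
    by_contra hno
    push Not at hno
    have h1 := Finset.eq_univ_iff_forall.2 hno
    rw [h1, Finset.card_univ, Fintype.card_option, Fintype.card_fin] at hIc
    omega
  obtain ⟨e, he, heI⟩ := exists_e I hIc
  have hem : ∀ j, e j ≠ m := fun j hj' => hm ((heI m).1 ⟨j, hj'⟩)
  have hlow : ∀ p, p ∉ I → wt α p = low α := fun p hp => hlow₀ p (fun h' => hp (hI h'))
  have hne : ∀ p, form t a p ≠ 0 := form_ne ha hg hR hrat hgen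
  have hrat' := ha g R k L t a z hrat hgen m e he hem
  obtain ⟨A, B, hA, hlin1, hlin2, hB, -⟩ := hl g R k L t a z hrat hgen m e he hem
  obtain ⟨u, hu, hu'⟩ := hj g R k L t a z hrat hgen m e he hem
  have hω0 : (Fin.append (fun j => wt α (e j) - low α) (fun l => α (Sum.inr l)) :
      Fin (g + k) → ℤ) ≠ 0 := by
    intro h0
    apply hα
    have h1 : ∀ p, wt α p = low α := by
      intro p
      by_cases hp : p ∈ I
      · obtain ⟨j, rfl⟩ := (heI p).2 hp
        have h2 := congrFun h0 (Fin.castAdd k j)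
        rw [Fin.append_left] at h2
        have h3 : wt α (e j) - low α = 0 := h2
        linarith
      · exact hlow p hp
    have h2 : low α = 0 := by rw [← h1 none]; rfl
    funext x
    cases x with
    | inl i =>
      have h3 := h1 (some i)
      rw [h2] at h3
      exact h3
    | inr l =>
      have h3 := congrFun h0 (Fin.natAdd g l)
      rw [Fin.append_right] at h3
      exact h3
  have hωB : ∀ i j, B i j ≠ 0 → 0 ≤ (Fin.append (fun j => wt α (e j) - low α)
      (fun l => α (Sum.inr l)) : Fin (g + k) → ℤ) j := by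
    intro i j
    refine Fin.addCases (fun j => ?_) (fun l => ?_) j
    · intro _
      rw [Fin.append_left]
      have := low_le α (e j)
      linarith
    · intro hB'
      exact absurd (hB i l) hB'
  obtain ⟨w, hw, c, hc, hy, hlin, hdisc⟩ := h (g + k) (Option (Fin R)) L (arrY t a z m e) A B
    (by omega) hrat' hA _ hω0 hωB
  have hcQ : (0 : ℚ) < c := by exact_mod_cast hc
  have hform : ∀ p, (c : ℤ) * ov w (form t a p) =
      (wt α p - low α) + c * ov w (form t a m) := by
    intro p
    by_cases hp : ∃ j, e j = p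
    · obtain ⟨j, rfl⟩ := hp
      have h1 := hy (Fin.castAdd k j)
      have h2 : arrY t a z m e (Fin.castAdd k j) = form t a (e j) / form t a m := by
        unfold arrY; rw [Fin.append_left]
      rw [h2, Fin.append_left, ov_div w (hne _) (hne _)] at h1
      linear_combination h1
    · have hpI : p ∉ I := fun h' => hp ((heI p).2 h')
      have h1 := hlin p
      rw [hlin1 p (fun j hj' => hp ⟨j, hj'⟩), ov_div w (hne _) (hne _)] at h1
      rw [hlow p hpI]
      linear_combination (c : ℤ) * h1
  have hm' : (c : ℤ) * ov w (form t a m) = low α := by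
    have h1 := hform none
    have h2 : form t a none = 1 := rfl
    have h3 : wt α none = 0 := rfl
    rw [h2, h3, ov_one] at h1
    linear_combination -h1
  have hwts : ∀ x, (c : ℤ) * wts w t a z x = α x := by
    intro x
    cases x with
    | inl i =>
      show (c : ℤ) * ov w (form t a (some i)) = _
      rw [hform, hm']
      show wt α (some i) - low α + low α = _
      rw [sub_add_cancel]
      rfl
    | inr l =>
      have h1 := hy (Fin.natAdd g l)
      have h2 : arrY t a z m e (Fin.natAdd g l) = z l := by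
        unfold arrY; rw [Fin.append_right]
      rw [h2, Fin.append_right] at h1
      exact h1
  have hcone' : InCone v (wts w t a z) := by
    obtain ⟨b, hb, hb'⟩ := hcone
    refine ⟨fun j => b j / c, fun j => div_nonneg (hb j) hcQ.le, fun x => ?_⟩
    have h2 : (α x : ℚ) = c * (wts w t a z x : ℚ) := by rw [← hwts x]; push_cast; ring
    have h3 : (wts w t a z x : ℚ) = α x / c := by rw [h2]; field_simp
    rw [h3, hb', Finset.sum_div]
    exact Finset.sum_congr rfl fun j _ => by ring
  haveI := (coords hrat).essFiniteType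
  have h10 : h₀ * Q.jac D' (Fin.append t z) ≠ 0 := by rw [hjac]; exact one_ne_zero
  have hjne : Q.jac D' (Fin.append t z) ≠ 0 := right_ne_zero_of_mul h10
  have h0ne : h₀ ≠ 0 := left_ne_zero_of_mul h10
  obtain ⟨m', hm'o⟩ := H647.order_exists (by omega : 0 < g + k) (trdeg hrat) D' ⟨_, hjne⟩ hw
  have h1 := hlc w m' hw hcone' hm'o
  have hune : algebraMap ℂ L u ≠ 0 := by
    rw [Ne, map_eq_zero]; exact hu
  have hjac' : ((algebraMap ℂ L u)⁻¹ * form t a m ^ (g + 1) * h₀) *
      Q.jac D' (arrY t a z m e) = 1 := by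
    rw [hu' D', ← hjac]
    have hpow : form t a m ^ (g + 1) ≠ 0 := pow_ne_zero _ (hne m)
    rw [inv_pow]
    field_simp
  have h2 := hdisc D' _ hjac' m' hm'o
  have hov : ov w ((algebraMap ℂ L u)⁻¹ * form t a m ^ (g + 1) * h₀) =
      ((g : ℤ) + 1) * ov w (form t a m) + ov w h₀ := by
    rw [ov_mul w (mul_ne_zero (inv_ne_zero hune) (pow_ne_zero _ (hne m))) h0ne,
      ov_mul w (inv_ne_zero hune) (pow_ne_zero _ (hne m)), ov_inv,
      ov_pow w (hne m), ov_eq_of w (n := 0) (by exact_mod_cast hw.const u hu)]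
    push_cast; ring
  have hsum : ∑ j, (Fin.append (fun j => wt α (e j) - low α) (fun l => α (Sum.inr l)) :
      Fin (g + k) → ℤ) j = ∑ j, (wt α (e j) - low α) + ∑ l, α (Sum.inr l) := by
    rw [Fin.sum_univ_add]
    congr 1
    · exact Finset.sum_congr rfl fun j _ => by rw [Fin.append_left]
    · exact Finset.sum_congr rfl fun l _ => by rw [Fin.append_right]
  have h3 : (c : ℤ) * (1 + m' - ov w h₀) = logDisc g α := by
    rw [logDisc_chart α I hIc hlow e he heI]
    rw [hov, hsum] at h2
    linear_combination h2 + ((g : ℤ) + 1) * hm'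
  have h4 : ordMono E α = c * ordMono E (wts w t a z) := ordMono_mul E _ _ c hwts
  have hc1 : (1 : ℝ) ≤ c := by exact_mod_cast hc
  rw [← h3, h4]
  push_cast
  have h5 : (c : ℝ) * (1 + (m' : ℝ) - ov w h₀) - c * (ordMono E (wts w t a z) : ℝ) / r =
      c * (1 + m' - ov w h₀ - (ordMono E (wts w t a z) : ℝ) / r) := by ring
  rw [h5]
  nlinarith

end Vale.Agent.P283.A647
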