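import Vale.Agent.P283.H207.Defs

/-!
Pairs `(X', B')` of general arrangement type: proper morphisms `X' → Z = Spec A`, where a torus of
dimension `k` acts on a Galois cover of bounded degree of `X'` with the quotient `ℙ^g`, and the
special fibres lie over any number of hyperplanes in general position.
-/

namespace Vale.Agent.P283.A647

open Vale.Agent.P283.Q

variable {g R k N M : ℕ}

/-- The linear forms `ℓ_p = a_{p0} + a_{p1} t_1 + ⋯ + a_{pg} t_g` of the hyperplanes
`H_p ⊂ ℙ^g`, `p = 1, …, R`, and `ℓ_∞ = 1` for the hyperplane at infinity, `∞ = none`. -/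
noncomputable def form {L : Type} [Field L] [Algebra ℂ L] (t : Fin g → L)
    (a : Fin R → Fin (g + 1) → ℂ) (p : Option (Fin R)) : L :=
  p.elim 1 fun i => ∑ j, algebraMap ℂ L (a i j) * (Fin.cons 1 t : Fin (g + 1) → L) j

/-- The functions `ℓ_1, …, ℓ_R, z_1, …, z_k`. -/
noncomputable def coord {L : Type} [Field L] [Algebra ℂ L] (t : Fin g → L)
    (a : Fin R → Fin (g + 1) → ℂ) (z : Fin k → L) : Fin R ⊕ Fin k → L :=
  Sum.elim (fun i => form t a (some i)) z

/-- The hyperplanes `H_1, …, H_R` and the hyperplane at infinity are in general position: any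
`g + 1` of their linear forms are linearly independent. -/
def GenPos (a : Fin R → Fin (g + 1) → ℂ) : Prop :=
  ∀ e : Fin (g + 1) → Option (Fin R), Function.Injective e →
    (Matrix.of fun i => (e i).elim (Pi.single 0 1) a).det ≠ 0

/-- The weight `α` on `ℓ_p`; it is `0` on `ℓ_∞ = 1`. -/
def wt (α : Fin R ⊕ Fin k → ℤ) (p : Option (Fin R)) : ℤ := p.elim 0 fun i => α (Sum.inl i)

/-- The least weight of the `ℓ_p`. -/
noncomputable def low (α : Fin R ⊕ Fin k → ℤ) : ℤ := ⨅ p, wt α p

/-- At most `n` of the forms `ℓ_p` have more than the least weight. The weights of the valuations of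
`L = ℂ(t_1, …, t_g, z_1, …, z_k)` have this property for `n = g`. -/
def OnTrop (n : ℕ) (α : Fin R ⊕ Fin k → ℤ) : Prop :=
  ∃ I : Finset (Option (Fin R)), I.card ≤ n ∧ ∀ p, p ∉ I → wt α p = low α

/-- `α` lies in the cone spanned by the vectors `v j`. -/
def InCone {ι : Type} (v : Fin N → ι → ℤ) (α : ι → ℤ) : Prop :=
  ∃ c : Fin N → ℚ, (∀ j, 0 ≤ c j) ∧ ∀ x, (α x : ℚ) = ∑ j, c j * v j x

/-- The order of the fractional ideal generated by the monomials `∏ x, coord x ^ (E i x)`, in terms
of the orders `α x` of the functions `coord x`. -/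
noncomputable def ordMono {ι : Type} [Fintype ι] (E : Fin (M + 1) → ι → ℤ) (α : ι → ℤ) : ℤ :=
  ⨅ i, ∑ x, E i x * α x

/-- The log discrepancy of the form `dt_1 ∧ ⋯ ∧ dt_g ∧ dz_1 ∧ ⋯ ∧ dz_k`, that is, one plus its
order, along the divisor with the weight `α`. -/
noncomputable def logDisc (g : ℕ) (α : Fin R ⊕ Fin k → ℤ) : ℤ :=
  ∑ x, α x - ((R : ℤ) - g) * low α

/-- The log discrepancy of the pull-back of `(X', B')` along the divisor with the weight `α`. -/
noncomputable def toricDisc (g r : ℕ) (E : Fin (M + 1) → Fin R ⊕ Fin k → ℤ)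
    (α : Fin R ⊕ Fin k → ℤ) : ℚ :=
  logDisc g α - (ordMono E α : ℚ) / r

/-- `Z = Spec A`, and `L = ℂ(t_1, …, t_g, z_1, …, z_k)` is a purely transcendental extension of `ℂ`
with the action of the torus with the coordinates `z_l`; `H_1, …, H_R`, `R ≥ g`, are hyperplanes in
general position; `K = L^G` for a group `G` of at most `J` automorphisms of `L`; and `A ⊆ K` has the
same integral closure in `L` as the ring generated by all monomials in the `ℓ_i` and `z_l` and their
inverses with exponents in the dual of the cone spanned by the vectors `v j`; for every `v j`, at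
most one of the `ℓ_p` has more than the least weight. -/
structure IsACover (J : ℕ) {K L : Type} [Field K] [Field L] [Algebra ℂ K] [Algebra ℂ L]
    [Algebra K L] (t : Fin g → L) (a : Fin R → Fin (g + 1) → ℂ) (z : Fin k → L)
    (v : Fin N → Fin R ⊕ Fin k → ℤ) (G : Subgroup (L ≃ₐ[ℂ] L)) (A : Subalgebra ℂ K) :
    Prop where
  generate : IntermediateField.adjoin ℂ (Set.range (Fin.append t z)) = ⊤
  independent : AlgebraicIndependent ℂ (Fin.append t z)
  many : g ≤ R
  general : GenPos a
  rays : ∀ j, OnTrop 1 (v j)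
  finite : Finite G
  card : Nat.card G ≤ J
  field : ∀ x : L, x ∈ Set.range (algebraMap K L) ↔ ∀ τ ∈ G, τ x = x
  cover : ∀ b ∈ A, IsIntegral (Algebra.adjoin ℂ {x : L | ∃ u : Fin R ⊕ Fin k → ℤ,
    (∀ j, 0 ≤ ∑ x, v j x * u x) ∧ x = ∏ l, coord t a z l ^ u l}) (algebraMap K L b)
  finiteCover : ∀ u : Fin R ⊕ Fin k → ℤ, (∀ j, 0 ≤ ∑ x, v j x * u x) →
    IsIntegral A (∏ l, coord t a z l ^ u l)

/-- `π'^* (r (K_{X'} + B')) = r H + F` on the normalization `π' : Y' → X'` of `X'` in `L`, where the
fractional ideal generated by the monomials with the exponents `E i` in the functions `coord`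
becomes the invertible sheaf `𝒪_{Y'}(-F)`. Here `H` is the divisor of `h`, where
`π'^* ω = h • dt_1 ∧ ⋯ ∧ dt_g ∧ dz_1 ∧ ⋯ ∧ dz_k`; the form `π'^* ω` is given by the extension `D'`
of `D` to `L`. So `-(K_{X'} + B')` is, up to a multiple, generated by monomials over `Z`. The
equality is tested along every prime divisor `w` over `Y'`, which lies over the prime divisor `u`
over `X'` with ramification index `e`. -/
def IsGeneratedA {K L : Type} [Field K] [Field L] [Algebra ℂ K] [Algebra ℂ L]
    [Algebra K L] (t : Fin g → L) (a : Fin R → Fin (g + 1) → ℂ) (z : Fin k → L)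
    (E : Fin (M + 1) → Fin R ⊕ Fin k → ℤ)
    (D : Fin (g + k) → Derivation ℂ K K) (𝒞 : Set (Subalgebra ℂ K)) (r : ℕ)
    (ψ : Subalgebra ℂ K → K) : Prop :=
  ∀ (D' : Fin (g + k) → Derivation ℂ L L) (h : L),
    (∀ (i : Fin (g + k)) (x : K), D' i (algebraMap K L x) = algebraMap K L (D i x)) →
    h * jac D' (Fin.append t z) = 1 →
    ∀ C ∈ 𝒞, ∀ (u : AddValuation K (WithTop ℤ)) (w : AddValuation L (WithTop ℤ)) (e : ℕ)
      (l b : ℤ) (α : Fin R ⊕ Fin k → ℤ),
      IsDivisorial (g + k) u → IsOver C u →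
      0 < e → (∃ x, w x = 1) → (∀ x : K, w (algebraMap K L x) = e • u x) →
      u (ψ C) = (l : WithTop ℤ) → w h = (b : WithTop ℤ) →
      (∀ x, w (coord t a z x) = (α x : WithTop ℤ)) →
        (e : ℤ) * l = r * b + ordMono E α

/-- The part of the cone in the tropicalization has a subdivision with the rays `v j` such that the
order of the ideal generated by the monomials with the exponents `E i` is linear on its cones. -/
def IsSubdivision (g : ℕ) (v : Fin N → Fin R ⊕ Fin k → ℤ)
    (E : Fin (M + 1) → Fin R ⊕ Fin k → ℤ) : Prop :=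
  ∀ α, OnTrop g α → InCone v α → ∃ c : Fin N → ℚ, (∀ j, 0 ≤ c j) ∧
    (∀ x, (α x : ℚ) = ∑ j, c j * v j x) ∧ (ordMono E α : ℚ) = ∑ j, c j * ordMono E (v j)

end Vale.Agent.P283.A647
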