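import Vale.Agent.P283.A647.Defs
import Vale.Agent.P283.T647.Props

/-!
Statements of the parts of the proof.
-/

set_option linter.all false

namespace Vale.Agent.P283.A647

open MvPolynomial
open Vale.Agent.P283.T647 (psum fval Triv Ch)

/-! ## Combinatorics -/

section Book

variable {P ι : Type} [Fintype P] [DecidableEq P] [Fintype ι] {k : ℕ}

/-- At most `g` entries are different from `0`. -/
def Supp (g : ℕ) {β : Type} [Zero β] (σ : P → β) : Prop :=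
  ∃ I : Finset P, I.card ≤ g ∧ ∀ p, p ∉ I → σ p = 0

/-- Combinatorial data of a pair of general arrangement type. -/
structure IsBook (g q : ℕ) (δ : ℝ) (pg : ι → Option P) (s : ι → ℕ) (w : ι → Fin k → ℤ)
    (κ : ι → ℕ) : Prop where
  g0 : 0 < g
  q0 : 0 < q
  δ0 : 0 < δ
  many : g + 1 ≤ Fintype.card P
  pos : ∀ j p, pg j = some p → 0 < s j
  κq : ∀ j, κ j ≤ q
  lc : ∀ c : ι → ℝ, (∀ j, 0 ≤ c j) → ∀ (μ : ℝ) (σ : P → ℕ) (b : Fin k → ℤ), 0 ≤ μ →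
    Supp g σ → (∀ p, psum pg s c p = μ + σ p) → (∀ i, (b i : ℝ) = ∑ j, c j * w j i) →
    (σ ≠ 0 ∨ b ≠ 0) → δ ≤ ∑ j, c j * κ j - q * ((Fintype.card P : ℝ) - g - 1) * μ
  nn : ∀ c : ι → ℝ, (∀ j, 0 ≤ c j) → ∀ (μ : ℝ) (σ : P → ℝ), 0 ≤ μ → (∀ p, 0 ≤ σ p) →
    Supp g σ → (∀ p, psum pg s c p = μ + σ p) →
    0 ≤ ∑ j, c j * κ j - q * ((Fintype.card P : ℝ) - g - 1) * μ

/-- The value of the functional `(b, c)` at the point `(σ, a)`. -/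
def tval (q K : ℕ) (b : P → ℤ) (c : Fin k → ℤ) (σ : P → ℕ) (a : Fin k → ℤ) : ℤ :=
  ∑ p, (σ p : ℤ) * (q * K - b p) + ∑ i, c i * a i

/-- The functional `(b, c)` is admissible. -/
def Sol (g q K : ℕ) (pg : ι → Option P) (s : ι → ℕ) (w : ι → Fin k → ℤ) (κ : ι → ℕ) (b : P → ℤ)
    (c : Fin k → ℤ) : Prop :=
  ∑ p, b p ≤ (g + 1) * q * K ∧ ∀ j, fval q K pg s w b c j ≤ K * κ j

/-- The point `(σ, a)` lies in the cone (dual description). -/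
def InBook (pg : ι → Option P) (s : ι → ℕ) (w : ι → Fin k → ℤ) (σ : P → ℕ)
    (a : Fin k → ℤ) : Prop :=
  ∀ (e : P → ℤ) (c : Fin k → ℤ), ∑ p, e p ≤ 0 →
    (∀ j, 0 ≤ (pg j).elim 0 (fun p => (s j : ℤ) * e p) + ∑ i, c i * w j i) →
    0 ≤ ∑ p, (σ p : ℤ) * e p + ∑ i, c i * a i

/-- There is an admissible functional of denominator `K` which is positive at the point. -/
def Good (g q K : ℕ) (pg : ι → Option P) (s : ι → ℕ) (w : ι → Fin k → ℤ) (κ : ι → ℕ)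
    (σ : P → ℕ) (a : Fin k → ℤ) : Prop :=
  ∃ (b : P → ℤ) (c : Fin k → ℤ), Sol g q K pg s w κ b c ∧ 0 < tval q K b c σ a

/-- Admissible functionals (of any denominator) which are positive at the points of the cone. -/
def HasReal (g q : ℕ) (pg : ι → Option P) (s : ι → ℕ) (w : ι → Fin k → ℤ) (κ : ι → ℕ) : Prop :=
  ∀ (σ : P → ℕ) (a : Fin k → ℤ), Supp g σ → (σ ≠ 0 ∨ a ≠ 0) → InBook pg s w σ a →
    ∃ r : ℕ, 0 < r ∧ Good g q r pg s w κ σ a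

/-- Admissible functionals of denominator `K` which are positive at the points of the cone. -/
def Goal (g q K : ℕ) (pg : ι → Option P) (s : ι → ℕ) (w : ι → Fin k → ℤ) (κ : ι → ℕ) : Prop :=
  ∀ (σ : P → ℕ) (a : Fin k → ℤ), Supp g σ → (σ ≠ 0 ∨ a ≠ 0) → InBook pg s w σ a →
    Good g q K pg s w κ σ a

/-- A page is empty: it is trivial, and all its rays have the same spine part. -/
def Mt (q : ℕ) (pg : ι → Option P) (s : ι → ℕ) (w : ι → Fin k → ℤ) (κ : ι → ℕ) (p : P) : Prop :=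
  Triv q pg s κ p ∧ ∀ j j', pg j = some p → pg j' = some p → w j = w j'

/-- The condition for merging the pages outside `𝒩`. -/
def MergeCond (g q : ℕ) (pg : ι → Option P) (s : ι → ℕ) (w : ι → Fin k → ℤ) (κ : ι → ℕ)
    (𝒩 : Finset P) : Prop :=
  (∀ p, p ∉ 𝒩 → Triv q pg s κ p) ∧
    ∃ 𝒬 : Finset P, 𝒬 ⊆ 𝒩 ∧ 𝒬.card = g + 2 ∧ ∀ p ∈ 𝒬, ¬ Mt q pg s w κ p

end Book

/-- A2. The number of non-trivial pages. -/
def CountRow : Prop := ∀ (P ι : Type) [Fintype P] [DecidableEq P] [Fintype ι] (k g q : ℕ) (δ : ℝ)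
  (pg : ι → Option P) (s : ι → ℕ) (w : ι → Fin k → ℤ) (κ : ι → ℕ), IsBook g q δ pg s w κ →
  (∀ p, ∃ j, pg j = some p) → ∀ 𝒩 : Finset P, (∀ p ∈ 𝒩, ¬ Triv q pg s κ p) →
    𝒩.card ≤ 2 * q * (g + 1)

/-- A4. The lower bound for the merged book. -/
def MergeIneq : Prop := ∀ (P ι : Type) [Fintype P] [DecidableEq P] [Fintype ι] (k g q : ℕ) (δ : ℝ)
  (pg : ι → Option P) (s : ι → ℕ) (w : ι → Fin k → ℤ) (κ : ι → ℕ), IsBook g q δ pg s w κ →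
  (∀ p, ∃ j, pg j = some p) → ∀ 𝒩 : Finset P, MergeCond g q pg s w κ 𝒩 →
  ∀ (c : ι → ℝ) (cf : (P → ι) → ℝ), (∀ j, 0 ≤ c j) →
  (∀ f, 0 ≤ cf f) → (∀ j p, pg j = some p → p ∉ 𝒩 → c j = 0) →
  (∀ f, ¬ Ch 𝒩 pg f → cf f = 0) →
  ∀ (η : P → ℤ) (b : Fin k → ℤ), (∀ p ∈ 𝒩, (η p : ℝ) = psum pg s c p - ∑ f, cf f) →
  (∀ i, (b i : ℝ) = ∑ j, c j * (w j i : ℝ) + ∑ f, cf f * ∑ p ∈ 𝒩ᶜ, (w (f p) i : ℝ)) →
  (b ≠ 0 ∨ ∃ p ∈ 𝒩, η p ≠ 0) →
  ∀ μ : ℝ, μ ≤ ∑ f, cf f → (∀ p ∈ 𝒩, μ ≤ psum pg s c p) →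
  (μ = ∑ f, cf f ∨ ∃ p ∈ 𝒩, μ = psum pg s c p) →
  min δ (1 / 2) ≤ ∑ j, c j * (κ j : ℝ) + q * ∑ f, cf f - q * ((𝒩.card : ℝ) - g) * μ

/-- A5. Merging the pages outside `𝒩`. -/
def CaseM : Prop := ∀ (n k g q : ℕ) (δ : ℝ), 0 < δ → ∃ k₀ : ℕ, 0 < k₀ ∧
  ∀ (P ι : Type) [Fintype P] [DecidableEq P] [Fintype ι]
  (pg : ι → Option P) (s : ι → ℕ) (w : ι → Fin k → ℤ) (κ : ι → ℕ), IsBook g q δ pg s w κ →
  HasReal g q pg s w κ → (∀ p, ∃ j, pg j = some p) → ∀ 𝒩 : Finset P, MergeCond g q pg s w κ 𝒩 →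
  𝒩.card = n → ∀ K : ℕ, k₀ ∣ K → 0 < K → ∀ (σ : P → ℕ) (a : Fin k → ℤ),
  (∀ p, p ∉ 𝒩 → σ p = 0) → Supp g σ → (σ ≠ 0 ∨ a ≠ 0) → InBook pg s w σ a →
    Good g q K pg s w κ σ a

/-- A6. At most `g + 1` pages are not empty. -/
def CaseE : Prop := ∀ (k g q : ℕ) (δ : ℝ), 0 < δ → ∃ k₀ : ℕ, 0 < k₀ ∧
  ∀ (P ι : Type) [Fintype P] [DecidableEq P] [Fintype ι]
  (pg : ι → Option P) (s : ι → ℕ) (w : ι → Fin k → ℤ) (κ : ι → ℕ), IsBook g q δ pg s w κ →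
  HasReal g q pg s w κ → (∀ p, ∃ j, pg j = some p) → ∀ 𝒬 : Finset P, 𝒬.card = g + 1 →
  (∀ p, p ∉ 𝒬 → Mt q pg s w κ p) → ∀ K : ℕ, k₀ ∣ K → 0 < K → Goal g q K pg s w κ

/-- A7. Some page has no rays. -/
def CaseA : Prop := ∀ (k g q : ℕ) (δ : ℝ), 0 < δ → ∃ k₀ : ℕ, 0 < k₀ ∧
  ∀ (P ι : Type) [Fintype P] [DecidableEq P] [Fintype ι]
  (pg : ι → Option P) (s : ι → ℕ) (w : ι → Fin k → ℤ) (κ : ι → ℕ), IsBook g q δ pg s w κ →
  HasReal g q pg s w κ → ∀ p₁ : P, (∀ j, pg j ≠ some p₁) →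
  ∀ K : ℕ, k₀ ∣ K → 0 < K → Goal g q K pg s w κ

/-- A8. All books. -/
def BookAll : Prop := ∀ (k g q : ℕ) (δ : ℝ), 0 < q → 0 < δ → ∃ k₀ : ℕ, 0 < k₀ ∧
  ∀ (P ι : Type) [Fintype P] [DecidableEq P] [Fintype ι]
  (pg : ι → Option P) (s : ι → ℕ) (w : ι → Fin k → ℤ) (κ : ι → ℕ), IsBook g q δ pg s w κ →
  HasReal g q pg s w κ → ∀ K : ℕ, k₀ ∣ K → 0 < K → Goal g q K pg s w κ

section Expos

variable {g R k N M : ℕ}

/-- The rays `v j` in terms of pages and multiplicities. -/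
def Link (v : Fin N → Fin R ⊕ Fin k → ℤ) (pg : Fin N → Option (Option (Fin R)))
    (s : Fin N → ℕ) : Prop :=
  ∀ j i, v j (Sum.inl i) =
    (pg j).elim 0 (fun p => p.elim (-(s j : ℤ)) (fun i' => if i = i' then (s j : ℤ) else 0))

/-- The lower bound for the log discrepancies at the lattice points. -/
def LcPt (g : ℕ) (ε : ℝ) (r : ℕ) (v : Fin N → Fin R ⊕ Fin k → ℤ)
    (E : Fin (M + 1) → Fin R ⊕ Fin k → ℤ) : Prop :=
  ∀ α, OnTrop g α → InCone v α → α ≠ 0 → ε ≤ (logDisc g α : ℝ) - (ordMono E α : ℝ) / r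

end Expos

/-- A9. The book of a pair. -/
def ToBook : Prop := ∀ (g q : ℕ) (ε : ℝ), 0 < g → 0 < q → 0 < ε → ∀ (R k N M r : ℕ)
  (v : Fin N → Fin R ⊕ Fin k → ℤ) (E : Fin (M + 1) → Fin R ⊕ Fin k → ℤ)
  (κ : Fin N → ℕ), 0 < r → g ≤ R → (∀ j, OnTrop 1 (v j)) →
  (∀ j, (κ j : ℚ) = q * toricDisc g r E (v j)) → (∀ j, κ j ≤ q) → LcPt g ε r v E →
  ∃ (pg : Fin N → Option (Option (Fin R))) (s : Fin N → ℕ), Link v pg s ∧
    IsBook g q (q * ε) pg s (fun j l => v j (Sum.inr l)) κ ∧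
    HasReal g q pg s (fun j l => v j (Sum.inr l)) κ

/-- A10. The exponents of the complement. -/
def BookExpos : Prop := ∀ (g k q : ℕ) (ε : ℝ), 0 < g → 0 < q → 0 < ε → ∃ k₀ : ℕ, 0 < k₀ ∧
  ∀ (R N M r : ℕ) (v : Fin N → Fin R ⊕ Fin k → ℤ)
  (E : Fin (M + 1) → Fin R ⊕ Fin k → ℤ) (κ : Fin N → ℕ), 0 < r → g ≤ R →
  (∀ j, OnTrop 1 (v j)) →
  (∀ j, (κ j : ℚ) = q * toricDisc g r E (v j)) → (∀ j, κ j ≤ q) → LcPt g ε r v E →
  IsSubdivision g v E → ∀ K : ℕ, k₀ ∣ K → 0 < K →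
  ∃ Ee : Finset (Fin R ⊕ Fin k → ℤ), Ee.Nonempty ∧
    (∀ γ ∈ Ee, ∀ α, OnTrop g α → InCone v α →
      (K : ℚ) * q * ((ordMono E α : ℚ) / r) ≤ ((∑ x, γ x * α x : ℤ) : ℚ)) ∧
    ∀ α, OnTrop g α → InCone v α → α ≠ 0 → ∃ γ ∈ Ee, ∑ x, γ x * α x < K * (q * logDisc g α)

/-! ## Geometry -/

/-- `L = ℂ(y_1, …, y_d)` is purely transcendental. -/
structure IsRat {L : Type} [Field L] [Algebra ℂ L] {d : ℕ} (y : Fin d → L) : Prop where
  gen : IntermediateField.adjoin ℂ (Set.range y) = ⊤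
  ind : AlgebraicIndependent ℂ y

section Chart

variable {L : Type} [Field L] [Algebra ℂ L] {d : ℕ} {U : Type} [Fintype U]

/-- The units `A_i + ∑ B_ij y_j` of a chart. -/
noncomputable def lin (y : Fin d → L) (A : U → ℂ) (B : U → Fin d → ℂ) (i : U) : L :=
  algebraMap ℂ L (A i) + ∑ j, algebraMap ℂ L (B i j) * y j

/-- The coordinates of a chart. -/
noncomputable def chartY (y : Fin d → L) (A : U → ℂ) (B : U → Fin d → ℂ) : Fin (d + 1) → L :=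
  Fin.cons (∏ i, lin y A B i)⁻¹ y

/-- The equation of a chart. -/
noncomputable def chartF (d : ℕ) (A : U → ℂ) (B : U → Fin d → ℂ) :
    MvPolynomial (Fin (d + 1)) ℂ :=
  X 0 * ∏ i, (C (A i) + ∑ j, C (B i j) * X (Fin.succ j)) - 1

/-- A term. -/
noncomputable def term (y : Fin d → L) (A : U → ℂ) (B : U → Fin d → ℂ)
    (e : (U → ℤ) × (Fin d → ℤ)) : L :=
  (∏ i, lin y A B i ^ e.1 i) * ∏ j, y j ^ e.2 j

/-- The weight of a term. -/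
noncomputable def twt (w : AddValuation L (WithTop ℤ)) (y : Fin d → L)
    (e : (U → ℤ) × (Fin d → ℤ)) : ℤ :=
  ∑ j, e.2 j * ov w (y j)

end Chart

/-- B1. The equation of a chart. -/
def ChartHyp : Prop := ∀ (d : ℕ) (U : Type) [Fintype U] (L : Type) [Field L] [Algebra ℂ L]
  (y : Fin d → L) (A : U → ℂ) (B : U → Fin d → ℂ), IsRat y → (∀ i, A i ≠ 0) →
  H647.HypData (chartY y A B) (chartF d A B)

/-- B2. The residue form of a chart. -/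
def ChartRes : Prop := ∀ (d : ℕ) (U : Type) [Fintype U] (L : Type) [Field L] [Algebra ℂ L]
  (y : Fin d → L) (A : U → ℂ) (B : U → Fin d → ℂ), IsRat y → (∀ i, A i ≠ 0) →
  ∀ (D' : Fin d → Derivation ℂ L L) (h : L), h * Q.jac D' y = 1 →
  H647.ResForm (chartY y A B) (chartF d A B) D' ((∏ i, lin y A B i) * h)

/-- B3. Values and orders in a chart. -/
def ChartBound : Prop := ∀ (d : ℕ) (U : Type) [Fintype U] (L : Type) [Field L] [Algebra ℂ L]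
  (y : Fin d → L) (A : U → ℂ) (B : U → Fin d → ℂ), 0 < d → IsRat y → (∀ i, A i ≠ 0) →
  ∀ (Ee : Finset ((U → ℤ) × (Fin d → ℤ))) (lam : (U → ℤ) × (Fin d → ℤ) → ℂ),
  Ee.Nonempty → (∀ e₀ ∈ Ee, ∃ δ : Derivation ℚ ℂ ℂ, (∀ i, δ (A i) = 0) ∧
    (∀ i j, δ (B i j) = 0) ∧ δ (lam e₀) = 1 ∧ ∀ e ∈ Ee, e ≠ e₀ → δ (lam e) = 0) →
  ∑ e ∈ Ee, algebraMap ℂ L (lam e) * term y A B e ≠ 0 ∧
  ∀ (w : AddValuation L (WithTop ℤ)), Q.IsDivisorial d w →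
    (∀ i j, B i j ≠ 0 → 0 ≤ ov w (y j)) →
    (∀ i, ov w (lin y A B i) = 0) → ∀ (D' : Fin d → Derivation ℂ L L) (h : L),
    h * Q.jac D' y = 1 → ∀ m' : ℤ, Q.FormOrder w D' m' →
    ∀ e₀ ∈ Ee, (∀ e ∈ Ee, twt w y e₀ ≤ twt w y e) →
    ov w h + ∑ j, ov w (y j) +
      (ov w (∑ e ∈ Ee, algebraMap ℂ L (lam e) * term y A B e) - twt w y e₀) ≤ 1 + m'

/-- B4. Divisorial valuations with given weights. -/
def ChartExist : Prop := ∀ (d : ℕ) (U : Type) [Fintype U] (L : Type) [Field L] [Algebra ℂ L]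
  (y : Fin d → L) (A : U → ℂ) (B : U → Fin d → ℂ), 0 < d → IsRat y → (∀ i, A i ≠ 0) →
  ∀ ω : Fin d → ℤ, ω ≠ 0 → (∀ i j, B i j ≠ 0 → 0 ≤ ω j) →
  ∃ w : AddValuation L (WithTop ℤ), Q.IsDivisorial d w ∧ ∃ c : ℕ, 0 < c ∧
    (∀ j, (c : ℤ) * ov w (y j) = ω j) ∧ (∀ i, ov w (lin y A B i) = 0) ∧
    ∀ (D' : Fin d → Derivation ℂ L L) (h : L), h * Q.jac D' y = 1 →
      ∀ m' : ℤ, Q.FormOrder w D' m' → (c : ℤ) * (1 + m' - ov w h) = ∑ j, ω j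

section Wts

variable {L : Type} [Field L] [Algebra ℂ L] {g R k N M : ℕ}

/-- The weights of a valuation. -/
noncomputable def wts (w : AddValuation L (WithTop ℤ)) (t : Fin g → L)
    (a : Fin R → Fin (g + 1) → ℂ) (z : Fin k → L) : Fin R ⊕ Fin k → ℤ :=
  fun x => ov w (coord t a z x)

/-- The lc condition for the pull-back of the pair. -/
def LcB (v : Fin N → Fin R ⊕ Fin k → ℤ) (t : Fin g → L) (a : Fin R → Fin (g + 1) → ℂ)
    (z : Fin k → L) (D' : Fin (g + k) → Derivation ℂ L L) (h : L) (r : ℕ)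
    (E : Fin (M + 1) → Fin R ⊕ Fin k → ℤ) (ε : ℝ) : Prop :=
  ∀ (w : AddValuation L (WithTop ℤ)) (m' : ℤ), Q.IsDivisorial (g + k) w →
    InCone v (wts w t a z) → Q.FormOrder w D' m' →
    ε ≤ 1 + m' - ov w h - (ordMono E (wts w t a z) : ℝ) / r

/-- The coordinates `ℓ_{e j} / ℓ_m`, `z_l` of the chart of the hyperplanes `e` and `m`. -/
noncomputable def arrY (t : Fin g → L) (a : Fin R → Fin (g + 1) → ℂ) (z : Fin k → L)
    (m : Option (Fin R)) (e : Fin g → Option (Fin R)) : Fin (g + k) → L :=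
  Fin.append (fun j => form t a (e j) / form t a m) z

end Wts

/-- B5a. The coordinates of the chart of the hyperplanes `e` and `m`. -/
def ArrRat : Prop := ∀ (g R k : ℕ) (L : Type) [Field L] [Algebra ℂ L] (t : Fin g → L)
  (a : Fin R → Fin (g + 1) → ℂ) (z : Fin k → L), IsRat (Fin.append t z) → GenPos a →
  ∀ (m : Option (Fin R)) (e : Fin g → Option (Fin R)), Function.Injective e → (∀ j, e j ≠ m) →
  IsRat (arrY t a z m e)

/-- B5b. The Jacobian determinant of the chart. -/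
def ArrJac : Prop := ∀ (g R k : ℕ) (L : Type) [Field L] [Algebra ℂ L] (t : Fin g → L)
  (a : Fin R → Fin (g + 1) → ℂ) (z : Fin k → L), IsRat (Fin.append t z) → GenPos a →
  ∀ (m : Option (Fin R)) (e : Fin g → Option (Fin R)), Function.Injective e → (∀ j, e j ≠ m) →
  ∃ u : ℂ, u ≠ 0 ∧ ∀ D' : Fin (g + k) → Derivation ℂ L L,
    Q.jac D' (arrY t a z m e) =
      algebraMap ℂ L u * (form t a m)⁻¹ ^ (g + 1) * Q.jac D' (Fin.append t z)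

/-- B5c. The other linear forms in the chart. -/
def ArrLin : Prop := ∀ (g R k : ℕ) (L : Type) [Field L] [Algebra ℂ L] (t : Fin g → L)
  (a : Fin R → Fin (g + 1) → ℂ) (z : Fin k → L), IsRat (Fin.append t z) → GenPos a →
  ∀ (m : Option (Fin R)) (e : Fin g → Option (Fin R)), Function.Injective e → (∀ j, e j ≠ m) →
  ∃ (A : Option (Fin R) → ℂ) (B : Option (Fin R) → Fin (g + k) → ℂ), (∀ p, A p ≠ 0) ∧
    (∀ p, (∀ j, e j ≠ p) → lin (arrY t a z m e) A B p = form t a p / form t a m) ∧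
    (∀ p, (∃ j, e j = p) → lin (arrY t a z m e) A B p = 1) ∧
    (∀ p l, B p (Fin.natAdd g l) = 0) ∧
    ∀ δ : Derivation ℚ ℂ ℂ, (∀ i j, δ (a i j) = 0) → (∀ p, δ (A p) = 0) ∧ ∀ p j, δ (B p j) = 0

/-- B6. The weights of a valuation. -/
def WtsTrop : Prop := ∀ (g R k : ℕ) (L : Type) [Field L] [Algebra ℂ L] (t : Fin g → L)
  (a : Fin R → Fin (g + 1) → ℂ) (z : Fin k → L), g ≤ R → IsRat (Fin.append t z) → GenPos a →
  ∀ w : AddValuation L (WithTop ℤ), (∀ c : ℂ, c ≠ 0 → w (algebraMap ℂ L c) = 0) →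
    OnTrop g (wts w t a z)

/-- B7. Generic functions with given exponents. -/
def GenericF : Prop := ∀ (g R k : ℕ) (L : Type) [Field L] [Algebra ℂ L] (t : Fin g → L)
  (a : Fin R → Fin (g + 1) → ℂ) (z : Fin k → L), 0 < g → g ≤ R → IsRat (Fin.append t z) →
  GenPos a → ∀ Ee : Finset (Fin R ⊕ Fin k → ℤ), Ee.Nonempty → ∃ F : L, F ≠ 0 ∧
    (∀ w : AddValuation L (WithTop ℤ), (∀ c : ℂ, c ≠ 0 → w (algebraMap ℂ L c) = 0) →
      ∀ B : ℤ, (∀ γ ∈ Ee, B ≤ ∑ x, γ x * wts w t a z x) → B ≤ ov w F) ∧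
    ∀ w : AddValuation L (WithTop ℤ), Q.IsDivisorial (g + k) w →
      ∀ (D' : Fin (g + k) → Derivation ℂ L L) (h : L), h * Q.jac D' (Fin.append t z) = 1 →
      ∀ m' : ℤ, Q.FormOrder w D' m' → ∀ γ₀ ∈ Ee,
      (∀ γ ∈ Ee, ∑ x, γ₀ x * wts w t a z x ≤ ∑ x, γ x * wts w t a z x) →
      ov w h + logDisc g (wts w t a z) + (ov w F - ∑ x, γ₀ x * wts w t a z x) ≤ 1 + m'

/-- B8. The log discrepancies at the lattice points. -/
def LcPoint : Prop := ∀ (g R k N M r : ℕ) (L : Type) [Field L] [Algebra ℂ L] (t : Fin g → L)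
  (a : Fin R → Fin (g + 1) → ℂ) (z : Fin k → L), 0 < g → g ≤ R → IsRat (Fin.append t z) →
  GenPos a → ∀ (v : Fin N → Fin R ⊕ Fin k → ℤ) (E : Fin (M + 1) → Fin R ⊕ Fin k → ℤ) (ε : ℝ),
  0 < ε → 0 < r → ∀ (D' : Fin (g + k) → Derivation ℂ L L) (h : L),
  h * Q.jac D' (Fin.append t z) = 1 → LcB v t a z D' h r E ε → LcPt g ε r v E

end Vale.Agent.P283.A647
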